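import Vale.Agent.P290Z.KT.Basic

/-! P290Z, part III, block KT: the fundamental domain. -/

open Set Filter MeasureTheory
open scoped Topology Manifold ContDiff

noncomputable section

namespace Vale.Agent.P290Z.KT

open Vale.Agent.P290 Vale.Agent.P267 Vale.Agent.P290Z.W
open Vale.Agent.P290Z.Kum (pr)
open Vale.Agent.P290.H445 (φ)

variable {co : Co}

namespace DP

/-! ### the volume in linear coordinates -/

/-- the standard real basis as a basis -/
def bsB : Module.Basis (Fin 4) ℝ V :=
  (Complex.basisOneI.prod Complex.basisOneI).reindex finSumFinEquiv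

theorem bsB_apply (j : Fin 4) : bsB j = bs j := by
  have h0 : (finSumFinEquiv (m := 2) (n := 2)).symm 0 = Sum.inl 0 := rfl
  have h1 : (finSumFinEquiv (m := 2) (n := 2)).symm 1 = Sum.inl 1 := rfl
  have h2 : (finSumFinEquiv (m := 2) (n := 2)).symm 2 = Sum.inr 0 := rfl
  have h3 : (finSumFinEquiv (m := 2) (n := 2)).symm 3 = Sum.inr 1 := rfl
  fin_cases j <;> simp [bsB, bs, h0, h1, h2, h3, Module.Basis.prod_apply]

theorem bsB_addHaar : bsB.addHaar = volume := by
  have h : Complex.basisOneI.addHaar = volume :=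
    (Module.Basis.addHaar_eq_iff _ _).mpr Complex.orthonormalBasisOneI.volume_parallelepiped
  rw [bsB, Module.Basis.addHaar_reindex, Module.Basis.prod_addHaar, h]
  rfl

theorem map_bsB : Measure.map bsB.equivFunL volume = volume := by
  rw [← bsB_addHaar, Module.Basis.map_addHaar, ← addHaarMeasure_eq_volume_pi,
    ← Module.Basis.parallelepiped_basisFun, ← Module.Basis.addHaar]
  refine congrArg _ (Module.Basis.eq_of_apply_eq fun i => ?_)
  funext j
  simp [Pi.single_apply, Finsupp.single_apply, eq_comm]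

theorem co_eq (z : V) :
    co z = Matrix.toLin' (Matrix.of fun i j => co (bs j) i) (bsB.equivFunL z) := by
  funext i
  conv_lhs => rw [← bsB.sum_equivFun z]
  simp [Matrix.mulVec, dotProduct, Finset.sum_apply, bsB_apply, mul_comm]

theorem det_co_ne (co : Co) : (Matrix.of fun i j => co (bs j) i).det ≠ 0 := by
  have hb : LinearIndependent ℝ bs := by
    rw [← funext bsB_apply]
    exact bsB.linearIndependent
  have h1 := hb.map' (co : V →ₗ[ℝ] R4) (LinearMap.ker_eq_bot.2 co.injective)
  have h2 : LinearIndependent ℝ (Matrix.of fun i j => co (bs j) i).col := h1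
  exact ((Matrix.isUnit_iff_isUnit_det _).1
    (Matrix.linearIndependent_cols_iff_isUnit.1 h2)).ne_zero

theorem map_co (co : Co) : Measure.map co volume =
    ENNReal.ofReal |(Matrix.of fun i j => co (bs j) i).det⁻¹| • volume := by
  rw [← Real.map_matrix_volume_pi_eq_smul_volume_pi (det_co_ne co), ← map_bsB,
    Measure.map_map (LinearMap.continuous_of_finiteDimensional _).measurable
      bsB.equivFunL.continuous.measurable]
  exact congrArg (Measure.map · volume) (funext co_eq)

theorem null_hyp (co : Co) (i : Fin 4) (c : ℝ) : volume {z : V | co z i = c} = 0 := by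
  have h : volume {f : R4 | f i = c} = 0 :=
    Measure.pi_hyperplane (fun _ : Fin 4 => (volume : Measure ℝ)) i c
  have h1 : Measure.map co volume {f : R4 | f i = c} = 0 := by
    rw [map_co, Measure.smul_apply, h, smul_zero]
  exact Measure.preimage_null_of_map_null co.continuous.measurable.aemeasurable h1

theorem null_axis : volume {v : V | v.1 = 0} = 0 := by
  have h : {v : V | v.1 = 0} = ({0} : Set ℂ) ×ˢ univ := by
    ext v
    simp
  rw [h, Measure.volume_eq_prod, Measure.prod_prod, measure_singleton, zero_mul]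

/-- local biholomorphisms map null sets to null sets -/
theorem null_img {Y : W.K3} {ν : V → Y.X} {A : Set V} (hA : volume A = 0)
    (hν : ∀ v ∈ A, All.Etale ν v) {e : FL.Ch Y.X} (he : e ∈ atlas FL.C2 Y.X) :
    volume {w | w ∈ e.target ∧ e.symm w ∈ ν '' A} = 0 := by
  have h1 : DifferentiableOn ℝ (fun z => φ.symm (e (ν z))) (A ∩ ν ⁻¹' e.source) := by
    intro v hv
    have h2 := FL.trans_differentiableAt (chart_mem_atlas FL.C2 (ν v)) he
      (mem_chart_source _ _) hv.2
    have h3 : DifferentiableAt ℂ (fun z => chartAt FL.C2 (ν v) (ν z)) v :=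
      φ.differentiableAt.comp v (hν v hv.1).2.1
    have h4 : DifferentiableAt ℂ (fun z => e (ν z)) v := by
      refine (h2.comp v h3).congr_of_eventuallyEq ?_
      filter_upwards [(hν v hv.1).1.eventually (chart_source_mem_nhds FL.C2 (ν v))] with z hz
      exact congrArg e ((chartAt FL.C2 (ν v)).left_inv hz).symm
    exact ((φ.symm.differentiableAt.comp v h4).restrictScalars ℝ).differentiableWithinAt
  have h0 : (volume : Measure V).IsAddHaarMeasure := by
    rw [← bsB_addHaar]
    infer_instance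
  have h5 := addHaar_image_eq_zero_of_differentiableOn_of_addHaar_eq_zero volume h1
    (measure_mono_null inter_subset_left hA)
  refine measure_mono_null ?_
    ((volume_preserving_finTwoArrow ℂ).quasiMeasurePreserving.preimage_null h5)
  rintro w ⟨hw, v, hv, hvw⟩
  refine ⟨v, ⟨hv, ?_⟩, ?_⟩
  · rw [mem_preimage, hvw]
    exact e.map_target hw
  · simp only [hvw, e.right_inv hw]
    rfl

/-! ### the fundamental domain -/

theorem fd_open (co : Co) : IsOpen (Fd co) := by
  have hc : ∀ i, Continuous fun z : V => co z i := fun i => (continuous_apply i).comp co.continuous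
  have h : {z : V | ∀ i, i ≠ 0 → co z i ∈ Ioo (0 : ℝ) 1} =
      ⋂ i ∈ {i : Fin 4 | i ≠ 0}, (fun z => co z i) ⁻¹' Ioo 0 1 := by
    ext z
    simp
  refine (isOpen_Ioo.preimage (hc 0)).inter ?_
  change IsOpen {z : V | ∀ i, i ≠ 0 → co z i ∈ Ioo (0 : ℝ) 1}
  rw [h]
  exact (toFinite _).isOpen_biInter fun i _ => isOpen_Ioo.preimage (hc i)

theorem int_not_mem (n : ℤ) (h0 : (0 : ℝ) < n) (h1 : (n : ℝ) < 1) : False := by
  have h2 : 0 < n := by exact_mod_cast h0
  have h3 : n < 1 := by exact_mod_cast h1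
  omega

theorem fd_good {z : V} (h : z ∈ Fd co) : Good co z := fun hm => by
  obtain ⟨n, hn⟩ := mem_Lt'.1 hm 0
  rw [map_add, Pi.add_apply] at hn
  exact int_not_mem n (by linarith [h.1.1]) (by linarith [h.1.2])

theorem fd_mem {z : V} (h : z ∈ Fd co) (i : Fin 4) : co z i ∈ Ioo (0 : ℝ) 1 := by
  by_cases hi : i = 0
  · subst hi
    exact ⟨h.1.1, by linarith [h.1.2]⟩
  · exact h.2 i hi

section

variable {X : Type} [TopologicalSpace X] [ChartedSpace V X] (K : All.Kummer (Lt co) X)

theorem fd_inj : InjOn (pr K) (Fd co) := by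
  intro z hz z' hz' h
  obtain ⟨m, h | h⟩ := (pr_eq_iff K (fd_good hz) (fd_good hz')).1 h
  · refine co_ext (co := co) fun i => ?_
    have h1 : co z' i = co z i + m i := by simp [h]
    have h2 := fd_mem hz i
    have h3 := fd_mem hz' i
    have h4 : -1 < m i := by exact_mod_cast (show (-1 : ℝ) < m i by linarith [h2.2, h3.1])
    have h5 : m i < 1 := by exact_mod_cast (show (m i : ℝ) < 1 by linarith [h2.1, h3.2])
    have h6 : m i = 0 := by omega
    rw [h1, h6, Int.cast_zero, add_zero]
  · have h1 : co z' 0 = -co z 0 + m 0 := by simp [h]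
    exact (int_not_mem (m 0) (by linarith [hz.1.1, hz'.1.1]) (by linarith [hz.1.2, hz'.1.2])).elim

theorem mem_fd_img {z : V} (hz : Good co z) (h : ∀ (i : Fin 4) (k : ℤ), co z i ≠ k / 2) :
    pr K z ∈ pr K '' Fd co := by
  have h1 : ∀ i, co (z + lp co fun i => -⌊co z i⌋) i ∈ Ioo (0 : ℝ) 1 := by
    intro i
    have h2 := Int.floor_le (co z i)
    have h3 := Int.lt_floor_add_one (co z i)
    have h4 := h i (2 * ⌊co z i⌋)
    simp only [map_add, Pi.add_apply, co_lp, Int.cast_neg]
    refine ⟨lt_of_le_of_ne (by linarith) fun e => h4 ?_, by linarith⟩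
    push_cast
    linarith
  have h2 : co (z + lp co fun i => -⌊co z i⌋) 0 ≠ 1 / 2 := by
    intro e
    refine h 0 (2 * ⌊co z 0⌋ + 1) ?_
    simp only [map_add, Pi.add_apply, co_lp, Int.cast_neg] at e
    push_cast
    linarith
  rw [← pr_lp K hz fun i => -⌊co z i⌋]
  have h3 := good_add hz fun i => -⌊co z i⌋
  generalize (z + lp co fun i => -⌊co z i⌋) = w at h1 h2 h3
  rcases h2.lt_or_gt with h4 | h4
  · exact mem_image_of_mem _ ⟨⟨(h1 0).1, h4⟩, fun i _ => h1 i⟩
  · have h5 : ∀ i, co (-w + lp co 1) i = 1 - co w i := fun i => by simp [neg_add_eq_sub]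
    refine ⟨-w + lp co 1, ⟨?_, fun i _ => ?_⟩, by rw [pr_lp K (good_neg h3), pr_neg K h3]⟩
    · rw [h5]
      exact ⟨by linarith [(h1 0).2], by linarith⟩
    · rw [h5]
      exact ⟨by linarith [(h1 i).2], by linarith [(h1 i).1]⟩

end

theorem fd_null {Y : W.K3} (K : All.Kummer (Lt co) Y.X) {e : FL.Ch Y.X}
    (he : e ∈ atlas FL.C2 Y.X) : volume {w | w ∈ e.target ∧ e.symm w ∉ pr K '' Fd co} = 0 := by
  have h1 : volume ({z | Good co z} ∩ ⋃ (i : Fin 4) (k : ℤ), {z : V | co z i = k / 2}) = 0 :=
    measure_mono_null inter_subset_right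
      (measure_iUnion_null fun i => measure_iUnion_null fun k => null_hyp co i _)
  have h2 := null_img h1 (fun v hv => etale_pr K hv.1) he
  have h3 : ∀ (a : F4) (b : Bool),
      volume {w | w ∈ e.target ∧ e.symm w ∈ K.N (pt co a) b '' {v : V | v.1 = 0}} = 0 := by
    intro a b
    refine null_img null_axis (fun v hv => ?_) he
    obtain ⟨x, u⟩ := v
    obtain rfl : x = 0 := hv
    exact K.etale _ _ _ (dom_pt a b u)
  refine measure_mono_null ?_
    (measure_union_null h2 (measure_iUnion_null fun a => measure_iUnion_null fun b => h3 a b))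
  rintro w ⟨hw, hw'⟩
  rcases cover K (e.symm w) with ⟨z, hz, h⟩ | ⟨a, b, u, h⟩
  · refine Or.inl ⟨hw, z, ⟨hz, ?_⟩, h⟩
    by_contra h4
    refine hw' (h ▸ mem_fd_img K hz fun i k h5 => h4 ?_)
    exact mem_iUnion₂.2 ⟨i, k, h5⟩
  · exact Or.inr (mem_iUnion₂.2 ⟨a, b, hw, (0, u), rfl, h⟩)

end DP

open DP

/-- DOM -/
theorem dom' : StDom := fun _ co K =>
  ⟨fd_open co, fun _ => fd_good, fd_inj K, fun _ => fd_null K⟩

/-- DOM, in the form with the hypothesis of the plan -/
theorem dom (_ : StApi0) : StDom := dom'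

end Vale.Agent.P290Z.KT
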