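import Vale.Agent.P290Z.KT.Spec
import Vale.Agent.P290Z.KT.Int.Core

/-! P290Z, block KT: integration along an injective local biholomorphism with conull image. -/

open scoped Manifold ContDiff Topology
open MeasureTheory Set Filter

noncomputable section

namespace Vale.Agent.P290Z.KT

open Vale.Agent.P290 Vale.Agent.P267 Vale.Agent.P290.H686
open Vale.Agent.P290.H445 (φ)

namespace It

/-- the real linear map underlying `φ⁻¹` -/
def ψ : FL.C2 →L[ℝ] V := (φ.symm : FL.C2 →L[ℂ] V).restrictScalars ℝ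

theorem der {Y : W.K3} {ν : V → Y.X} {v : V} (h : All.Etale ν v) :
    HasFDerivAt (fun z => chartAt FL.C2 (ν v) (ν z)) (Dm ν v) v ∧ 0 < ((Dm ν v).comp ψ).det := by
  have h1 := ((φ : V →L[ℂ] FL.C2).hasFDerivAt.comp v h.2.1.hasFDerivAt).restrictScalars ℝ
  have h2 : Dm ν v = _ := h1.fderiv
  refine ⟨h2 ▸ h1, ?_⟩
  have h3 : (Dm ν v).comp ψ = (((φ : V →L[ℂ] FL.C2).comp
      (fderiv ℂ (fun z => chartAt V (ν v) (ν z)) v)).comp (φ.symm : FL.C2 →L[ℂ] V)).restrictScalars
        ℝ := by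
    rw [h2]
    rfl
  have h4 : ∀ L : FL.C2 →L[ℂ] FL.C2, (L.restrictScalars ℝ).det = Complex.normSq L.det := fun L => by
    rw [← Algebra.norm_complex_apply, ContinuousLinearMap.det, ContinuousLinearMap.det,
      ← LinearMap.det_restrictScalars]
    rfl
  rw [h3, h4, Complex.normSq_pos]
  have h5 := LinearMap.det_conj
    (fderiv ℂ (fun z => chartAt V (ν v) (ν z)) v : V →ₗ[ℂ] V) φ.toLinearEquiv
  exact fun h0 => h.2.2 (h5.symm.trans h0)

end It

open It in
theorem int : StInt := by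
  intro Y ν O hO he hi hn F F' hF hF'
  have hm : MeasurePreserving (φ.symm : FL.C2 → V) := volume_preserving_finTwoArrow ℂ
  have hs : (fun w => ν (φ.symm w)) '' (φ.symm ⁻¹' O) = ν '' O := by
    rw [← image_image ν φ.symm, image_preimage_eq _ φ.symm.surjective]
  rw [BlockC.pair, core (μ := fun w => ν (φ.symm w)) (D := fun w => (Dm ν (φ.symm w)).comp ψ)
    (hO.preimage φ.symm.continuous)
    (fun z hz => (he _ hz).1.comp φ.symm.continuous.continuousAt)
    (fun z hz => (der (he _ hz)).1.comp z ψ.hasFDerivAt) (fun z hz => (der (he _ hz)).2)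
    (fun z hz w hw h => φ.symm.injective (hi hz hw h)) (hs ▸ hn)
    (H332.reg2_wedge hF hF').zero_order,
    ← hm.setIntegral_preimage_emb φ.symm.toHomeomorph.measurableEmbedding]
  congr 1
  funext w
  have h1 := wd_comp _ _ (val2_swap F (ν (φ.symm w))) (val2_swap F' (ν (φ.symm w)))
    ((Dm ν (φ.symm w)).comp ψ) (Pi.single 0 1) (Pi.single 0 Complex.I) (Pi.single 1 1)
    (Pi.single 1 Complex.I)
  rw [val2, val2, wd_ev2] at h1
  refine Eq.trans ?_ (h1.symm.trans ?_)
  · rw [FL.TwoF.wedge]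
    ring
  · rfl

end Vale.Agent.P290Z.KT
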