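import Vale.Agent.P290Z.KT.Spec

/-! P290Z, part III, block KT: derivatives, local inverses and smoothness along local
biholomorphisms. -/

set_option linter.unusedVariables false

open Set Filter
open scoped Topology Manifold ContDiff

noncomputable section

namespace Vale.Agent.P290Z.KT

open Vale.Agent.P290 Vale.Agent.P267 Vale.Agent.P290Z.W
open Vale.Agent.P267.FL (TwoF OneF Reg0 Ch)
open Vale.Agent.P290.H686 (val1 val2 E1 E2 Dch)
open Vale.Agent.P290.H445 (φ)

variable {Y : W.K3} {ν : V → Y.X} {v : V} {e : Ch Y.X}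

theorem Et.self (h : Et ν v) : All.Etale ν v := Eventually.self_of_nhds h

theorem etale_chart (h : All.Etale ν v) : ∃ L : V ≃L[ℂ] FL.C2,
    HasFDerivAt (fun z => chartAt FL.C2 (ν v) (ν z)) (L : V →L[ℂ] FL.C2) v :=
  ⟨(ContinuousLinearMap.toContinuousLinearEquivOfDetNeZero _ h.2.2).trans φ,
    (φ : V →L[ℂ] FL.C2).hasFDerivAt.comp v h.2.1.hasFDerivAt⟩

theorem etale_mem (h : All.Etale ν v) (hx : ν v ∈ e.source) : ∀ᶠ z in 𝓝 v, ν z ∈ e.source :=
  h.1.eventually (e.open_source.mem_nhds hx)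

theorem etale_eq (h : All.Etale ν v) (e' : Ch Y.X) (hx : ν v ∈ e.source) :
    (fun z => e' (ν z)) =ᶠ[𝓝 v] (fun w => e' (e.symm w)) ∘ fun z => e (ν z) := by
  filter_upwards [etale_mem h hx] with z hz
  simp only [Function.comp_apply, e.left_inv hz]

theorem etale_diff (h : All.Etale ν v) (he : e ∈ atlas FL.C2 Y.X) (hx : ν v ∈ e.source) :
    DifferentiableAt ℂ (fun z => e (ν z)) v := by
  obtain ⟨L, hL⟩ := etale_chart h
  exact ((FL.trans_differentiableAt (chart_mem_atlas FL.C2 (ν v)) he (mem_chart_source _ _)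
    hx).comp v hL.differentiableAt).congr_of_eventuallyEq (etale_eq h e (mem_chart_source _ _))

theorem etale_equiv (h : All.Etale ν v) (he : e ∈ atlas FL.C2 Y.X) (hx : ν v ∈ e.source) :
    ∃ L : V ≃L[ℂ] FL.C2, HasFDerivAt (fun z => e (ν z)) (L : V →L[ℂ] FL.C2) v := by
  obtain ⟨L, hL⟩ := etale_chart h
  have h1 := etale_diff h he hx
  have h2 := ((FL.trans_differentiableAt he (chart_mem_atlas FL.C2 (ν v)) hx
    (mem_chart_source _ _)).hasFDerivAt.comp v h1.hasFDerivAt).congr_of_eventuallyEq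
    (etale_eq h _ hx)
  have h3 := hL.unique h2
  have h4 : Function.Injective (fderiv ℂ (fun z => e (ν z)) v) := fun a b hab => L.injective (by
    change (L : V →L[ℂ] FL.C2) a = (L : V →L[ℂ] FL.C2) b
    rw [h3, ContinuousLinearMap.comp_apply, ContinuousLinearMap.comp_apply, hab])
  have h5 : Function.Surjective (fderiv ℂ (fun z => e (ν z)) v) :=
    (LinearMap.injective_iff_surjective_of_finrank_eq_finrank
      (f := (fderiv ℂ (fun z => e (ν z)) v : V →ₗ[ℂ] FL.C2)) L.toLinearEquiv.finrank_eq).1 h4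
  exact ⟨ContinuousLinearEquiv.ofBijective _ (LinearMap.ker_eq_bot.2 h4)
    (LinearMap.range_eq_top.2 h5), h1.hasFDerivAt⟩

theorem Et.ana (h : Et ν v) (he : e ∈ atlas FL.C2 Y.X) (hx : ν v ∈ e.source) :
    AnalyticAt ℂ (fun z => e (ν z)) v := by
  obtain ⟨O, h1, h2, h3⟩ := eventually_nhds_iff.1 (Eventually.and h (etale_mem h.self hx))
  exact P268.analyticAt_of_differentiableOn h2
    (fun z hz => (etale_diff (h1 z hz).1 he (h1 z hz).2).differentiableWithinAt) h3

theorem Et.cda (h : Et ν v) (he : e ∈ atlas FL.C2 Y.X) (hx : ν v ∈ e.source) :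
    ContDiffAt ℝ ∞ (fun z => e (ν z)) v :=
  ((h.ana he hx).contDiffAt (n := ∞)).restrict_scalars ℝ

theorem Dm_eq (h : All.Etale ν v) (x : V) :
    Dm ν v x = fderiv ℂ (fun z => chartAt FL.C2 (ν v) (ν z)) v x := by
  rw [Dm, (etale_diff h (chart_mem_atlas _ _) (mem_chart_source _ _)).fderiv_restrictScalars ℝ]
  rfl

theorem Dm_chart (h : All.Etale ν v) (he : e ∈ atlas FL.C2 Y.X) (hx : ν v ∈ e.source) :
    Dm ν v = (Dch e (ν v)).comp (fderiv ℝ (fun z => e (ν z)) v) := by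
  rw [Dm, (etale_eq h _ hx).fderiv_eq]
  exact fderiv_comp v ((FL.trans_differentiableAt he (chart_mem_atlas FL.C2 (ν v)) hx
    (mem_chart_source _ _)).restrictScalars ℝ) ((etale_diff h he hx).restrictScalars ℝ)

theorem p1_chart (h : All.Etale ν v) (he : e ∈ atlas FL.C2 Y.X) (hx : ν v ∈ e.source)
    (A : OneF Y.X) : p1 ν A v = (E1 e A (e (ν v))).comp (fderiv ℝ (fun z => e (ν z)) v) := by
  rw [p1, Dm_chart h he hx, H686.E1_apply he A hx]
  rfl

theorem p2_chart (h : All.Etale ν v) (he : e ∈ atlas FL.C2 Y.X) (hx : ν v ∈ e.source)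
    (F : TwoF Y.X) : p2 ν F v = (E2 e F (e (ν v))).bilinearComp
      (fderiv ℝ (fun z => e (ν z)) v) (fderiv ℝ (fun z => e (ν z)) v) := by
  rw [p2, Dm_chart h he hx, H686.E2_eq he F hx]
  rfl

theorem etale_mdiff (h : All.Etale ν v) : MDifferentiableAt 𝓘(ℂ, V) 𝓘(ℂ, FL.C2) ν v := by
  rw [mdifferentiableAt_iff]
  exact ⟨h.1, (etale_diff h (chart_mem_atlas _ _) (mem_chart_source _ _)).differentiableWithinAt⟩

theorem etale_mfderiv (h : All.Etale ν v) (x : V) :
    mfderiv 𝓘(ℂ, V) 𝓘(ℂ, FL.C2) ν v x = Dm ν v x := by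
  rw [Dm_eq h, (etale_mdiff h).mfderiv, modelWithCornersSelf_coe, range_id, fderivWithin_univ]
  rfl

/-- the local inverse in a chart -/
theorem Et.core (h : Et ν v) (he : e ∈ atlas FL.C2 Y.X) (hx : ν v ∈ e.source) :
    ∃ k : OpenPartialHomeomorph V FL.C2, v ∈ k.source ∧ (⇑k = fun z => e (ν z)) ∧
      (∀ z ∈ k.source, All.Etale ν z ∧ ν z ∈ e.source) ∧
      ∀ w ∈ k.target, ContDiffAt ℂ ω k.symm w := by
  obtain ⟨L, hL⟩ := etale_equiv h.self he hx
  obtain ⟨O, h1, h2, h3⟩ := eventually_nhds_iff.1 (Eventually.and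
    (show ∀ᶠ z in 𝓝 v, Et ν z from Eventually.eventually_nhds h) (etale_mem h.self hx))
  have h4 : ContDiffAt ℂ ω (fun z => e (ν z)) v := (h.ana he hx).contDiffAt
  refine ⟨(h4.toOpenPartialHomeomorph _ hL (by simp)).restrOpen O h2,
    ⟨h4.mem_toOpenPartialHomeomorph_source hL _, h3⟩, rfl,
    fun z hz => ⟨(h1 z hz.2).1.self, (h1 z hz.2).2⟩, fun w hw => ?_⟩
  have h5 := h1 _ (OpenPartialHomeomorph.map_target _ hw).2
  obtain ⟨L', hL'⟩ := etale_equiv h5.1.self he h5.2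
  exact OpenPartialHomeomorph.contDiffAt_symm _ hw hL' (h5.1.ana he h5.2).contDiffAt

theorem Et.inv (h : Et ν v) : ∃ e : OpenPartialHomeomorph V Y.X, v ∈ e.source ∧
    (∀ z ∈ e.source, e z = ν z ∧ All.Etale ν z) ∧
    MDifferentiableOn 𝓘(ℂ, FL.C2) 𝓘(ℂ, V) e.symm e.target ∧
    ContMDiffOn 𝓘(ℝ, FL.C2) 𝓘(ℝ, V) ∞ e.symm e.target ∧
    ∀ y ∈ e.target, Function.Surjective (mfderiv 𝓘(ℂ, FL.C2) 𝓘(ℂ, V) e.symm y) := by
  have he := chart_mem_atlas FL.C2 (ν v)
  have hx := mem_chart_source FL.C2 (ν v)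
  obtain ⟨k, k1, k2, k3, k4⟩ := h.core he hx
  set c := chartAt FL.C2 (ν v)
  have a1 : ∀ z ∈ (k.trans c.symm).source, (k.trans c.symm) z = ν z ∧ All.Etale ν z := by
    intro z hz
    refine ⟨?_, (k3 z hz.1).1⟩
    change c.symm (k z) = ν z
    rw [k2]
    exact c.left_inv (k3 z hz.1).2
  have a2 : ∀ y ∈ (k.trans c.symm).target,
      ContDiffAt ℂ ω (fun w => k.symm (c ((chartAt FL.C2 y).symm w))) (chartAt FL.C2 y y) := by
    intro y hy
    refine ContDiffAt.comp (g := k.symm) _ ?_ (FL.trans_analyticAt (chart_mem_atlas FL.C2 y) he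
      (mem_chart_source _ _) hy.1).contDiffAt
    rw [(chartAt FL.C2 y).left_inv (mem_chart_source _ _)]
    exact k4 _ hy.2
  have a3 : ∀ y ∈ (k.trans c.symm).target,
      MDifferentiableAt 𝓘(ℂ, FL.C2) 𝓘(ℂ, V) (k.trans c.symm).symm y := by
    intro y hy
    rw [mdifferentiableAt_iff]
    exact ⟨(k.trans c.symm).continuousAt_symm hy,
      ((a2 y hy).differentiableAt (by simp)).differentiableWithinAt⟩
  refine ⟨k.trans c.symm, ⟨k1, ?_⟩, a1, fun y hy => (a3 y hy).mdifferentiableWithinAt,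
    fun y hy => ContMDiffAt.contMDiffWithinAt ?_, fun y hy x => ?_⟩
  · change k v ∈ c.target
    rw [k2]
    exact c.map_source hx
  · rw [contMDiffAt_iff]
    exact ⟨(k.trans c.symm).continuousAt_symm hy,
      (((a2 y hy).of_le le_top).restrict_scalars ℝ).contDiffWithinAt⟩
  · obtain ⟨z, hz, rfl⟩ : ∃ z ∈ (k.trans c.symm).source, ν z = y :=
      ⟨_, (k.trans c.symm).map_target hy,
        (a1 _ ((k.trans c.symm).map_target hy)).1.symm.trans ((k.trans c.symm).right_inv hy)⟩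
    have b1 : (k.trans c.symm).symm ∘ ν =ᶠ[𝓝 z] id := by
      filter_upwards [(k.trans c.symm).open_source.mem_nhds hz] with t ht
      rw [Function.comp_apply, ← (a1 t ht).1, (k.trans c.symm).left_inv ht, id]
    have b2 := mfderiv_comp z (a3 _ hy) (etale_mdiff (a1 z hz).2)
    rw [b1.mfderiv_eq, mfderiv_id] at b2
    exact ⟨mfderiv 𝓘(ℂ, V) 𝓘(ℂ, FL.C2) ν z x, (congrArg (fun l => l x) b2).symm⟩

theorem api0 : StApi0 := by
  refine fun Y => ⟨fun ν v h => ⟨?_, fun c x => ?_, etale_mdiff h.self, etale_mfderiv h.self⟩,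
    fun ν ν' g v h hg hν => ?_, fun ν v h => h.inv⟩
  · obtain ⟨L, hL⟩ := etale_chart h.self
    have : (Dm ν v : V → FL.C2) = L := funext fun x => by
      rw [Dm_eq h.self, hL.fderiv]
      rfl
    rw [this]
    exact L.bijective
  · rw [Dm_eq h.self, Dm_eq h.self, map_smul]
  · have h1 : (fun z => chartAt FL.C2 (ν' (g v)) (ν z)) =ᶠ[𝓝 v]
        (fun z => chartAt FL.C2 (ν' (g v)) (ν' z)) ∘ g := by
      filter_upwards [hν] with z hz
      rw [hz, Function.comp_apply]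
    rw [Dm, hν.self_of_nhds, h1.fderiv_eq]
    exact fderiv_comp v ((etale_diff h.self (chart_mem_atlas _ _)
      (mem_chart_source _ _)).restrictScalars ℝ) hg

/-- functions which are smooth in a chart -/
theorem Et.comp_cda {E : Type} [NormedAddCommGroup E] [NormedSpace ℝ E] (h : Et ν v)
    (he : e ∈ atlas FL.C2 Y.X) (hx : ν v ∈ e.source) {s : Y.X → E}
    (hs : ContDiffAt ℝ ∞ (fun w => s (e.symm w)) (e (ν v))) :
    ContDiffAt ℝ ∞ (fun z => s (ν z)) v := by
  refine (ContDiffAt.comp (g := fun w => s (e.symm w)) v hs (h.cda he hx)).congr_of_eventuallyEq ?_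
  filter_upwards [etale_mem h.self hx] with z hz
  simp only [Function.comp_apply, e.left_inv hz]

/-- a smooth local inverse -/
theorem Et.core' (h : Et ν v) (he : e ∈ atlas FL.C2 Y.X) (hx : ν v ∈ e.source) :
    ∃ g : FL.C2 → V, ContDiffAt ℝ ∞ g (e (ν v)) ∧ g (e (ν v)) = v ∧
      ∀ᶠ w in 𝓝 (e (ν v)), All.Etale ν (g w) ∧ ν (g w) ∈ e.source ∧ e (ν (g w)) = w ∧
        (fderiv ℝ (fun z => e (ν z)) (g w)).comp (fderiv ℝ g w) = ContinuousLinearMap.id ℝ _ := by
  obtain ⟨k, k1, k2, k3, k4⟩ := h.core he hx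
  have h1 : e (ν v) = k v := by rw [k2]
  have h2 : ∀ w ∈ k.target, ContDiffAt ℝ ∞ k.symm w := fun w hw =>
    ((k4 w hw).of_le le_top).restrict_scalars ℝ
  rw [h1]
  refine ⟨k.symm, h2 _ (k.map_source k1), k.left_inv k1, ?_⟩
  filter_upwards [k.open_target.mem_nhds (k.map_source k1)] with w hw
  have h3 := k3 _ (k.map_target hw)
  refine ⟨h3.1, h3.2, (congrFun k2 _).symm.trans (k.right_inv hw), ?_⟩
  have h4 : (fun z => e (ν z)) ∘ k.symm =ᶠ[𝓝 w] id := by
    filter_upwards [k.open_target.mem_nhds hw] with t ht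
    exact (congrFun k2 _).symm.trans (k.right_inv ht)
  rw [← fderiv_comp w ((etale_diff h3.1 he h3.2).restrictScalars ℝ)
    ((h2 w hw).differentiableAt (by simp)), h4.fderiv_eq, fderiv_id]

theorem cda_bil {E E' : Type} [NormedAddCommGroup E] [NormedSpace ℝ E] [NormedAddCommGroup E']
    [NormedSpace ℝ E'] {F : E → E' →L[ℝ] E' →L[ℝ] ℂ} {L : E → E →L[ℝ] E'} {z : E}
    (hF : ContDiffAt ℝ ∞ F z) (hL : ContDiffAt ℝ ∞ L z) :
    ContDiffAt ℝ ∞ (fun y => (F y).bilinearComp (L y) (L y)) z := by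
  have h1 := (LinearIsometryEquiv.contDiff (E := E →L[ℝ] E' →L[ℝ] ℂ) (F := E' →L[ℝ] E →L[ℝ] ℂ)
    (ContinuousLinearMap.flipₗᵢ ℝ E E' ℂ)).contDiffAt.comp z (hF.clm_comp hL)
  exact (LinearIsometryEquiv.contDiff (E := E →L[ℝ] E →L[ℝ] ℂ) (F := E →L[ℝ] E →L[ℝ] ℂ)
    (ContinuousLinearMap.flipₗᵢ ℝ E E ℂ)).contDiffAt.comp z (h1.clm_comp hL)

theorem api1 : StApi1 := by
  have i1 : (∞ : WithTop ℕ∞) + 1 ≤ ∞ := by simp
  refine fun Y => ⟨fun s ν v hs h => ?_, fun s hs e he w hw => ?_, fun A ν v hA h => ?_,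
    fun A hA => H686.smooth1_iff.2 fun e he w hw => ?_, fun F ν v hF h => ?_,
    fun N ν v hN h => ⟨?_, hN.nonneg _⟩⟩
  · refine h.comp_cda (chart_mem_atlas _ _) (mem_chart_source _ _) ?_
    have := FL.reg0_iff.1 hs (ν v)
    rwa [FL.LB.loc0_zero] at this
  · obtain ⟨ν, v, h, h1, h2⟩ := hs (e.symm w)
    have hx : ν v ∈ e.source := h1 ▸ e.map_target hw
    obtain ⟨g, g1, g2, g3⟩ := h.core' he hx
    rw [h1, e.right_inv hw] at g1 g2 g3
    rw [FL.LB.loc0_zero]
    refine ((ContDiffAt.comp (g := fun z => s (ν z)) w (by rwa [g2]) g1).congr_of_eventuallyEq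
      ?_).contDiffWithinAt
    filter_upwards [g3] with t ht
    rw [Function.comp_apply, Function.comp_apply, ← e.left_inv ht.2.1, ht.2.2.1]
  · have he := chart_mem_atlas FL.C2 (ν v)
    have hx := mem_chart_source FL.C2 (ν v)
    have h1 := h.cda he hx
    refine ((ContDiffAt.comp (g := E1 _ A) v (H686.smooth1_iff.1 hA _ he _ (mem_chart_target _ _))
      h1).clm_comp (h1.fderiv_right i1)).congr_of_eventuallyEq ?_
    filter_upwards [h, etale_mem h.self hx] with z hz hz'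
    exact p1_chart hz he hz' A
  · obtain ⟨ν, v, h, h1, h2⟩ := hA (e.symm w)
    have hx : ν v ∈ e.source := h1 ▸ e.map_target hw
    obtain ⟨g, g1, g2, g3⟩ := h.core' he hx
    rw [h1, e.right_inv hw] at g1 g2 g3
    refine ((ContDiffAt.comp (g := p1 ν A) w (by rwa [g2]) g1).clm_comp
      (g1.fderiv_right i1)).congr_of_eventuallyEq ?_
    filter_upwards [g3] with t ht
    rw [Function.comp_apply, p1_chart ht.1 he ht.2.1, ContinuousLinearMap.comp_assoc, ht.2.2.2,
      ht.2.2.1, ContinuousLinearMap.comp_id]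
  · have he := chart_mem_atlas FL.C2 (ν v)
    have hx := mem_chart_source FL.C2 (ν v)
    have h1 := h.cda he hx
    refine (cda_bil (ContDiffAt.comp (g := E2 _ F) v
      (H686.smooth2_iff.1 hF _ he _ (mem_chart_target _ _)) h1)
      (h1.fderiv_right i1)).congr_of_eventuallyEq ?_
    filter_upwards [h, etale_mem h.self hx] with z hz hz'
    exact p2_chart hz he hz' F
  · refine h.comp_cda (chart_mem_atlas _ _) (mem_chart_source _ _) ?_
    exact (H332.contDiffOn_chart (chart_mem_atlas FL.C2 (ν v))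
      (hN.smooth.contMDiffOn (s := univ))).contDiffAt
      (by rw [preimage_univ, inter_univ]; exact chart_target_mem_nhds _ _)

end Vale.Agent.P290Z.KT
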