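import Vale.Agent.P290Z.KT.Spec

/-! P290Z, part III, block KT: exterior derivatives and curvatures along local biholomorphisms. -/

open Set Filter MeasureTheory
open scoped Topology Manifold ContDiff ComplexConjugate

noncomputable section

namespace Vale.Agent.P290Z.KT

open Vale.Agent.P290 Vale.Agent.P267 Vale.Agent.P290Z.W Vale.Agent.P290Z.Top
open Vale.Agent.P267.FL (TwoF OneF LB Reg0)
open Vale.Agent.P267.H332 (cF)
open Vale.Agent.P267.H757 (IsNormFn LocRep)
open Vale.Agent.P290.H686 (val1 val2 E1 Dch alt1 ev1 ev2)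

namespace A2

/-- pull back of the exterior derivative -/
theorem dd_pull {A : V → V →L[ℝ] ℂ} {A' : FL.C2 → FL.C2 →L[ℝ] ℂ} {G : V → FL.C2} {z : V}
    (hA : A =ᶠ[𝓝 z] fun y => (A' (G y)).comp (fderiv ℝ G y)) (hA' : DifferentiableAt ℝ A' (G z))
    (hG : ContDiffAt ℝ 2 G z) (v w : V) :
    dd A z v w = alt1 A' (G z) (fderiv ℝ G z v) (fderiv ℝ G z w) := by
  have hG1 : DifferentiableAt ℝ G z := hG.differentiableAt (by norm_num)
  have hG2 : DifferentiableAt ℝ (fderiv ℝ G) z :=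
    (hG.fderiv_right (m := 1) (by norm_num)).differentiableAt (by norm_num)
  have key : ∀ v w, fderiv ℝ A z v w = fderiv ℝ A' (G z) (fderiv ℝ G z v) (fderiv ℝ G z w) +
      A' (G z) (fderiv ℝ (fderiv ℝ G) z v w) := by
    intro v w
    rw [hA.fderiv_eq]
    have h1 : HasFDerivAt (fun y => A' (G y)) ((fderiv ℝ A' (G z)).comp (fderiv ℝ G z)) z :=
      hA'.hasFDerivAt.comp z hG1.hasFDerivAt
    have h2 := h1.clm_comp hG2.hasFDerivAt
    have h3 := congrArg (fun L => L v w) h2.fderiv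
    rw [h3]
    simp [add_comm]
  have hs : fderiv ℝ (fderiv ℝ G) z v w = fderiv ℝ (fderiv ℝ G) z w v :=
    (hG.isSymmSndFDerivAt (by simp)) v w
  rw [dd, alt1, key, key, hs]
  ring

/-- the complex linear part of a composition with a complex linear map -/
theorem del_comp {u : FL.C2 → ℂ} {p : FL.C2} (L : V →L[ℂ] FL.C2) :
    del ((fderiv ℝ u p).comp (L.restrictScalars ℝ)) =
      (ev1 (fun i => FL.dz i u p) (fun _ => 0)).comp (L.restrictScalars ℝ) := by
  refine ContinuousLinearMap.ext fun x => ?_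
  have hJ : Jv x = Complex.I • x := rfl
  have h1 : del ((fderiv ℝ u p).comp (L.restrictScalars ℝ)) x =
      (1 / 2 : ℂ) * (fderiv ℝ u p (L x) - Complex.I * fderiv ℝ u p (L (Jv x))) := rfl
  have h2 : (ev1 (fun i => FL.dz i u p) (fun _ => 0)).comp (L.restrictScalars ℝ) x =
      ev1 (fun i => FL.dz i u p) (fun _ => 0) (L x) := rfl
  rw [h1, h2, hJ, map_smul, FL.fderiv_eq_wirt, FL.fderiv_eq_wirt, H686.ev1_apply]
  simp only [Fin.sum_univ_two, Pi.smul_apply, smul_eq_mul, map_mul, Complex.conj_I]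
  have hI : Complex.I * Complex.I = -1 := Complex.I_mul_I
  linear_combination (-(1 / 2 : ℂ) * (L x 0 * FL.dz 0 u p + L x 1 * FL.dz 1 u p) +
    (1 / 2 : ℂ) * (conj (L x 0) * FL.dzb 0 u p + conj (L x 1) * FL.dzb 1 u p)) * hI

variable {Y : W.K3} {ν : V → Y.X} {v : V}

theorem et_cont (h : Et ν v) : ContinuousAt ν v := h.self_of_nhds.1

theorem near_source (h : Et ν v) : ∀ᶠ z in 𝓝 v, ν z ∈ (chartAt FL.C2 (ν v)).source :=
  (et_cont h).eventually ((chartAt FL.C2 (ν v)).open_source.mem_nhds (mem_chart_source _ _))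

/-- the map in the chart at `ν v` is holomorphic near `v` -/
theorem near_hol (h0 : StApi0) (h : Et ν v) :
    ∀ᶠ z in 𝓝 v, DifferentiableAt ℂ (fun y => chartAt FL.C2 (ν v) (ν y)) z := by
  have n1 : IsManifold 𝓘(ℂ, FL.C2) 1 Y.X := IsManifold.of_le (n := ω) le_top
  filter_upwards [h.eventually_nhds, near_source h] with z hz hs
  have h1 : MDifferentiableAt 𝓘(ℂ, V) 𝓘(ℂ, FL.C2) ν z := ((h0 Y).1 ν z hz).2.2.1
  have h2 : MDifferentiableAt 𝓘(ℂ, FL.C2) 𝓘(ℂ, FL.C2) (chartAt FL.C2 (ν v)) (ν z) :=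
    mdifferentiableAt_atlas (chart_mem_atlas _ _) hs
  have h3 : MDifferentiableAt 𝓘(ℂ, V) 𝓘(ℂ, FL.C2) (fun y => chartAt FL.C2 (ν v) (ν y)) z :=
    MDifferentiableAt.comp (g := chartAt FL.C2 (ν v)) z h2 h1
  exact h3.differentiableAt

theorem cd2 (h0 : StApi0) (h : Et ν v) :
    ContDiffAt ℝ 2 (fun y => chartAt FL.C2 (ν v) (ν y)) v := by
  obtain ⟨O, hO, hOo, hv⟩ := mem_nhds_iff.1 (near_hol h0 h)
  have h1 : AnalyticAt ℂ (fun y => chartAt FL.C2 (ν v) (ν y)) v :=
    Vale.Agent.P268.analyticAt_of_differentiableOn hOo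
      (fun z hz => (hO hz).differentiableWithinAt) hv
  exact (h1.contDiffAt (n := 2)).restrict_scalars ℝ

/-- the derivative at nearby points in terms of the chart at `ν v` -/
theorem near_Dm (h0 : StApi0) (h : Et ν v) : ∀ᶠ z in 𝓝 v, Dm ν z =
    (Dch (chartAt FL.C2 (ν v)) (ν z)).comp (fderiv ℝ (fun y => chartAt FL.C2 (ν v) (ν y)) z) := by
  filter_upwards [near_hol h0 h, (near_source h).eventually_nhds] with z hz hs
  have hs0 : ν z ∈ (chartAt FL.C2 (ν v)).source := hs.self_of_nhds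
  have h1 : (fun y => chartAt FL.C2 (ν z) (ν y)) =ᶠ[𝓝 z]
      fun y => (fun w => chartAt FL.C2 (ν z) ((chartAt FL.C2 (ν v)).symm w))
        (chartAt FL.C2 (ν v) (ν y)) := by
    filter_upwards [hs] with y hy
    rw [(chartAt FL.C2 (ν v)).left_inv hy]
  have h2 : DifferentiableAt ℝ (fun w => chartAt FL.C2 (ν z) ((chartAt FL.C2 (ν v)).symm w))
      (chartAt FL.C2 (ν v) (ν z)) :=
    (FL.trans_differentiableAt (chart_mem_atlas _ _) (chart_mem_atlas _ _) hs0
      (mem_chart_source _ _)).restrictScalars ℝ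
  rw [Dm, h1.fderiv_eq, fderiv_fun_comp z h2 (hz.restrictScalars ℝ)]
  rfl

theorem near_p1 (h0 : StApi0) (h : Et ν v) (A : OneF Y.X) : p1 ν A =ᶠ[𝓝 v] fun z =>
    (E1 (chartAt FL.C2 (ν v)) A (chartAt FL.C2 (ν v) (ν z))).comp
      (fderiv ℝ (fun y => chartAt FL.C2 (ν v) (ν y)) z) := by
  filter_upwards [near_Dm h0 h, near_source h] with z hz hs
  rw [p1, hz, H686.E1_apply (chart_mem_atlas _ _) A hs]
  rfl

theorem p2_d (h0 : StApi0) (h : Et ν v) {A : OneF Y.X} (hA : A.Smooth) (x y : V) :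
    p2 ν A.d v x y = dd (p1 ν A) v x y := by
  have h1 : DifferentiableAt ℝ (E1 (chartAt FL.C2 (ν v)) A) (chartAt FL.C2 (ν v) (ν v)) :=
    (H686.smooth1_iff.1 hA _ (chart_mem_atlas _ _) _ (mem_chart_target _ _)).differentiableAt
      (by simp)
  rw [dd_pull (G := fun y => chartAt FL.C2 (ν v) (ν y)) (near_p1 h0 h A) h1 (cd2 h0 h),
    p2_apply, H686.val2_d hA]
  rfl

theorem p1_dF0 (h0 : StApi0) (h : Et ν v) {s : Y.X → ℂ} (hs : Reg0 ∞ 0 s) :
    p1 ν (FL.dF0 s) v = fderiv ℝ (fun z => s (ν z)) v := by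
  have h1 : (fun z => s (ν z)) =ᶠ[𝓝 v]
      fun z => (fun w => s ((chartAt FL.C2 (ν v)).symm w)) (chartAt FL.C2 (ν v) (ν z)) := by
    filter_upwards [near_source h] with y hy
    rw [(chartAt FL.C2 (ν v)).left_inv hy]
  have h2 : DifferentiableAt ℝ (fun w => s ((chartAt FL.C2 (ν v)).symm w))
      (chartAt FL.C2 (ν v) (ν v)) := by
    have := (hs.contDiffAt (chart_mem_atlas _ (ν v)) (mem_chart_target _ _)).differentiableAt
      (n := ∞) (by simp)
    rwa [LB.loc0_zero] at this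
  refine ContinuousLinearMap.ext fun x => ?_
  rw [h1.fderiv_eq, fderiv_fun_comp v h2 ((cd2 h0 h).differentiableAt (by norm_num)), p1_apply,
    H686.val1_dF0]
  rfl

theorem p2_curv (h0 : StApi0) (h : Et ν v) {ι : Type} [Fintype ι] [DecidableEq ι] (L : LB Y.X ι)
    (x y : V) : p2 ν L.curv v x y = cu (fun z => L.P (ν z)) v x y := by
  have h1 : ∀ x, H686.dM L (ν v) (Dm ν v x) = dP (fun z => L.P (ν z)) v x := by
    intro x
    ext i j
    have h2 := p1_dF0 h0 h (L.smooth i j)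
    exact congrArg (fun l => l x) h2
  rw [p2_apply, H686.val2_curv, h1, h1]
  rfl

theorem p2_cF (h0 : StApi0) (h : Et ν v) {N : Y.X → ℝ} (hN : IsNormFn FL.C2 N)
    (hv : N (ν v) ≠ 0) (x y : V) : p2 ν (cF N) v x y = dd (dl fun z => N (ν z)) v x y := by
  have hpos : 0 < N (ν v) := lt_of_le_of_ne (hN.nonneg _) hv.symm
  have hl : (chartAt FL.C2 (ν v)).symm (chartAt FL.C2 (ν v) (ν v)) = ν v :=
    (chartAt FL.C2 (ν v)).left_inv (mem_chart_source _ _)
  have hN1 : ContDiffAt ℝ ∞ (fun w => N ((chartAt FL.C2 (ν v)).symm w))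
      (chartAt FL.C2 (ν v) (ν v)) := by
    have h1 := H332.contDiffOn_chart (chart_mem_atlas FL.C2 (ν v)) (U := univ)
      hN.smooth.contMDiffOn
    rw [preimage_univ, inter_univ] at h1
    exact h1.contDiffAt ((chartAt FL.C2 (ν v)).open_target.mem_nhds (mem_chart_target _ _))
  have hu : ContDiffAt ℝ ∞ (fun w => (Real.log (N ((chartAt FL.C2 (ν v)).symm w)) : ℂ))
      (chartAt FL.C2 (ν v) (ν v)) := by
    refine Complex.ofRealCLM.contDiff.contDiffAt.comp _ (hN1.log ?_)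
    rw [hl]
    exact hv
  have hu2 := hu.of_le (m := 2) (WithTop.coe_le_coe.2 le_top)
  have hG := cd2 h0 h
  have hev : (dl fun z => N (ν z)) =ᶠ[𝓝 v] fun z =>
      (ev1 (fun i => FL.dz i (fun w => (Real.log (N ((chartAt FL.C2 (ν v)).symm w)) : ℂ))
        (chartAt FL.C2 (ν v) (ν z))) (fun _ => 0)).comp
        (fderiv ℝ (fun y => chartAt FL.C2 (ν v) (ν y)) z) := by
    have h1 := hG.continuousAt.eventually (hu2.eventually (by simp))
    filter_upwards [near_hol h0 h, (near_source h).eventually_nhds, h1] with z hz hs h2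
    have h3 : (fun y => (Real.log (N (ν y)) : ℂ)) =ᶠ[𝓝 z]
        fun y => (fun w => (Real.log (N ((chartAt FL.C2 (ν v)).symm w)) : ℂ))
          (chartAt FL.C2 (ν v) (ν y)) := by
      filter_upwards [hs] with y hy
      rw [(chartAt FL.C2 (ν v)).left_inv hy]
    rw [dl, h3.fderiv_eq, fderiv_fun_comp z (h2.differentiableAt (by norm_num))
      (hz.restrictScalars ℝ), hz.fderiv_restrictScalars ℝ]
    exact del_comp _
  have hc : ∀ i, DifferentiableAt ℝ
      (fun y => FL.dz i (fun w => (Real.log (N ((chartAt FL.C2 (ν v)).symm w)) : ℂ)) y)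
      (chartAt FL.C2 (ν v) (ν v)) := fun i => H332.differentiableAt_dz hu2 i
  have ha : ∀ i : Fin 2, DifferentiableAt ℝ (fun _ : FL.C2 => (0 : ℂ))
      (chartAt FL.C2 (ν v) (ν v)) := fun _ => differentiableAt_const _
  rw [dd_pull (G := fun y => chartAt FL.C2 (ν v) (ν y)) hev
    (H686.differentiableAt_ev1 hc ha) hG, H686.alt1_ev1 hc ha, p2_apply, val2]
  have e1 : (cF N).f20 (ν v) = 0 := rfl
  have e2 : (cF N).f02 (ν v) = 0 := rfl
  have e3 : (cF N).f11 (ν v) = H332.curvN N (ν v) := rfl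
  rw [e1, e2, e3, H332.curvN_of_pos hN hpos, FL.dz_dz_comm hu2 0 1, H686.ev2_apply,
    H686.ev2_apply]
  simp only [Matrix.neg_apply, H332.ddz_apply, Matrix.of_apply, FL.dz_const, FL.dzb_const,
    FL.dz_dzb_comm hu2, sub_self, zero_sub]
  rfl

end A2

/-- **API2**, from API0 only -/
theorem api2' (h0 : StApi0) : StApi2 := fun _ _ _ h =>
  ⟨fun _ hA => A2.p2_d h0 h hA, fun _ hs => A2.p1_dF0 h0 h hs,
    fun _ _ _ L => A2.p2_curv h0 h L, fun _ hN hv => A2.p2_cF h0 h hN hv⟩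

/-- **API2** -/
theorem api2 (h0 : StApi0) (_h1 : StApi1) : StApi2 := api2' h0

end Vale.Agent.P290Z.KT
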