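import Vale.Agent.P290Z.KT.Spec

/-! P290Z, part III, block KT: isometries of the lattice which permute the sixteen classes. -/

set_option linter.all false

open Matrix

namespace Vale.Agent.P290Z.KT

namespace AutA

theorem form2_eK (x : LKm) (a : F4) : form2 x (eK a) = 2 * x.1.2 a := by
  simp [form2, eK, pf, Pi.single_apply, mul_comm]

theorem form2_neg (x y : LKm) : form2 x (-y) = -form2 x y := by
  simp only [form2, pf, AddSubgroup.coe_neg, Prod.fst_neg, Prod.snd_neg, Pi.neg_apply, mul_neg,
    Finset.sum_neg_distrib]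
  ring

theorem two_eq {x : LKm} (h : x.1.1 = 0) : (2 : ℤ) • x = ∑ a, (-x.1.2 a) • eK a := by
  refine Subtype.ext (Prod.ext ?_ (funext fun b => ?_))
  · simp [h, eK, Prod.fst_sum]
  · simp [eK, Prod.snd_sum, Finset.sum_apply, Pi.single_apply, mul_comm]

theorem cast_val (z : ZMod 2) : (((z.val : ℕ) : ℤ) : ZMod 2) = z := by simp

theorem two_zero : (2 : ZMod 2) = 0 := rfl

/-- the coordinate functions -/
def xc (i : Fin 4) : LKm := ⟨(0, fun a => ((a i).val : ℤ)), fun _ _ => by simp, fun a b => by
  simp only [Int.cast_add, cast_val, Pi.add_apply, Pi.zero_apply, Int.cast_zero, mul_zero,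
    zero_mul, Finset.sum_const_zero]
  linear_combination (a i + b i) * two_zero⟩

theorem sum_el (k l : Fin 4) (a b : F4) :
    ∑ i, ∑ j, a i * (el k l i j : ZMod 2) * b j = a k * b l - a l * b k := by
  simp [el, mul_sub, sub_mul, Finset.sum_sub_distrib, ite_and, eq_comm]

/-- the products of two coordinate functions -/
def xq (k l : Fin 4) : LKm := ⟨(el k l, fun a => ((a k * a l).val : ℤ)),
  fun i j => by simp only [el, and_comm]; ring, fun a b => by
  simp only [Int.cast_add, cast_val, Pi.add_apply, Pi.zero_apply, sum_el]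
  linear_combination (a k * a l + b k * b l + a l * b k) * two_zero⟩

theorem polar (x : LKm) (i j : Fin 4) : (x.1.1 i j : ZMod 2) =
    x.1.2 (Pi.single i 1 + Pi.single j 1) + x.1.2 (Pi.single i 1) + x.1.2 (Pi.single j 1) +
      x.1.2 0 := by
  have := x.2.2 (Pi.single i 1) (Pi.single j 1)
  push_cast at this
  rw [this]
  simp [Pi.single_apply]

end AutA

open AutA in
theorem aut (h : StShi) : StAut := by
  intro γ hγ he
  choose τ hτ using he
  have h1 : ∀ (x : LKm) a, (γ x).1.2 (τ a) = x.1.2 a ∨ (γ x).1.2 (τ a) = -x.1.2 a := fun x a => by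
    have := hγ x (eK a)
    rcases hτ a with e | e
    · rw [e, form2_eK, form2_eK] at this
      omega
    · rw [e, form2_neg, form2_eK, form2_eK] at this
      omega
  have h1' : ∀ a (x y : LKm), (γ x).1.2 (τ a) * (γ y).1.2 (τ a) = x.1.2 a * y.1.2 a := by
    intro a x y
    have hx := hγ x (eK a)
    have hy := hγ y (eK a)
    rcases hτ a with e | e
    · rw [e, form2_eK, form2_eK] at hx hy
      rw [show (γ x).1.2 (τ a) = x.1.2 a by omega, show (γ y).1.2 (τ a) = y.1.2 a by omega]
    · rw [e, form2_neg, form2_eK, form2_eK] at hx hy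
      rw [show (γ x).1.2 (τ a) = -x.1.2 a by omega, show (γ y).1.2 (τ a) = -y.1.2 a by omega,
        neg_mul_neg]
  have hinj : Function.Injective τ := fun a b hab => by
    by_contra hne
    have e1 := h1 (eK a) a
    have e2 := h1 (eK a) b
    rw [← hab] at e2
    simp only [eK, Pi.single_eq_same, Pi.single_eq_of_ne' hne] at e1 e2
    omega
  let e : F4 ≃ F4 := Equiv.ofBijective τ (Finite.injective_iff_bijective.1 hinj)
  have h2 : ∀ (x : LKm) b, ((γ x).1.2 b : ZMod 2) = x.1.2 (e.symm b) := fun x b => by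
    have hb : τ (e.symm b) = b := e.apply_symm_apply b
    rcases h1 x (e.symm b) with q | q <;> rw [hb] at q <;> rw [q]
    exact (Int.cast_neg _).trans (CharTwo.neg_eq _)
  have h3 : ∀ x : LKm, x.1.1 = 0 → (γ x).1.1 = 0 := fun x hx => by
    have q := congrArg (fun y => (γ y).1.1) (two_eq hx)
    have q2 : ∀ a, (γ (eK a)).1.1 = 0 := fun a => by
      rcases hτ a with r | r <;> rw [r] <;> simp [eK]
    have q3 : (2 : ℤ) • (γ x).1.1 = 0 := by simpa [map_sum, Prod.fst_sum, q2] using q
    exact (smul_eq_zero.1 q3).resolve_left two_ne_zero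
  have h4 : ∀ a b, e.symm (a + b) = e.symm a + e.symm b + e.symm 0 := fun a b => funext fun i => by
    have q := (γ (xc i)).2.2 a b
    rw [h3 (xc i) rfl] at q
    push_cast at q
    simp only [h2, xc, cast_val, Pi.zero_apply, Int.cast_zero, mul_zero, zero_mul,
      Finset.sum_const_zero] at q
    simp only [Pi.add_apply]
    linear_combination q - (e.symm a i + e.symm b i + e.symm 0 i) * two_zero
  let L : F4 →ₗ[ZMod 2] F4 := (AddMonoidHom.mk' (fun b => e.symm b + e.symm 0) fun a b => by
    rw [h4]; abel).toZModLinearMap 2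
  have hL : ∀ b, e.symm b = LinearMap.toMatrix' L *ᵥ b + e.symm 0 := fun b => by
    rw [LinearMap.toMatrix'_mulVec]
    exact (CharTwo.add_cancel_right _ _).symm
  set m := LinearMap.toMatrix' L with hm
  have hd : m.det ≠ 0 := fun q => by
    obtain ⟨v, hv, q⟩ := exists_mulVec_eq_zero_iff.2 q
    exact hv (e.symm.injective (by rw [hL v, q, zero_add]))
  obtain ⟨M, ε, m1, m2, m3, m4⟩ := h (fun k l => (γ (xq k l)).1.1) m hd
    (fun k l => (γ (xq k l)).2.1) (fun k l i j => by
      have q := h3 (xq k l + xq l k) (funext₂ fun i j => by simp [xq, el])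
      rw [map_add] at q
      exact eq_neg_of_add_eq_zero_left (congrFun₂ q i j)) (fun k l k' l' => by
      have q := hγ (xq k l) (xq k' l')
      rw [form2, form2, ← e.sum_comp] at q
      exact sub_left_inj.1 (q.trans (congrArg (_ - ·) (Finset.sum_congr rfl fun a _ =>
        (h1' a _ _).symm)))) (fun k l i j => by
      rw [polar]
      simp only [h2, xq, cast_val]
      rw [hL (_ + _), hL (Pi.single i 1), hL (Pi.single j 1)]
      simp only [mulVec_add, mulVec_single_one, Pi.add_apply, col_apply]
      linear_combination (m k i * m l i + m k j * m l j + m l i * m k j +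
        (m k i + m k j) * e.symm 0 l + (m l i + m l j) * e.symm 0 k +
        2 * e.symm 0 k * e.symm 0 l) * two_zero)
  refine ⟨M, e.symm 0, ε, m1, m2, fun b => ?_, fun x i j => ?_⟩
  · have q : aff M (e.symm 0) b = e.symm b := by
      rw [hL b]
      funext i
      simp only [aff, m3, Pi.add_apply, mulVec, dotProduct]
    have := hτ (e.symm b)
    rwa [show τ (e.symm b) = b from e.apply_symm_apply b, ← q] at this
  · have q := congrFun₂ (h3 ((2 : ℤ) • x - ∑ k, ∑ l, x.1.1 k l • xq k l) (funext₂ fun i j => by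
      have := x.2.1 j i
      simp [xq, el, Prod.fst_sum, Finset.sum_apply, mul_sub, Finset.sum_sub_distrib, ite_and]
      omega)) i j
    have q1 : ∑ k, ∑ l, x.1.1 k l * (M l i * M k j) = -∑ k, ∑ l, M k i * x.1.1 k l * M l j := by
      rw [Finset.sum_comm, ← Finset.sum_neg_distrib]
      refine Finset.sum_congr rfl fun k _ => ?_
      rw [← Finset.sum_neg_distrib]
      exact Finset.sum_congr rfl fun l _ => by rw [x.2.1 l k]; ring
    have q2 : ∑ k, ∑ l, x.1.1 k l * (ε * (M k i * M l j - M l i * M k j)) =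
        ε * (∑ k, ∑ l, M k i * x.1.1 k l * M l j - ∑ k, ∑ l, x.1.1 k l * (M l i * M k j)) := by
      simp only [← Finset.sum_sub_distrib, Finset.mul_sum]
      exact Finset.sum_congr rfl fun k _ => Finset.sum_congr rfl fun l _ => by ring
    simp only [map_sub, map_sum, map_zsmul, AddSubgroup.coe_sub, AddSubgroup.coe_zsmul,
      AddSubgroup.val_finset_sum, Prod.fst_sub, Prod.smul_fst, Prod.fst_sum, Pi.sub_apply,
      Pi.smul_apply, Finset.sum_apply, smul_eq_mul, m4, Pi.zero_apply] at q
    rw [q2, q1] at q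
    linarith

end Vale.Agent.P290Z.KT
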