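import Vale.Agent.P290Z.KT.Spec

/-! P290Z, part III, block KT: elementary facts on the lattice and on the quotient map. -/

open Set Filter
open scoped Topology Manifold ContDiff ComplexConjugate

noncomputable section

namespace Vale.Agent.P290Z.KT

open Vale.Agent.P290 Vale.Agent.P267 Vale.Agent.P290Z.W Vale.Agent.P290Z.Top
open Vale.Agent.P267.FL (TwoF OneF LB)
open Vale.Agent.P290.H686 (val1 val2)
open Vale.Agent.P290Z.Kum (pr ph)
open Vale.Agent.P290.All (dir Dom)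

variable {co : Co}

/-! ### the lattice -/

@[simp] theorem co_lv (i j : Fin 4) : co (lv co i) j = if j = i then 1 else 0 := by
  simp [lv, Pi.single_apply]

@[simp] theorem co_lp (m : Fin 4 → ℤ) (i : Fin 4) : co (lp co m) i = m i := by simp [lp]

@[simp] theorem co_pt (a : F4) (i : Fin 4) : co (pt co a) i = ((a i).val : ℝ) / 2 := by simp [pt]

theorem co_ext {z w : V} (h : ∀ i, co z i = co w i) : z = w := co.injective (funext h)

theorem lp_zero : lp co 0 = 0 := co_ext (co := co) fun i => by simp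

theorem lp_add (m m' : Fin 4 → ℤ) : lp co (m + m') = lp co m + lp co m' :=
  co_ext (co := co) fun i => by simp

theorem lp_neg (m : Fin 4 → ℤ) : lp co (-m) = -lp co m := co_ext (co := co) fun i => by simp

theorem lp_single (i : Fin 4) : lp co (Pi.single i 1) = lv co i :=
  co_ext (co := co) fun j => by by_cases h : j = i <;> simp [h]

theorem pt_zero : pt co 0 = 0 := co_ext (co := co) fun i => by simp

theorem eq_sum_lv (z : V) : z = ∑ i, co z i • lv co i :=
  co_ext (co := co) fun j => by simp [Finset.sum_apply]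

theorem lp_eq_sum (m : Fin 4 → ℤ) : lp co m = ∑ i, m i • lv co i := by
  rw [eq_sum_lv (co := co) (lp co m)]
  exact Finset.sum_congr rfl fun i _ => by rw [co_lp, Int.cast_smul_eq_zsmul]

theorem lp_mem (m : Fin 4 → ℤ) : lp co m ∈ Lt co := by
  rw [lp_eq_sum]
  exact sum_mem fun i _ => zsmul_mem (AddSubgroup.subset_closure (mem_range_self i)) _

theorem mem_Lt {z : V} : z ∈ Lt co ↔ ∃ m, z = lp co m := by
  refine ⟨fun h => ?_, fun ⟨m, h⟩ => h ▸ lp_mem m⟩
  induction h using AddSubgroup.closure_induction with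
  | mem x hx =>
    obtain ⟨i, rfl⟩ := hx
    exact ⟨_, (lp_single i).symm⟩
  | zero => exact ⟨0, lp_zero.symm⟩
  | add x y _ _ hx hy =>
    obtain ⟨m, rfl⟩ := hx
    obtain ⟨m', rfl⟩ := hy
    exact ⟨_, (lp_add m m').symm⟩
  | neg x _ hx =>
    obtain ⟨m, rfl⟩ := hx
    exact ⟨_, (lp_neg m).symm⟩

theorem mem_Lt' {z : V} : z ∈ Lt co ↔ ∀ i, ∃ n : ℤ, co z i = n := by
  rw [mem_Lt]
  refine ⟨fun ⟨m, h⟩ i => ⟨m i, by simp [h]⟩, fun h => ?_⟩
  choose m hm using h
  exact ⟨m, co_ext (co := co) fun i => by simp [hm]⟩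

theorem li_lv (co : Co) : LinearIndependent ℝ (lv co) := by
  rw [Fintype.linearIndependent_iff]
  intro g hg j
  have := congrArg (fun z => co z j) hg
  simpa [Finset.sum_apply] using this

theorem hfin (co : Co) : ∀ R : ℝ, {y : V | y ∈ Lt co ∧ ‖y‖ ≤ R}.Finite := (Kum.lat (li_lv co)).1

theorem pt_add_pt (a : F4) : pt co a + pt co a ∈ Lt co :=
  mem_Lt'.2 fun i => ⟨(a i).val, by simp⟩

theorem half {z : V} (h : z + z ∈ Lt co) : ∃ a m, z = pt co a + lp co m := by
  obtain ⟨n, hn⟩ := mem_Lt.1 h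
  refine ⟨fun i => (n i : ZMod 2), fun i => n i / 2, co_ext (co := co) fun i => ?_⟩
  have h1 : co z i + co z i = n i := by
    have := congrArg (fun z => co z i) hn
    simpa using this
  have h2 : (((n i : ZMod 2).val : ℕ) : ℤ) = n i % 2 := ZMod.val_intCast (n i)
  have h3 : (((n i : ZMod 2).val : ℕ) : ℝ) = ((n i % 2 : ℤ) : ℝ) := by exact_mod_cast h2
  have h4 : ((n i % 2 : ℤ) : ℝ) + 2 * ((n i / 2 : ℤ) : ℝ) = n i := by
    exact_mod_cast Int.emod_add_mul_ediv (n i) 2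
  simp only [map_add, Pi.add_apply, co_pt, co_lp, h3]
  linarith

theorem pt_inj {a b : F4} (h : pt co a - pt co b ∈ Lt co) : a = b := by
  funext i
  obtain ⟨n, hn⟩ := mem_Lt'.1 h i
  simp only [map_sub, Pi.sub_apply, co_pt] at hn
  have h1 : ((a i).val : ℤ) - (b i).val = 2 * n := by
    have : ((a i).val : ℝ) - (b i).val = 2 * n := by linarith
    exact_mod_cast this
  have h2 := ZMod.val_lt (a i)
  have h3 := ZMod.val_lt (b i)
  exact ZMod.val_injective 2 (by omega)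

theorem good_add {z : V} (h : Good co z) (m : Fin 4 → ℤ) : Good co (z + lp co m) := fun hm =>
  h (by
    have := (Lt co).sub_mem hm ((Lt co).add_mem (lp_mem m) (lp_mem m))
    rwa [add_add_add_comm, add_sub_cancel_right] at this)

theorem good_neg {z : V} (h : Good co z) : Good co (-z) := fun hm =>
  h (by rwa [← neg_add, neg_mem_iff] at hm)

theorem not_good_iff {z : V} : ¬ Good co z ↔ ∃ a m, z = pt co a + lp co m := by
  refine ⟨fun h => half (not_not.1 h), ?_⟩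
  rintro ⟨a, m, rfl⟩ h
  refine h ?_
  rw [add_add_add_comm]
  exact (Lt co).add_mem (pt_add_pt a) ((Lt co).add_mem (lp_mem m) (lp_mem m))

theorem not_good_pt (a : F4) : ¬ Good co (pt co a) := fun h => h (pt_add_pt a)

/-- the points of order two are isolated -/
theorem ev_good (p : V) : ∀ᶠ z in 𝓝 p, z ≠ p → Good co z := by
  have h1 : ((fun y : V => (2 : ℂ)⁻¹ • y) '' {y : V | y ∈ Lt co ∧ ‖y‖ ≤ 2 * (‖p‖ + 1)} \
      {p}).Finite := ((hfin co _).image _).sdiff
  filter_upwards [h1.isClosed.isOpen_compl.mem_nhds (fun h => h.2 rfl),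
    continuous_norm.continuousAt.eventually (gt_mem_nhds (lt_add_one ‖p‖))] with z h2 h3 h4 h5
  refine h2 ⟨⟨z + z, ⟨h5, (norm_add_le _ _).trans (by linarith)⟩, ?_⟩, h4⟩
  change (2 : ℂ)⁻¹ • (z + z) = z
  rw [← two_smul ℂ z, smul_smul, inv_mul_cancel₀ two_ne_zero, one_smul]

theorem Good.ev {z : V} (h : Good co z) : ∀ᶠ w in 𝓝 z, Good co w := by
  filter_upwards [ev_good (co := co) z] with w hw
  by_cases e : w = z
  · rwa [e]
  · exact hw e

theorem good_open (co : Co) : IsOpen {z | Good co z} := isOpen_iff_mem_nhds.2 fun _ h => h.ev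

theorem dom_pt (a : F4) (b : Bool) (u : ℂ) : Dom (Lt co) (pt co a) b (0, u) :=
  ⟨pt_add_pt a, fun _ hw _ => pow_eq_zero_iff two_ne_zero |>.1 hw⟩

theorem ev_dom {a : V} {b : Bool} {v : V} (h : Dom (Lt co) a b v) :
    ∀ᶠ v' in 𝓝 v, Dom (Lt co) a b v' := Kum.ev_dom (hfin co) h

/-- near a point of the curve over `p` the preimages are near `p` -/
theorem near_pt {p : V} {P : V → Prop} (h : ∀ᶠ z in 𝓝 p, P z) (b : Bool) (u : ℂ) :
    ∀ᶠ v in 𝓝 (((0 : ℂ), u) : V), ∀ w : ℂ, w ^ 2 = v.1 → P (p + w • dir b v.2) := by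
  obtain ⟨r, hr, h1⟩ := Metric.eventually_nhds_iff_ball.1 h
  have hc : Continuous fun v : V => ‖v.1‖ * ‖dir b v.2‖ ^ 2 :=
    continuous_fst.norm.mul (((Kum.continuous_dir b).comp continuous_snd).norm.pow 2)
  have h2 : ∀ᶠ v in 𝓝 (((0 : ℂ), u) : V), ‖v.1‖ * ‖dir b v.2‖ ^ 2 < r ^ 2 :=
    hc.continuousAt.eventually (gt_mem_nhds (by simpa using pow_pos hr 2))
  filter_upwards [h2] with v hv w hw
  refine h1 _ ?_
  rw [Metric.mem_ball, dist_eq_norm, add_sub_cancel_left, norm_smul]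
  rw [← hw, norm_pow, ← mul_pow] at hv
  exact lt_of_pow_lt_pow_left₀ 2 hr.le hv

/-- near `p` the coordinates `ph b (z - p)` have a small first component -/
theorem tendsto_ph (p : V) (b : Bool) :
    Tendsto (fun z : V => (ph b (z - p)).1) (𝓝 p) (𝓝 0) :=
  (((Kum.continuous_cs b).comp (continuous_id.sub continuous_const)).pow 2).tendsto' _ _
    (by cases b <;> simp [Kum.cs])

theorem ph_smul_dir {w : ℂ} (hw : w ≠ 0) (b : Bool) (u : ℂ) : ph b (w • dir b u) = (w ^ 2, u) := by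
  rw [ph, Kum.cs_smul_dir, Kum.ct_smul_dir, mul_div_cancel_left₀ _ hw]

theorem dir_ne_zero (b : Bool) (u : ℂ) : dir b u ≠ 0 := by
  cases b <;> simp [dir]

theorem dom_ph {a z : V} (ha : a + a ∈ Lt co) (hz : Good co z) {b : Bool}
    (h : Kum.cs b (z - a) ≠ 0) : Dom (Lt co) a b (ph b (z - a)) := by
  refine ⟨ha, (Kum.dom_zero (L := Lt co) (y := z - a) (fun hm => hz ?_) h).2⟩
  have := (Lt co).add_mem hm ha
  rwa [add_add_add_comm, sub_add_cancel] at this

/-- every lattice has positively oriented coordinates -/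
theorem exists_co {l : Fin 4 → V} (hl : LinearIndependent ℝ l) :
    ∃ co : Co, Pos co ∧ Lt co = AddSubgroup.closure (range l) := by
  have hc : Fintype.card (Fin 4) = Module.finrank ℝ V := by
    simp [Module.finrank_prod, Complex.finrank_real_complex]
  have key : ∀ l : Fin 4 → V, LinearIndependent ℝ l → ∃ co : Co, lv co = l := by
    intro l hl
    let b := basisOfLinearIndependentOfCardEqFinrank hl hc
    have hb : (b : Fin 4 → V) = l := coe_basisOfLinearIndependentOfCardEqFinrank hl hc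
    refine ⟨b.equivFun.toContinuousLinearEquiv, funext fun i => ?_⟩
    rw [← hb]
    simp [lv, Pi.single_apply]
  obtain ⟨co, rfl⟩ := key l hl
  have hb : LinearIndependent ℝ bs := by
    rw [Fintype.linearIndependent_iff]
    intro g hg j
    simp only [bs, Fin.sum_univ_four, Matrix.cons_val, Prod.ext_iff, Complex.ext_iff] at hg
    simp at hg
    fin_cases j <;> simp [hg]
  have hd : (Matrix.of fun i j => co (bs j) i).det ≠ 0 := by
    have h1 := hb.map' (co : V →ₗ[ℝ] R4) (LinearMap.ker_eq_bot.2 co.injective)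
    have h2 : LinearIndependent ℝ (Matrix.of fun i j => co (bs j) i).col := h1
    exact ((Matrix.isUnit_iff_isUnit_det _).1
      (Matrix.linearIndependent_cols_iff_isUnit.1 h2)).ne_zero
  rcases hd.lt_or_gt with h | h
  · let σ : Equiv.Perm (Fin 4) := Equiv.swap 0 1
    obtain ⟨co', h'⟩ := key (lv co ∘ σ) ((li_lv co).comp σ σ.injective)
    refine ⟨co', ?_, by rw [Lt, h', σ.surjective.range_comp]⟩
    have h1 : ∀ z i, co' z i = co z (σ i) := by
      intro z i
      conv_rhs => rw [eq_sum_lv (co := co') z, h']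
      simp [Finset.sum_apply]
    have h2 : (Matrix.of fun i j => co' (bs j) i) =
        (Matrix.of fun i j => co (bs j) i).submatrix σ id := by
      ext i j
      simp [h1]
    rw [Pos, h2, Matrix.det_permute, Equiv.Perm.sign_swap (by decide)]
    simpa using h
  · exact ⟨co, h, rfl⟩

/-! ### the quotient map -/

section

variable {X : Type} [TopologicalSpace X] [ChartedSpace V X] (K : All.Kummer (Lt co) X)

theorem N_eq_pr {a : V} {b : Bool} {v : V} (h : Dom (Lt co) a b v) {w : ℂ} (hw : w ^ 2 = v.1)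
    (h0 : w ≠ 0) : K.N a b v = pr K (a + w • dir b v.2) :=
  Kum.rep K h hw h0 (by rw [sub_self]; exact (Lt co).zero_mem)

theorem pr_eq_N {a z : V} (ha : a + a ∈ Lt co) (hz : Good co z) {b : Bool}
    (h : Kum.cs b (z - a) ≠ 0) : pr K z = K.N a b (ph b (z - a)) := by
  rw [N_eq_pr K (dom_ph ha hz h) rfl h, Kum.smul_dir h, add_sub_cancel]

theorem pr_ev {a z : V} (ha : a + a ∈ Lt co) (hz : Good co z) {b : Bool}
    (h : Kum.cs b (z - a) ≠ 0) : pr K =ᶠ[𝓝 z] fun y => K.N a b (ph b (y - a)) := by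
  filter_upwards [hz.ev, ((Kum.continuous_cs b).comp
    (continuous_id.sub continuous_const)).continuousAt.eventually_ne h] with y h1 h2
  exact pr_eq_N K ha h1 h2

theorem etale_pr {z : V} (hz : Good co z) : All.Etale (pr K) z := by
  have hc := Kum.cs_ne (L := Lt co) hz
  set b := decide (z.1 ≠ 0)
  have h0 : (0 : V) + 0 ∈ Lt co := by simp
  have h1 : pr K =ᶠ[𝓝 z] fun y => K.N 0 b (ph b y) := by
    simpa using pr_ev K h0 hz (b := b) (by simpa using hc)
  have h2 := K.etale 0 b _ (Kum.dom_zero hz hc)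
  have h3 := Kum.ph_deriv hc
  have h4 : pr K z = K.N 0 b (ph b z) := h1.self_of_nhds
  have h5 : (fun y => chartAt V (pr K z) (pr K y)) =ᶠ[𝓝 z]
      (fun v => chartAt V (K.N 0 b (ph b z)) (K.N 0 b v)) ∘ ph b := by
    filter_upwards [h1] with y hy
    rw [hy, h4]
    rfl
  have h6 := h2.2.1.hasFDerivAt.comp z h3.1.hasFDerivAt
  refine ⟨(h2.1.comp h3.1.continuousAt).congr h1.symm,
    h6.differentiableAt.congr_of_eventuallyEq h5, ?_⟩
  rw [h5.fderiv_eq, h6.fderiv]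
  have h7 : ∀ A B : V →L[ℂ] V, (A.comp B).det = A.det * B.det := fun A B =>
    LinearMap.det_comp (A : V →ₗ[ℂ] V) (B : V →ₗ[ℂ] V)
  rw [h7]
  refine mul_ne_zero h2.2.2 fun e => ?_
  have := h3.2
  rw [e, norm_zero] at this
  exact two_ne_zero this.symm

theorem pr_lp {z : V} (hz : Good co z) (m : Fin 4 → ℤ) : pr K (z + lp co m) = pr K z :=
  Kum.pr_add K hz (lp_mem m)

theorem pr_neg {z : V} (hz : Good co z) : pr K (-z) = pr K z := by
  have hc := Kum.cs_ne (L := Lt co) hz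
  refine (Kum.rep K (Kum.dom_zero hz hc) (w := -Kum.cs _ z) (neg_sq _) (neg_ne_zero.2 hc) ?_).symm
  rw [neg_smul, Kum.smul_dir hc, zero_add, sub_self]
  exact (Lt co).zero_mem

theorem pr_eq_iff {z z' : V} (hz : Good co z) (hz' : Good co z') :
    pr K z = pr K z' ↔ ∃ m, z' = z + lp co m ∨ z' = -z + lp co m := by
  constructor
  · intro h
    have hc := Kum.cs_ne (L := Lt co) hz
    have hc' := Kum.cs_ne (L := Lt co) hz'
    rcases (K.rel _ _ _ _ _ _ (Kum.dom_zero hz hc) (Kum.dom_zero hz' hc')).1 h with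
      ⟨-, -, w, w', h1, h2, h3⟩ | ⟨h1, -⟩
    · obtain ⟨m, hm⟩ := mem_Lt.1 h3
      rw [zero_add, zero_add, sub_eq_iff_eq_add'] at hm
      rcases sq_eq_sq_iff_eq_or_eq_neg.1 (show w ^ 2 = Kum.cs _ z ^ 2 from h1) with e | e <;>
      rcases sq_eq_sq_iff_eq_or_eq_neg.1 (show w' ^ 2 = Kum.cs _ z' ^ 2 from h2) with e' | e' <;>
      simp only [e, e', neg_smul, Kum.smul_dir hc, Kum.smul_dir hc'] at hm
      · exact ⟨m, Or.inl hm⟩
      · exact ⟨-m, Or.inr (by rw [lp_neg, ← neg_add, ← hm, neg_neg])⟩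
      · exact ⟨m, Or.inr hm⟩
      · exact ⟨-m, Or.inl (by rw [lp_neg, ← neg_neg z, ← neg_add, ← hm, neg_neg])⟩
    · exact absurd h1 (pow_ne_zero 2 hc)
  · rintro ⟨m, rfl | rfl⟩
    · exact (pr_lp K hz m).symm
    · rw [pr_lp K (good_neg hz), pr_neg K hz]

theorem N_lp (a : F4) (m : Fin 4 → ℤ) (b : Bool) (u : ℂ) :
    K.N (pt co a + lp co m) b (0, u) = K.N (pt co a) b (0, u) := by
  have h1 : Dom (Lt co) (pt co a + lp co m) b (0, u) :=
    ⟨not_not.1 (not_good_iff.2 ⟨a, m, rfl⟩), (dom_pt (co := co) a b u).2⟩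
  refine ((K.rel _ _ _ _ _ _ (dom_pt a b u) h1).2 (Or.inr ⟨rfl, rfl, ?_, 1, by simp⟩)).symm
  rw [add_sub_cancel_left]
  exact lp_mem m

theorem N_mem_Cv (a : F4) (b : Bool) (u : ℂ) : K.N (pt co a) b (0, u) ∈ Cv K a := ⟨b, u, rfl⟩

theorem cover (y : X) : (∃ z, Good co z ∧ pr K z = y) ∨ ∃ a, y ∈ Cv K a := by
  obtain ⟨a, b, v, h, rfl⟩ := K.cover y
  by_cases h0 : v.1 = 0
  · obtain ⟨c, m, rfl⟩ := half h.1
    obtain ⟨x, u⟩ := v
    obtain rfl : x = 0 := h0
    exact Or.inr ⟨c, b, u, (N_lp K c m b u).symm⟩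
  · obtain ⟨w, hw⟩ := IsAlgClosed.exists_pow_nat_eq v.1 two_pos
    have h1 : w ≠ 0 := fun e => h0 (by rw [← hw, e]; simp)
    exact Or.inl ⟨_, Kum.good_of_dom h hw h1, (N_eq_pr K h hw h1).symm⟩

theorem pr_not_mem_Cv {z : V} (hz : Good co z) (a : F4) : pr K z ∉ Cv K a := by
  rintro ⟨b, u, h⟩
  have hc := Kum.cs_ne (L := Lt co) hz
  rcases (K.rel _ _ _ _ _ _ (dom_pt a b u) (Kum.dom_zero hz hc)).1 h with ⟨h1, -⟩ | ⟨-, h1, -⟩
  · exact h1 rfl
  · exact pow_ne_zero 2 hc h1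

theorem N_curve_iff {a a' : F4} {b b' : Bool} {u u' : ℂ} :
    K.N (pt co a) b (0, u) = K.N (pt co a') b' (0, u') ↔
      a = a' ∧ ∃ t : ℂ, dir b' u' = t • dir b u := by
  rw [K.rel _ _ _ _ _ _ (dom_pt a b u) (dom_pt a' b' u')]
  constructor
  · rintro (⟨h, -⟩ | ⟨-, -, h1, h2⟩)
    · exact absurd rfl h
    · exact ⟨(pt_inj h1).symm, h2⟩
  · rintro ⟨rfl, h⟩
    exact Or.inr ⟨rfl, rfl, by simp, h⟩

theorem Cv_disj {a a' : F4} {y : X} (h : y ∈ Cv K a) (h' : y ∈ Cv K a') : a = a' := by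
  obtain ⟨b, u, rfl⟩ := h
  obtain ⟨b', u', h'⟩ := h'
  exact ((N_curve_iff K).1 h').1.symm

/-- near a point of the curve over `a`: the chart `K.N (pt co a) b` in terms of `pr K` -/
theorem near_N (a : F4) {P : V → Prop} (h : ∀ᶠ z in 𝓝 (pt co a), P z) (b : Bool) (u : ℂ) :
    ∀ᶠ v in 𝓝 (((0 : ℂ), u) : V), Dom (Lt co) (pt co a) b v ∧ (v.1 ≠ 0 → ∃ z, Good co z ∧ P z ∧
      Kum.cs b (z - pt co a) ≠ 0 ∧ ph b (z - pt co a) = v ∧ K.N (pt co a) b v = pr K z) := by
  filter_upwards [ev_dom (dom_pt (co := co) a b u), near_pt h b u] with v h1 h2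
  refine ⟨h1, fun h0 => ?_⟩
  obtain ⟨w, hw⟩ := IsAlgClosed.exists_pow_nat_eq v.1 two_pos
  have h3 : w ≠ 0 := fun e => h0 (by rw [← hw, e]; simp)
  refine ⟨_, Kum.good_of_dom h1 hw h3, h2 w hw, ?_, ?_, N_eq_pr K h1 hw h3⟩
  · rwa [add_sub_cancel_left, Kum.cs_smul_dir]
  · rw [add_sub_cancel_left, ph_smul_dir h3, hw]

end

/-! ### forms -/

section

variable {Y : W.K3}

theorem Et.ev {ν : V → Y.X} {v : V} (h : Et ν v) : ∀ᶠ z in 𝓝 v, Et ν z := h.eventually_nhds

theorem Et.etale {ν : V → Y.X} {v : V} (h : Et ν v) : All.Etale ν v := h.self_of_nhds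

theorem et_pr (K : All.Kummer (Lt co) Y.X) {z : V} (hz : Good co z) : Et (pr K) z :=
  hz.ev.mono fun _ h => etale_pr K h

theorem et_N (K : All.Kummer (Lt co) Y.X) {a : V} {b : Bool} {v : V} (h : Dom (Lt co) a b v) :
    Et (K.N a b) v := (ev_dom h).mono fun _ h => K.etale _ _ _ h

theorem et_curve (K : All.Kummer (Lt co) Y.X) (a : F4) (b : Bool) (u : ℂ) :
    Et (K.N (pt co a) b) (0, u) := et_N K (dom_pt a b u)

theorem Dm_congr {ν ν' : V → Y.X} {v : V} (h : ν =ᶠ[𝓝 v] ν') : Dm ν v = Dm ν' v := by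
  have h1 : (fun z => chartAt FL.C2 (ν' v) (ν z)) =ᶠ[𝓝 v] fun z => chartAt FL.C2 (ν' v) (ν' z) :=
    h.mono fun z hz => by simp only [hz]
  rw [Dm, Dm, h.self_of_nhds, h1.fderiv_eq]

theorem p1_congr {ν ν' : V → Y.X} {v : V} (h : ν =ᶠ[𝓝 v] ν') (A : OneF Y.X) :
    p1 ν A v = p1 ν' A v := by rw [p1, p1, Dm_congr h, h.self_of_nhds]

theorem p2_congr {ν ν' : V → Y.X} {v : V} (h : ν =ᶠ[𝓝 v] ν') (F : TwoF Y.X) :
    p2 ν F v = p2 ν' F v := by rw [p2, p2, Dm_congr h, h.self_of_nhds]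

variable (ν : V → Y.X) (v x y : V)

theorem p1_add (A B : OneF Y.X) : p1 ν (A + B) v = p1 ν A v + p1 ν B v := by
  rw [p1, H686.val1_add', ContinuousLinearMap.add_comp]; rfl

theorem p1_smul (c : ℂ) (A : OneF Y.X) : p1 ν (c • A) v = c • p1 ν A v := by
  rw [p1, H686.val1_smul']; rfl

theorem p2_swap (F : TwoF Y.X) : p2 ν F v x y = -p2 ν F v y x := H686.val2_swap F _ _ _

theorem p2_add (F G : TwoF Y.X) : p2 ν (F + G) v x y = p2 ν F v x y + p2 ν G v x y :=
  H686.val2_add' F G _ _ _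

theorem p2_smul (c : ℂ) (F : TwoF Y.X) : p2 ν (c • F) v x y = c * p2 ν F v x y :=
  H686.val2_smul' c F _ _ _

theorem p2_zero : p2 ν (0 : TwoF Y.X) v x y = 0 := by
  have := p2_smul ν v x y 0 0
  rwa [zero_smul, zero_mul] at this

theorem p2_neg (F : TwoF Y.X) : p2 ν (-F) v x y = -p2 ν F v x y := by
  have := p2_smul ν v x y (-1) F
  rwa [neg_one_smul, neg_one_mul] at this

theorem p2_sub (F G : TwoF Y.X) : p2 ν (F - G) v x y = p2 ν F v x y - p2 ν G v x y := by
  rw [sub_eq_add_neg, p2_add, p2_neg, sub_eq_add_neg]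

theorem p2_sum {κ : Type*} (s : Finset κ) (F : κ → TwoF Y.X) :
    p2 ν (∑ i ∈ s, F i) v x y = ∑ i ∈ s, p2 ν (F i) v x y := by
  classical
  induction s using Finset.induction_on with
  | empty => simpa using p2_zero ν v x y
  | insert i s hi ih => rw [Finset.sum_insert hi, Finset.sum_insert hi, p2_add, ih]

end

end Vale.Agent.P290Z.KT
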