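import Vale.Agent.P290Z.KT.Basic
import Vale.Agent.P290.H342.Inst
import Vale.Agent.P267.H283.Facts

/-! P290Z, part III, block KT: classes of closed forms. -/

open Set Filter
open scoped Topology Manifold ContDiff ComplexConjugate

noncomputable section

namespace Vale.Agent.P290Z.KT

open Vale.Agent.P290 Vale.Agent.P267 Vale.Agent.P290Z.W Vale.Agent.P290Z.Top
open Vale.Agent.P267.FL (TwoF OneF LB)
open Vale.Agent.P267.BlockC (pair ExactTwo ALB)
open Vale.Agent.P267.H332 (cF HC intAx cF_smooth cF_closed)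
open Vale.Agent.P267.H757 (IsNormFn)
open Vale.Agent.P290.H726 (bil)
open Vale.Agent.P290.H342

variable {Y : W.K3} {n : ℕ} {U : UData Y.X n}

theorem hc_of_exact {F : TwoF Y.X} (h : ExactTwo F) : F ∈ HC Y.X := by
  obtain ⟨A, hA, rfl⟩ := h
  exact mem_HC_iff.2 ⟨H857.smooth_d hA, H857.closed_d hA⟩

theorem hc_of_cl {F : TwoF Y.X} {s : Fin n → ℂ} (h : ExactTwo (F - U.combC s)) : F ∈ HC Y.X := by
  have := (HC Y.X).add_mem (hc_of_exact h) (U.combC_mem (lbFacts _) s)
  rwa [sub_add_cancel] at this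

theorem hc_cF {N : Y.X → ℝ} (h : IsNormFn FL.C2 N) : cF N ∈ HC Y.X :=
  mem_HC_iff.2 ⟨cF_smooth h, cF_closed h⟩

/-- the pairing of closed forms -/
def pr2 (Y : W.K3) : HC Y.X →ₗ[ℂ] HC Y.X →ₗ[ℂ] ℂ :=
  LinearMap.mk₂ ℂ (fun F G => pair F.1 G.1)
    (fun F F' G => pair_add_left intAx F.2.1 F'.2.1 G.2.1)
    (fun c F G => pair_smul_left intAx c F.2.1 G.2.1)
    (fun F G G' => by
      rw [H342.pair_comm, H342.pair_comm F.1, H342.pair_comm F.1]
      exact pair_add_left intAx G.2.1 G'.2.1 F.2.1)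
    (fun c F G => by
      rw [H342.pair_comm, H342.pair_comm F.1]
      exact pair_smul_left intAx c G.2.1 F.2.1)

theorem pr2_apply (F G : HC Y.X) : pr2 Y F G = pair F.1 G.1 := rfl

theorem pair_congr {F F' G : TwoF Y.X} (h : ExactTwo (F - F')) (hF' : F' ∈ HC Y.X)
    (hG : G ∈ HC Y.X) : pair F G = pair F' G := by
  have h1 := pair_add_left intAx (hc_of_exact h).1 hF'.1 hG.1
  rw [sub_add_cancel, pair_exact intAx h hG, zero_add] at h1
  exact h1

/-- the intersection form computes the integrals -/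
theorem pair_cl {F F' : TwoF Y.X} {s s' : Fin n → ℂ} (h : ExactTwo (F - U.combC s))
    (h' : ExactTwo (F' - U.combC s')) :
    pair F F' = -(4 * (Real.pi : ℂ) ^ 2) * bil U.G s s' := by
  rw [pair_congr h (U.combC_mem (lbFacts _) s) (hc_of_cl h'), H342.pair_comm,
    pair_congr h' (U.combC_mem (lbFacts _) s') (U.combC_mem (lbFacts _) s), H342.pair_comm,
    U.pair_combC (lbFacts _) intAx, bil]
  congr 1
  exact Finset.sum_congr rfl fun i _ => Finset.sum_congr rfl fun j _ => by ring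

theorem hasCl_iff {F : TwoF Y.X} {k : Fin n → ℤ} :
    U.HasCl F k ↔ ExactTwo (F - U.combC (Lat.cs ℂ k)) := Iff.rfl

theorem bil_cs {ι : Type} [Fintype ι] (G : Matrix ι ι ℤ) (k l : ι → ℤ) :
    bil G (Lat.cs ℂ k) (Lat.cs ℂ l) = ((bil G k l : ℤ) : ℂ) := by
  simp [bil, Lat.cs]

theorem hasCl_zsmul {F : TwoF Y.X} {k : Fin n → ℤ} (h : U.HasCl F k) (q : ℤ) :
    U.HasCl ((q : ℂ) • F) (q • k) := by
  have h1 := exact_smul (q : ℂ) h
  have h2 : U.comb (q • k) = (q : ℂ) • U.comb k := by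
    rw [UData.comb, UData.comb, ← UData.combC_smul]
    congr 1
    funext i
    simp
  rwa [smul_sub, ← h2] at h1

theorem hasCl_sum {κ : Type*} (S : Finset κ) {F : κ → TwoF Y.X} {k : κ → Fin n → ℤ}
    (h : ∀ a, U.HasCl (F a) (k a)) : U.HasCl (∑ a ∈ S, F a) (∑ a ∈ S, k a) := by
  classical
  induction S using Finset.induction_on with
  | empty => simpa using UData.hasCl_of_exact (U := U) exactTwo_zero
  | insert a S ha ih => rw [Finset.sum_insert ha, Finset.sum_insert ha]; exact (h a).add ih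

/-- classes with the same products agree -/
theorem cl_eq {F F' : TwoF Y.X} {k k' : Fin n → ℤ} (h : U.HasCl F k) (h' : U.HasCl F' k')
    (he : ∀ G : TwoF Y.X, G.Smooth → G.Closed → pair F G = pair F' G) : k = k' := by
  refine sub_eq_zero.1 (U.nondeg _ fun l => ?_)
  have h1 := U.comb_mem (lbFacts _) l
  have h2 := he _ h1.1 h1.2.1
  rw [U.pair_of_hasCl (lbFacts _) intAx (hc_of_cl h) h1 h (U.hasCl_comb l),
    U.pair_of_hasCl (lbFacts _) intAx (hc_of_cl h') h1 h' (U.hasCl_comb l)] at h2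
  have hpi : (Real.pi : ℂ) ≠ 0 := by exact_mod_cast Real.pi_ne_zero
  have h3 := mul_left_cancel₀ (neg_ne_zero.2 (mul_ne_zero (by norm_num) (pow_ne_zero 2 hpi))) h2
  rw [map_sub, AddMonoidHom.sub_apply, sub_eq_zero]
  exact_mod_cast h3

theorem pair_om_cF (N : Y.X → ℝ) (hN : IsNormFn FL.C2 N) : pair (Kur.omF Y) (cF N) = 0 := by
  have h1 : (Kur.omF Y).wedge (cF N) = ((0 : ℂ) • cF N).wedge (cF N) := by
    funext x
    simp [TwoF.wedge, Kur.omF, cF]
  rw [pair, h1]
  exact (pair_smul_left intAx 0 (cF_smooth hN) (cF_smooth hN)).trans (zero_mul _)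

/-- the products of real forms with curves -/
theorem im_pair_cF {N : Y.X → ℝ} (hN : IsNormFn FL.C2 N) {P : TwoF Y.X} (hP : P.Smooth)
    (hr : P.Real) : (Complex.I * pair (cF N) P).im = 0 := by
  rw [← pair_smul_left intAx _ (cF_smooth hN) hP]
  refine BlockC.pair_real (H332.TwoF_smooth_smul _ (cF_smooth hN)) hP (fun x => ⟨by simp [cF], ?_⟩)
    hr (HasCompactSupport.of_compactSpace _)
  intro i j
  have h := H332.cF_imag hN x i j
  simp [cF, h]

end Vale.Agent.P290Z.KT
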