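import Vale.Agent.P290Z.KT.Spec
import Vale.Agent.P290Z.Lat.Basic

/-! P290Z, part III, block KT: the invariant and the explicit form of the lattice of a Kummer
surface are isometric. -/

set_option linter.all false

open Matrix

namespace Vale.Agent.P290Z.KT

open Vale.Agent.P290.H726 Vale.Agent.P290Z.N

namespace ConfA

/-- binary numbering of the points of order two -/
def nb (a : F4) : Fin 16 :=
  ⟨(a 0).val + 2 * (a 1).val + 4 * (a 2).val + 8 * (a 3).val, by
    have := (a 0).val_lt
    have := (a 1).val_lt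
    have := (a 2).val_lt
    have := (a 3).val_lt
    omega⟩

theorem two_zero : (2 : ZMod 2) = 0 := rfl

theorem nb_bij : Function.Bijective nb := by decide +kernel

/-- the skew matrix with six given entries -/
def sk (c : Fin 22 → ℤ) : Fin 4 → Fin 4 → ℤ :=
  ![![0, c 0, c 1, c 2], ![-c 0, 0, c 5, -c 4], ![-c 1, -c 5, 0, c 3], ![-c 2, c 4, -c 3, 0]]

/-- the pair with the coordinates `c` -/
def pr (c : Fin 22 → ℤ) : (Fin 4 → Fin 4 → ℤ) × (F4 → ℤ) := (sk c, fun a => -c (ie (nb a)))

theorem pr_add (c d : Fin 22 → ℤ) : pr (c + d) = pr c + pr d := by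
  refine Prod.ext (funext₂ fun i j => ?_) (funext fun a => by
    simp only [pr, Prod.snd_add, Pi.add_apply, neg_add])
  change sk (c + d) i j = sk c i j + sk d i j
  fin_cases i <;> fin_cases j <;> simp [sk] <;> ring

theorem pr_smul (m : ℤ) (c : Fin 22 → ℤ) : pr (m • c) = m • pr c := by
  refine Prod.ext (funext₂ fun i j => ?_) (funext fun a => by simp [pr])
  fin_cases i <;> fin_cases j <;> simp [pr, sk]

theorem pr_B (k : Fin 22) : pr (B k) ∈ LKm :=
  ⟨fun i j => by fin_cases i <;> fin_cases j <;> simp [pr, sk], by revert k; decide +kernel⟩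

theorem pr_mem (x : Fin 22 → ℤ) : pr (co x) ∈ LKm := by
  have h : ∀ s : Finset (Fin 22), pr (∑ k ∈ s, x k • B k) ∈ LKm := fun s => by
    induction s using Finset.induction_on with
    | empty =>
      have := pr_smul 0 0
      rw [zero_smul, zero_smul] at this
      rw [Finset.sum_empty, this]
      exact zero_mem _
    | insert a s ha ih =>
      rw [Finset.sum_insert ha, pr_add, pr_smul]
      exact add_mem (zsmul_mem (pr_B a) _) ih
  exact (show ∑ k, x k • B k = co x from funext fun l => by simp [co, Finset.sum_apply]) ▸ h _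

/-- from the explicit to the invariant form -/
def ps : (Fin 22 → ℤ) →+ LKm := AddMonoidHom.mk' (fun x => ⟨pr (co x), pr_mem x⟩) fun x y =>
  Subtype.ext ((congrArg pr (funext (co_add x y))).trans (pr_add _ _))

theorem ps_form (x y : Fin 22 → ℤ) : form2 (ps x) (ps y) = 2 * bil G0 x y := by
  rw [two_bil, ← (Equiv.ofBijective nb nb_bij).sum_comp]
  simp [form2, ps, pr, pf, sk, Fin.sum_univ_three, iu, iw]
  ring

theorem ps_e (a : F4) : ps (e (nb a)) = eK a := by
  refine Subtype.ext (Prod.ext (funext₂ fun i j => ?_) (funext fun b => ?_))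
  · have h : ∀ l : Fin 22, l.val < 6 → co (e (nb a)) l = 0 := fun l hl => by
      rw [e, co_A', if_neg]
      simp only [ie, Fin.ext_iff]
      omega
    fin_cases i <;> fin_cases j <;> simp [ps, pr, sk, eK, h]
  · simp only [ps, pr, eK, e, AddMonoidHom.mk'_apply, co_A', ie_inj, nb_bij.1.eq_iff,
      Pi.single_apply, eq_comm (a := b)]
    split_ifs <;> rfl

theorem ps_inj : Function.Injective ps := (injective_iff_map_eq_zero _).2 fun x hx => by
  have h : ∀ y, bil G0 x y = 0 := fun y => by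
    have := ps_form x y
    rw [hx] at this
    simpa [form2, pf] using this.symm
  exact eq_zero_of_orth x (fun _ => h _) (fun _ => h _) fun _ => h _

theorem aff_range : ∀ f : F4 → ZMod 2, (∀ a b, f (a + b) = f a + f b) →
    (∀ i, f (Pi.single i 1) = 0) → ∀ a, f a = 0 := fun f h1 h2 a => by
  have h0 : f 0 = 0 := by simpa using h1 0 0
  have h3 : ∀ i (z : ZMod 2), f (Pi.single i z) = 0 := fun i z => by
    fin_cases z
    · exact (congrArg f (Pi.single_zero i)).trans h0
    · exact h2 i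
  rw [← Finset.univ_sum_single a, Fin.sum_univ_four, h1, h1, h1, h3, h3, h3, h3]
  rfl

theorem ps_surj : Function.Surjective ps := by
  intro y
  have hs := y.2.1
  have hd : ∀ i, y.1.1 i i = 0 := fun i => by have := hs i i; omega
  obtain ⟨x, hx⟩ : ∃ x : Fin 22 → ℤ, x = ![y.1.1 0 1, y.1.1 0 2, y.1.1 0 3, y.1.1 2 3, -y.1.1 1 3,
    y.1.1 1 2, -y.1.2 0, y.1.2 0 - y.1.2 (Pi.single 0 1), y.1.2 0 - y.1.2 (Pi.single 1 1),
    y.1.2 0 - y.1.2 (Pi.single 2 1), y.1.2 0 - y.1.2 (Pi.single 3 1),
    0, 0, 0, 0, 0, 0, 0, 0, 0, 0, 0] := ⟨_, rfl⟩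
  have h1 : (y - ps x).1.1 = 0 := by
    funext i j
    have : ∀ l : Fin 22, l.val < 6 → co x l = x l := co_low x
    fin_cases i <;> fin_cases j <;> simp [ps, pr, sk, this, hd] <;>
      simp [hx, hs 1 0, hs 2 0, hs 3 0, hs 2 1, hs 3 1, hs 3 2]
  have b2 : ∀ k : Fin 22, B k (ie (nb 0)) = if k = 6 then 1 else 0 := by decide +kernel
  have b3 : ∀ (k : Fin 22) (i : Fin 4), B k (ie (nb (Pi.single i 1))) =
      (if k = 6 then 1 else 0) + if k = ⟨7 + i, by omega⟩ then 1 else 0 := by decide +kernel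
  have h2 : (y - ps x).1.2 0 = 0 := by
    simp [ps, pr, co, b2]
    simp [hx]
  have h3 : ∀ i, (y - ps x).1.2 (Pi.single i 1) = 0 := fun i => by
    simp only [ps, pr, co, b3, AddSubgroup.coe_sub, Prod.snd_sub, Pi.sub_apply,
      AddMonoidHom.mk'_apply, Int.cast_id, mul_add, Finset.sum_add_distrib, mul_ite, mul_one,
      mul_zero, Finset.sum_ite_eq', Finset.mem_univ, if_true]
    fin_cases i <;> simp [hx]
  have h4 := aff_range (fun a => ((y - ps x).1.2 a : ZMod 2)) (fun a b => by
    have := (y - ps x).2.2 a b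
    rw [h1, h2] at this
    simp only [Pi.zero_apply, Int.cast_zero, mul_zero, zero_mul, Finset.sum_const_zero,
      Int.cast_add, add_zero] at this
    linear_combination this - (((y - ps x).1.2 a : ZMod 2) + (y - ps x).1.2 b) *
      two_zero) fun i => by rw [h3, Int.cast_zero]
  choose m hm using fun c => (ZMod.intCast_zmod_eq_zero_iff_dvd _ 2).1 (h4 c)
  refine ⟨x + ∑ a, (-m a) • e (nb a), ?_⟩
  rw [map_add, map_sum, ← eq_sub_iff_add_eq']
  simp only [map_zsmul, ps_e]
  refine Subtype.ext (Prod.ext ?_ (funext fun b => ?_))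
  · rw [h1]
    simp [eK, Prod.fst_sum]
  · rw [hm]
    simp [eK, Prod.snd_sum, Finset.sum_apply, Pi.single_apply, mul_comm]

end ConfA

open ConfA in
/-- a configuration in explicit coordinates is a configuration in invariant coordinates -/
theorem lconf_of {ι : Type} [Fintype ι] [DecidableEq ι] {G : Matrix ι ι ℤ} (κ : Top.KConf G) :
    ∃ l : LConf G, (∀ a, l.E a = κ.E (nb a)) ∧ ∀ p, Top.GenK κ p → l.GenK p := by
  let q : (Fin 22 → ℤ) ≃+ LKm := AddEquiv.ofBijective ps ⟨ps_inj, ps_surj⟩
  let r : (Fin 22 → ℤ) ≃+ (ι → ℤ) := AddEquiv.ofBijective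
    (AddMonoidHom.mk' (Lat.act κ.g) (Lat.act_add κ.g)) ⟨κ.isom.act_inj, κ.isom.act_surj⟩
  let l : LConf G := ⟨q.symm.trans r, fun x y => by
    obtain ⟨x, rfl⟩ := q.surjective x
    obtain ⟨y, rfl⟩ := q.surjective y
    simp only [AddEquiv.trans_apply, AddEquiv.symm_apply_apply]
    exact (congrArg (2 * ·) (κ.isom.bil x y)).trans (ps_form x y).symm⟩
  have h : ∀ a, l.E a = κ.E (nb a) := fun a =>
    congrArg r (q.symm_apply_eq.2 (ps_e a).symm)
  refine ⟨l, h, fun p hp y => (hp y).trans (forall_congr' fun z => imp_congr_left ?_)⟩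
  simp only [h]
  exact nb_bij.2.forall

theorem lconf : StLConf := fun _ _ κ s h => (lconf_of κ).imp fun _ hl => hl.2 s h

end Vale.Agent.P290Z.KT
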