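import Vale.Agent.P290Z.KT.Spec

/-! P290Z, part III, block KT, step CURV: the curvature of the line spanned by a vector. -/

open Set Filter
open scoped Topology ComplexConjugate

noncomputable section

namespace Vale.Agent.P290Z.KT

namespace CurvAux

variable {ι : Type} [Fintype ι]

/-- matrices of rank one -/
def rk1 (u w : ι → ℂ) : Matrix ι ι ℂ := Matrix.of fun i j => u i * conj (w j)

theorem rk1_mul (u w u' w' : ι → ℂ) : rk1 u w * rk1 u' w' = ip w u' • rk1 u w' := by
  ext i j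
  simp only [rk1, Matrix.mul_apply, Matrix.of_apply, Matrix.smul_apply, smul_eq_mul, ip,
    Finset.sum_mul]
  exact Finset.sum_congr rfl fun k _ => by ring

theorem rk1_trace (u w : ι → ℂ) : (rk1 u w).trace = ip w u :=
  Finset.sum_congr rfl fun _ _ => mul_comm _ _

theorem prj_eq (v : ι → ℂ) : prj v = (ip v v)⁻¹ • rk1 v v := by
  ext i j
  simp only [prj, rk1, Matrix.of_apply, Matrix.smul_apply, smul_eq_mul]
  ring

theorem ip_self (v : ι → ℂ) : ip v v = ((∑ k, Complex.normSq (v k) : ℝ) : ℂ) := by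
  rw [ip, Complex.ofReal_sum]
  exact Finset.sum_congr rfl fun k _ => Complex.normSq_eq_conj_mul_self.symm

theorem ip_ne {v : ι → ℂ} (h : v ≠ 0) : ip v v ≠ 0 := by
  rw [ip_self, Complex.ofReal_ne_zero]
  intro e
  refine h (funext fun k => Complex.normSq_eq_zero.1 ?_)
  exact (Finset.sum_eq_zero_iff_of_nonneg fun k _ => Complex.normSq_nonneg (v k)).1 e k
    (Finset.mem_univ k)

/-- the conjugate of a real linear form -/
def cj (l : V →L[ℝ] ℂ) : V →L[ℝ] ℂ := (Complex.conjCLE : ℂ →L[ℝ] ℂ).comp l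

theorem cj_apply (l : V →L[ℝ] ℂ) (x : V) : cj l x = conj (l x) := rfl

theorem hasF_conj {f : V → ℂ} {l : V →L[ℝ] ℂ} {z : V} (h : HasFDerivAt f l z) :
    HasFDerivAt (fun y => conj (f y)) (cj l) z :=
  (Complex.conjCLE : ℂ →L[ℝ] ℂ).hasFDerivAt.comp z h

theorem hasF_inv {v : V → ι → ℂ} {D : ι → V →L[ℝ] ℂ} {z : V}
    (h : ∀ k, HasFDerivAt (fun y => v y k) (D k) z) (h0 : v z ≠ 0) :
    ∃ l : V →L[ℝ] ℂ, HasFDerivAt (fun y => (ip (v y) (v y))⁻¹) l z ∧
      ∀ x, l x = -((ip (v z) (v z))⁻¹ ^ 2 *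
        (ip (v z) (fun k => D k x) + ip (fun k => D k x) (v z))) := by
  have h1 : HasFDerivAt (fun y => ip (v y) (v y))
      (∑ k, (conj (v z k) • D k + v z k • cj (D k))) z :=
    HasFDerivAt.fun_sum fun k _ => (hasF_conj (h k)).mul (h k)
  refine ⟨_, (hasFDerivAt_inv' (𝕜 := ℝ) (ip_ne h0)).comp z h1, fun x => ?_⟩
  simp only [ContinuousLinearMap.comp_apply, neg_apply,
    ContinuousLinearMap.mulLeftRight_apply, sum_apply,
    add_apply, smul_apply, smul_eq_mul, cj_apply,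
    Finset.sum_add_distrib]
  have e : ∑ k, v z k * conj (D k x) = ip (fun k => D k x) (v z) :=
    Finset.sum_congr rfl fun _ _ => mul_comm _ _
  rw [e]
  change -(_ * (ip (v z) (fun k => D k x) + _) * _) = _
  ring

theorem dP_eq {v : V → ι → ℂ} {D : ι → V →L[ℝ] ℂ} {z : V}
    (h : ∀ k, HasFDerivAt (fun y => v y k) (D k) z) (h0 : v z ≠ 0) (x : V) :
    dP (fun w => prj (v w)) z x =
      (ip (v z) (v z))⁻¹ • (rk1 (v z) (fun k => D k x) + rk1 (fun k => D k x) (v z)) -
        ((ip (v z) (v z))⁻¹ ^ 2 * (ip (v z) (fun k => D k x) + ip (fun k => D k x) (v z))) •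
          rk1 (v z) (v z) := by
  obtain ⟨l, hl, el⟩ := hasF_inv h h0
  ext i j
  have h1 : HasFDerivAt (fun y => prj (v y) i j) _ z :=
    (((h i).mul (hasF_conj (h j))).mul hl).congr_of_eventuallyEq
      (Eventually.of_forall fun y => div_eq_mul_inv _ _)
  rw [dP, Matrix.of_apply, h1.fderiv]
  simp only [add_apply, smul_apply, smul_eq_mul, cj_apply,
    el, rk1, Matrix.sub_apply, Matrix.smul_apply, Matrix.add_apply, Matrix.of_apply, Pi.mul_apply]
  ring

theorem cu_eq {v : V → ι → ℂ} {D : ι → V →L[ℝ] ℂ} {z : V}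
    (h : ∀ k, HasFDerivAt (fun y => v y k) (D k) z) (h0 : v z ≠ 0) (x y : V) :
    cu (fun w => prj (v w)) z x y =
      (ip (v z) (v z))⁻¹ * (ip (fun k => D k x) (fun k => D k y) -
        ip (fun k => D k y) fun k => D k x) -
      (ip (v z) (v z))⁻¹ ^ 2 * (ip (fun k => D k x) (v z) * ip (v z) (fun k => D k y) -
        ip (fun k => D k y) (v z) * ip (v z) fun k => D k x) := by
  have hn := ip_ne h0
  rw [cu, dP_eq h h0, dP_eq h h0, prj_eq]
  simp only [mul_sub, sub_mul, mul_add, add_mul, Matrix.smul_mul, Matrix.mul_smul, rk1_mul,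
    smul_add, Matrix.trace_sub, Matrix.trace_add, Matrix.trace_smul, rk1_trace,
    smul_eq_mul]
  field_simp
  ring

end CurvAux

open CurvAux

theorem curv : StCurv := by
  intro ι _ v z hv h0 x y
  have hk : ∀ k, ContDiffAt ℝ 2 (fun y => v y k) z := contDiffAt_pi.1 hv
  have h1 : ∀ k, HasFDerivAt (fun y => v y k) (fderiv ℝ (fun y => v y k) z) z := fun k =>
    ((hk k).differentiableAt (by norm_num)).hasFDerivAt
  have h2 : ∀ k, HasFDerivAt (fderiv ℝ fun y => v y k)
      (fderiv ℝ (fderiv ℝ fun y => v y k) z) z := fun k =>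
    (((hk k).fderiv_right (m := 1) (by norm_num)).differentiableAt one_ne_zero).hasFDerivAt
  have hs : ∀ k, fderiv ℝ (fderiv ℝ fun y => v y k) z x y =
      fderiv ℝ (fderiv ℝ fun y => v y k) z y x := fun k =>
    ((hk k).isSymmSndFDerivAt (by simp)).eq x y
  obtain ⟨l, hl, el⟩ := hasF_inv h1 h0
  have h3 : HasFDerivAt (con v) _ z :=
    hl.smul (HasFDerivAt.fun_sum fun k (_ : k ∈ Finset.univ) => (hasF_conj (h1 k)).smul (h2 k))
  rw [cu_eq h1 h0, dd, h3.fderiv]
  simp only [add_apply, smul_apply, smul_eq_mul,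
    sum_apply, ContinuousLinearMap.smulRight_apply, cj_apply, el, hs,
    Finset.sum_add_distrib]
  simp only [ip]
  ring

end Vale.Agent.P290Z.KT
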