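import Vale.Agent.P290Z.KT.Basic

/-! P290Z, part III, block KT: norm functions of the sixteen curves in standard form. -/

open Set Filter
open scoped Topology Manifold ContDiff ComplexConjugate

noncomputable section

namespace Vale.Agent.P290Z.KT

open Vale.Agent.P290 Vale.Agent.P267 Vale.Agent.P290Z.W Vale.Agent.P290Z.Top
open Vale.Agent.P267.FL (Reg0)
open Vale.Agent.P267.H757 (IsNormFn LocRep)
open Vale.Agent.P290Z.Kum (pr ph)

namespace Crv

variable {co : Co} {St : ℝ → ℝ}

theorem st_nat (h : Stair St) (s : ℝ) (n : ℕ) : St (s + n / 2) = St s + n / 2 := by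
  induction n with
  | zero => simp
  | succ n ih =>
    rw [show s + ((n + 1 : ℕ) : ℝ) / 2 = s + n / 2 + 1 / 2 by push_cast; ring, h.half, ih]
    push_cast
    ring

theorem st_int (h : Stair St) (s : ℝ) (n : ℤ) : St (s + n) = St s + n := by
  obtain ⟨k, rfl | rfl⟩ := n.eq_nat_or_neg
  · have := st_nat h s (2 * k)
    push_cast at this ⊢
    rwa [mul_div_cancel_left₀ _ two_ne_zero] at this
  · have := st_nat h (s + -k) (2 * k)
    push_cast at this ⊢
    rw [mul_div_cancel_left₀ _ two_ne_zero, neg_add_cancel_right] at this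
    linarith

/-- the periodic odd map which is `z - p` near the points `p` of order two -/
def ze (co : Co) (St : ℝ → ℝ) (z : V) : V := z - co.symm fun i => St (co z i)

/-- the cut off function -/
def cc (co : Co) (St : ℝ → ℝ) (a : F4) (z : V) : ℝ :=
  ∏ i, Real.cos (Real.pi * (St (co z i) - ((a i).val : ℝ) / 2)) ^ 2

/-- the norm function on the universal cover -/
def ff (co : Co) (St : ℝ → ℝ) (a : F4) (z : V) : ℝ :=
  nq (ze co St z) ^ 2 * cc co St a z + (1 - cc co St a z)

theorem cos_sq_int (x : ℝ) (n : ℤ) :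
    Real.cos (Real.pi * (x + n)) ^ 2 = Real.cos (Real.pi * x) ^ 2 := by
  rw [mul_add, mul_comm Real.pi (n : ℝ), Real.cos_add_int_mul_pi, mul_pow, ← zpow_natCast,
    ← zpow_mul, mul_comm n, zpow_mul]
  norm_num

theorem ff_smooth (h : Stair St) (a : F4) : ContDiff ℝ ∞ (ff co St a) := by
  have h1 : ∀ i, ContDiff ℝ ∞ fun z : V => St (co z i) := fun i =>
    h.smooth.comp ((contDiff_apply ℝ ℝ i).comp co.contDiff)
  have h2 : ContDiff ℝ ∞ (ze co St) :=
    contDiff_id.sub (co.symm.contDiff.comp (contDiff_pi.2 h1))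
  have h3 : ContDiff ℝ ∞ (cc co St a) :=
    contDiff_prod fun i _ =>
      (Real.contDiff_cos.comp (contDiff_const.mul ((h1 i).sub contDiff_const))).pow 2
  have h4 : ContDiff ℝ ∞ nq := by
    unfold nq
    simp only [Complex.normSq_eq_norm_sq]
    exact (contDiff_fst.norm_sq ℂ).add (contDiff_snd.norm_sq ℂ)
  exact (((h4.comp h2).pow 2).mul h3).add (contDiff_const.sub h3)

theorem ff_lp (h : Stair St) (a : F4) (z : V) (m : Fin 4 → ℤ) :
    ff co St a (z + lp co m) = ff co St a z := by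
  have h1 : ze co St (z + lp co m) = ze co St z :=
    co_ext (co := co) fun i => by simp [ze, st_int h]
  have h2 : cc co St a (z + lp co m) = cc co St a z :=
    Finset.prod_congr rfl fun i _ => by
      rw [map_add, Pi.add_apply, co_lp, st_int h, add_sub_right_comm, cos_sq_int]
  rw [ff, h1, h2, ff]

theorem ff_neg (h : Stair St) (a : F4) (z : V) : ff co St a (-z) = ff co St a z := by
  have h1 : ze co St (-z) = -ze co St z :=
    co_ext (co := co) fun i => by simp [ze, h.odd]; ring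
  have h2 : cc co St a (-z) = cc co St a z :=
    Finset.prod_congr rfl fun i _ => by
      rw [map_neg, Pi.neg_apply, h.odd, ← Real.cos_neg,
        ← cos_sq_int (St (co z i) - ((a i).val : ℝ) / 2) ((a i).val : ℕ)]
      congr 2
      push_cast
      ring
  rw [ff, h1, h2, ff]
  simp [nq]

theorem ff_near (h : Stair St) (a b : F4) :
    ∀ᶠ z in 𝓝 (pt co b), ff co St a z = if b = a then nq (z - pt co b) ^ 2 else 1 := by
  have h1 : ∀ᶠ z in 𝓝 (pt co b), ∀ i, St (co z i) = ((b i).val : ℝ) / 2 := by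
    refine eventually_all.2 fun i => ?_
    have c1 : Continuous fun z : V => |co z i - ((b i).val : ℝ) / 2| := by fun_prop
    filter_upwards [(c1.continuousAt (x := pt co b)).eventually_lt_const
      (show _ < (1 / 8 : ℝ) by simp)] with z hz
    have := st_nat h (co z i - ((b i).val : ℝ) / 2) (b i).val
    rwa [sub_add_cancel, h.zero _ hz.le, zero_add] at this
  filter_upwards [h1] with z hz
  have h2 : ze co St z = z - pt co b := co_ext (co := co) fun i => by simp [ze, hz]
  rw [ff, h2]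
  split_ifs with e
  · have h3 : cc co St a z = 1 := Finset.prod_eq_one fun i _ => by simp [hz, e]
    rw [h3]
    ring
  · obtain ⟨i, hi⟩ := Function.ne_iff.1 e
    have h3 : cc co St a z = 0 := by
      refine Finset.prod_eq_zero (Finset.mem_univ i) ?_
      have h4 : (b i).val ≠ (a i).val := fun e => hi (ZMod.val_injective 2 e)
      have h5 := ZMod.val_lt (a i)
      have h6 := ZMod.val_lt (b i)
      rw [hz, sq_eq_zero_iff]
      rcases (by omega : (b i).val = 0 ∧ (a i).val = 1 ∨ (b i).val = 1 ∧ (a i).val = 0) with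
        ⟨e1, e2⟩ | ⟨e1, e2⟩
      · rw [e1, e2, ← Real.cos_neg, ← Real.cos_pi_div_two]
        congr 1
        push_cast
        ring
      · rw [e1, e2, ← Real.cos_pi_div_two]
        congr 1
        push_cast
        ring
    rw [h3]
    ring

theorem ff_pos (a : F4) {z : V} (hz : Good co z) : 0 < ff co St a z := by
  have h1 : 0 ≤ cc co St a z := Finset.prod_nonneg fun i _ => sq_nonneg _
  have h2 : cc co St a z ≤ 1 :=
    Finset.prod_le_one (fun i _ => sq_nonneg _) fun i _ => Real.cos_sq_le_one _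
  have h3 := mul_nonneg (sq_nonneg (nq (ze co St z))) h1
  rcases h2.lt_or_eq with h4 | h4
  · rw [ff]
    linarith
  rw [ff, h4, mul_one, sub_self, add_zero, sq_pos_iff]
  intro h5
  have h6 : ze co St z = 0 := by
    have a1 := Complex.normSq_nonneg (ze co St z).1
    have a2 := Complex.normSq_nonneg (ze co St z).2
    rw [nq] at h5
    exact Prod.ext (Complex.normSq_eq_zero.1 (by linarith)) (Complex.normSq_eq_zero.1 (by linarith))
  refine hz (mem_Lt'.2 fun i => ?_)
  have h7 : co z i = St (co z i) := by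
    have := congrArg (fun w => co w i) h6
    simpa [ze, sub_eq_zero] using this
  have h8 : Real.sin (Real.pi * (St (co z i) - ((a i).val : ℝ) / 2)) = 0 := by
    by_contra h9
    have h10 : Real.cos (Real.pi * (St (co z i) - ((a i).val : ℝ) / 2)) ^ 2 < 1 := by
      have := Real.sin_sq_add_cos_sq (Real.pi * (St (co z i) - ((a i).val : ℝ) / 2))
      have := sq_pos_iff.2 h9
      linarith
    have h11 : ∏ j ∈ Finset.univ.erase i,
        Real.cos (Real.pi * (St (co z j) - ((a j).val : ℝ) / 2)) ^ 2 ≤ 1 :=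
      Finset.prod_le_one (fun i _ => sq_nonneg _) fun i _ => Real.cos_sq_le_one _
    rw [cc, ← Finset.mul_prod_erase _ _ (Finset.mem_univ i)] at h4
    nlinarith [sq_nonneg (Real.cos (Real.pi * (St (co z i) - ((a i).val : ℝ) / 2)))]
  obtain ⟨n, hn⟩ := Real.sin_eq_zero_iff.1 h8
  refine ⟨2 * n + (a i).val, ?_⟩
  have h9 : (n : ℝ) = St (co z i) - ((a i).val : ℝ) / 2 :=
    mul_left_cancel₀ Real.pi_ne_zero (by linarith)
  rw [map_add, Pi.add_apply]
  push_cast
  linarith

/-- the norm function in the charts of the resolution -/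
def gg (a a' : F4) (v : V) : ℝ :=
  if a' = a then Complex.normSq v.1 * (1 + Complex.normSq v.2) ^ 2 else 1

theorem gg_smooth (a a' : F4) : ContDiff ℝ ∞ (gg a a') := by
  unfold gg
  split_ifs
  · simp only [Complex.normSq_eq_norm_sq]
    exact (contDiff_fst.norm_sq ℂ).mul ((contDiff_const.add (contDiff_snd.norm_sq ℂ)).pow 2)
  · exact contDiff_const

theorem gg_ph (a a' : F4) {b : Bool} {y : V} (h : Kum.cs b y ≠ 0) :
    gg a a' (ph b y) = if a' = a then nq y ^ 2 else 1 := by
  unfold gg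
  split_ifs
  · have h1 : Complex.normSq (Kum.cs b y) ≠ 0 := fun e => h (Complex.normSq_eq_zero.1 e)
    have h2 : nq y = Complex.normSq (Kum.cs b y) + Complex.normSq (Kum.ct b y) := by
      cases b <;> simp [nq, Kum.cs, Kum.ct, add_comm]
    simp only [ph, map_pow, map_div₀, h2]
    field_simp
  · rfl

variable {Y : W.K3}

/-- the local representation near a point of the curve -/
theorem rep (h0 : StApi0) {N : Y.X → ℝ} {ν : V → Y.X} {v : V} (hν : Et ν v)
    (hN : ∀ᶠ w in 𝓝 v, N (ν w) = Complex.normSq w.1 * (1 + Complex.normSq w.2) ^ 2) :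
    ∃ U g ψ, ν v ∈ U ∧ LocRep FL.C2 N U g ψ ∧ mfderiv 𝓘(ℂ, FL.C2) 𝓘(ℂ) g (ν v) ≠ 0 := by
  obtain ⟨e, e0, e1, e2, e3, e4⟩ := (h0 Y).2.2 ν v hν
  obtain ⟨O, O1, O2, O3⟩ := eventually_nhds_iff.1 hN
  have hv : ν v ∈ e.target := by rw [← (e1 v e0).1]; exact e.map_source e0
  have hv' : e.symm (ν v) = v := by rw [← (e1 v e0).1]; exact e.left_inv e0
  have f1 : MDifferentiable 𝓘(ℂ, V) 𝓘(ℂ) (ContinuousLinearMap.fst ℂ ℂ ℂ) :=
    (ContinuousLinearMap.fst ℂ ℂ ℂ).mdifferentiable
  have f2 : ContDiff ℝ ∞ fun w : V => -(2 * Real.log (1 + Complex.normSq w.2)) := by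
    refine (contDiff_const.mul (ContDiff.log ?_ fun w => ?_)).neg
    · simp only [Complex.normSq_eq_norm_sq]
      exact contDiff_const.add (contDiff_snd.norm_sq ℂ)
    · linarith [Complex.normSq_nonneg w.2]
  refine ⟨e.target ∩ e.symm ⁻¹' O, ContinuousLinearMap.fst ℂ ℂ ℂ ∘ e.symm,
    (fun w : V => -(2 * Real.log (1 + Complex.normSq w.2))) ∘ e.symm,
    ⟨hv, by rwa [mem_preimage, hv']⟩, ⟨e.isOpen_inter_preimage_symm O2,
      f1.comp_mdifferentiableOn (e2.mono inter_subset_left), fun B B1 B2 ⟨y, hy⟩ => ?_,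
      f2.contMDiff.comp_contMDiffOn (e3.mono inter_subset_left), fun y hy => ?_⟩, fun h => ?_⟩
  · have d1 : Dense (Prod.fst ⁻¹' ({0}ᶜ : Set ℂ) : Set V) :=
      (dense_compl_singleton (0 : ℂ)).preimage isOpenMap_fst
    obtain ⟨w, w1, w2⟩ := d1.inter_open_nonempty _ (e.isOpen_inter_preimage B1)
      ⟨e.symm y, e.map_target (B2 hy).1, by rwa [mem_preimage, e.right_inv (B2 hy).1]⟩
    refine ⟨e w, w1.2, ?_⟩
    rw [Function.comp_apply, e.left_inv w1.1]
    exact w2
  · have a1 := O1 _ hy.2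
    rw [← (e1 _ (e.map_target hy.1)).1, e.right_inv hy.1] at a1
    have a2 : 0 < 1 + Complex.normSq (e.symm y).2 := by
      linarith [Complex.normSq_nonneg (e.symm y).2]
    rw [a1, Function.comp_apply, Function.comp_apply, neg_neg, two_mul, Real.exp_add,
      Real.exp_log a2, Complex.normSq_eq_norm_sq, sq (1 + _)]
    rfl
  · obtain ⟨x, hx⟩ := e4 _ hv ((1, 0) : V)
    rw [mfderiv_comp _ (f1 _) (e2.mdifferentiableAt (e.open_target.mem_nhds hv)),
      ContinuousLinearMap.mfderiv_eq] at h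
    have a1 : (mfderiv 𝓘(ℂ, FL.C2) 𝓘(ℂ, V) e.symm (ν v) x : V).1 = 0 := congrArg (fun A => A x) h
    rw [hx] at a1
    exact one_ne_zero a1

end Crv

open Crv in
theorem curve (h0 : StApi0) (_ : StApi1) (hd : StDesc0) (hs : StStair) : StCurve := by
  intro Y co K a
  obtain ⟨St, hS⟩ := hs
  have c1 : ∀ a', ∀ᶠ z in 𝓝 (pt co a'), ∀ b, Kum.cs b (z - pt co a') ≠ 0 →
      (ff co St a z : ℂ) = gg a a' (ph b (z - pt co a')) := fun a' =>
    (ff_near hS a a').mono fun z hz b hb => by rw [hz, gg_ph a a' hb]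
  obtain ⟨s, s1, s2, s3⟩ := hd Y co K (fun z => ff co St a z) (fun a' _ v => gg a a' v)
    (fun z _ => (Complex.ofRealCLM.contDiff.comp (ff_smooth hS a)).contDiffAt)
    (fun z m _ => by rw [ff_lp hS]) (fun z _ => by rw [ff_neg hS])
    (fun a' _ _ => (Complex.ofRealCLM.contDiff.comp (gg_smooth a a')).contDiffAt) c1
  have n1 : ContMDiff 𝓘(ℝ, FL.C2) 𝓘(ℝ) ∞ fun y => (s y).re :=
    Complex.reCLM.contDiff.contMDiff.comp (FL.contMDiff_iff_reg0.2 s1)
  have n2 : ∀ y, y ∉ Cv K a → 0 < (s y).re := fun y hy => by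
    rcases cover K y with ⟨z, hz, rfl⟩ | ⟨a', b, u, rfl⟩
    · rw [s2 z hz]
      exact ff_pos a hz
    · have h : a' ≠ a := fun e => hy (e ▸ N_mem_Cv K a' b u)
      simp [s3, gg, h]
  have n3 : ∀ y ∈ Cv K a, ∃ U g ψ, y ∈ U ∧ LocRep FL.C2 (fun y => (s y).re) U g ψ ∧
      mfderiv 𝓘(ℂ, FL.C2) 𝓘(ℂ) g y ≠ 0 := by
    rintro _ ⟨b, u, rfl⟩
    refine rep h0 (et_curve K a b u) ?_
    filter_upwards [near_N K a (c1 a) b u] with v ⟨_, hv⟩
    by_cases h : v.1 = 0
    · rw [show v = (0, v.2) from Prod.ext h rfl]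
      simp [s3, gg]
    · obtain ⟨z, z1, z2, z3, z4, z5⟩ := hv h
      rw [z5, s2 z z1, z2 b z3, z4, Complex.ofReal_re, gg, if_pos rfl]
  have n4 : ∀ y, (s y).re = 0 ↔ y ∈ Cv K a := fun y => by
    refine ⟨fun h => by_contra fun hy => (n2 y hy).ne' h, ?_⟩
    rintro ⟨b, u, rfl⟩
    simp [s3, gg]
  refine ⟨fun y => (s y).re, ⟨fun p => ?_, n4, fun p hp => n3 p ((n4 p).1 hp)⟩, fun b => ?_⟩
  · by_cases hp : p ∈ Cv K a
    · obtain ⟨U, g, ψ, a1, a2, -⟩ := n3 p hp
      exact ⟨U, g, ψ, a1, a2⟩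
    · refine ⟨{y | 0 < (s y).re}, fun _ => 1, fun y => -Real.log (s y).re, n2 p hp,
        isOpen_lt continuous_const n1.continuous, mdifferentiableOn_const,
        fun B _ _ ⟨y, hy⟩ => ⟨y, hy, one_ne_zero⟩, fun y hy => ?_, fun y hy => ?_⟩
      · exact (((Real.contDiffAt_log.2 hy.ne').neg.contMDiffAt).comp y (n1 y)).contMDiffWithinAt
      · rw [neg_neg, Real.exp_log hy]
        simp
  · filter_upwards [ff_near hS a b] with z h1 h2
    rw [s2 z h2, Complex.ofReal_re, h1]

end Vale.Agent.P290Z.KT
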