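import Vale.Agent.P290Z.Lat.Spec

/-! P290Z, part III, block KT: the lattice of a Kummer surface in invariant coordinates. -/

open Set Matrix

namespace Vale.Agent.P290Z.KT

open Vale.Agent.P290.H726 (bil)
open Vale.Agent.P290Z.Lat

/-- the points of order two -/
abbrev F4 : Type := Fin 4 → ZMod 2

/-- the polarised Pfaffian -/
def pf {R : Type} [CommRing R] (A B : Fin 4 → Fin 4 → R) : R :=
  A 0 1 * B 2 3 + A 2 3 * B 0 1 - A 0 2 * B 1 3 - A 1 3 * B 0 2 + A 0 3 * B 1 2 + A 1 2 * B 0 3

/-- The lattice of a Kummer surface: `(A, n)` stands for `(α A - ∑ n a • E a) / 2`; `A` is skew and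
`n` is a quadratic function modulo two with the polar form `A`. -/
def LKm : AddSubgroup ((Fin 4 → Fin 4 → ℤ) × (F4 → ℤ)) where
  carrier := {x | (∀ i j, x.1 i j = -x.1 j i) ∧ ∀ a b : F4,
    ((x.2 (a + b) + x.2 a + x.2 b + x.2 0 : ℤ) : ZMod 2) =
      ∑ i, ∑ j, a i * (x.1 i j : ZMod 2) * b j}
  zero_mem' := ⟨fun i j => by simp, fun a b => by simp⟩
  add_mem' := by
    rintro x y ⟨hx, hx'⟩ ⟨hy, hy'⟩
    refine ⟨fun i j => ?_, fun a b => ?_⟩
    · simp only [Prod.fst_add, Pi.add_apply]
      rw [hx i j, hy i j]; ring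
    · have h1 := hx' a b
      have h2 := hy' a b
      simp only [Prod.fst_add, Prod.snd_add, Pi.add_apply, Int.cast_add, mul_add, add_mul,
        Finset.sum_add_distrib] at h1 h2 ⊢
      linear_combination h1 + h2
  neg_mem' := by
    rintro x ⟨hx, hx'⟩
    refine ⟨fun i j => ?_, fun a b => ?_⟩
    · simp only [Prod.fst_neg, Pi.neg_apply]
      rw [hx i j]
    · have h1 := hx' a b
      simp only [Prod.fst_neg, Prod.snd_neg, Pi.neg_apply, Int.cast_add, Int.cast_neg, mul_neg,
        neg_mul, Finset.sum_neg_distrib] at h1 ⊢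
      linear_combination -h1

/-- twice the intersection form -/
def form2 (x y : LKm) : ℤ := pf x.1.1 y.1.1 - ∑ a, x.1.2 a * y.1.2 a

/-- the class of the curve over the point `a` -/
def eK (a : F4) : LKm :=
  ⟨(0, Pi.single a (-2)), fun i j => by simp, fun b c => by
    have h : ∀ x : F4, (((Pi.single a (-2) : F4 → ℤ) x : ℤ) : ZMod 2) = 0 := by
      intro x
      by_cases hx : x = a
      · subst hx; simp; rfl
      · simp [hx]
    simp only [Int.cast_add, h]
    simp⟩

variable {ι : Type} [Fintype ι] [DecidableEq ι]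

/-- an isometry from the lattice of a Kummer surface onto the lattice with Gram matrix `G` -/
structure LConf (G : Matrix ι ι ℤ) where
  φ : LKm ≃+ (ι → ℤ)
  form : ∀ x y, 2 * bil G (φ x) (φ y) = form2 x y

/-- the sixteen classes -/
def LConf.E {G : Matrix ι ι ℤ} (κ : LConf G) (a : F4) : ι → ℤ := κ.φ (eK a)

/-- the integral classes of type `(1,1)` form the Kummer lattice -/
def LConf.GenK {G : Matrix ι ι ℤ} (κ : LConf G) (p : ι → ℂ) : Prop := Gen G κ.E p

end Vale.Agent.P290Z.KT
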