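import Vale.Agent.P290Z.Kum
import Vale.Agent.P290Z.W.BRSpec
import Vale.Agent.P290Z.Spec3L
import Vale.Agent.P290Z.KT.LKm
import Vale.Agent.P290.H686.CFTrans

/-! P290Z, part III, block KT: the lattice of a Kummer surface and the Torelli theorem for Kummer
surfaces. Definitions. -/

open Set Filter
open scoped Topology Manifold ContDiff ComplexConjugate

noncomputable section

namespace Vale.Agent.P290Z.KT

open Vale.Agent.P290 Vale.Agent.P267 Vale.Agent.P290Z.W Vale.Agent.P290Z.Top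
open Vale.Agent.P267.FL (TwoF OneF LB)
open Vale.Agent.P290.H686 (val1 val2)
open Vale.Agent.P290.H726 (bil)

/-- the universal cover of the torus -/
abbrev V : Type := All.C2

/-- real coordinates -/
abbrev R4 : Type := Fin 4 → ℝ

/-- linear coordinates on `V` -/
abbrev Co : Type := V ≃L[ℝ] R4

/-! ### the lattice -/

/-- the basis of the lattice -/
def lv (co : Co) (i : Fin 4) : V := co.symm (Pi.single i 1)

/-- the lattice -/
def Lt (co : Co) : AddSubgroup V := AddSubgroup.closure (range (lv co))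

/-- the lattice point with the coordinates `m` -/
def lp (co : Co) (m : Fin 4 → ℤ) : V := co.symm fun i => (m i : ℝ)

/-- the point of order two over `a` -/
def pt (co : Co) (a : F4) : V := co.symm fun i => ((a i).val : ℝ) / 2

/-- points which are not of order two -/
def Good (co : Co) (z : V) : Prop := z + z ∉ Lt co

/-- the standard real basis -/
def bs : Fin 4 → V := ![(1, 0), (Complex.I, 0), (0, 1), (0, Complex.I)]

/-- positively oriented coordinates -/
def Pos (co : Co) : Prop := 0 < (Matrix.of fun i j => co (bs j) i).det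

/-- the form `dz₁ ∧ dz₂` -/
def det2 (x y : V) : ℂ := x.1 * y.2 - x.2 * y.1

/-- its periods -/
def Dl (co : Co) (i j : Fin 4) : ℂ := det2 (lv co i) (lv co j)

/-- the square of the Hermitian norm -/
def nq (z : V) : ℝ := Complex.normSq z.1 + Complex.normSq z.2

/-- the affine map `b ↦ M b + t` -/
def aff (M : Matrix (Fin 4) (Fin 4) ℤ) (t b : F4) : F4 :=
  fun i => ∑ j, (M i j : ZMod 2) * b j + t i

/-- the open fundamental domain -/
def Fd (co : Co) : Set V := {z | co z 0 ∈ Ioo (0 : ℝ) (1 / 2) ∧ ∀ i, i ≠ 0 → co z i ∈ Ioo (0 : ℝ) 1}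

/-- the curve over the point `a` -/
def Cv {co : Co} {X : Type} [TopologicalSpace X] [ChartedSpace V X] (K : All.Kummer (Lt co) X)
    (a : F4) : Set X := {y | ∃ (b : Bool) (u : ℂ), K.N (pt co a) b (0, u) = y}

/-! ### calculus on `V` -/

/-- the exterior derivative of a one-form -/
def dd (β : V → V →L[ℝ] ℂ) (v x y : V) : ℂ := fderiv ℝ β v x y - fderiv ℝ β v y x

/-- multiplication by `i` -/
def Jv : V →L[ℝ] V := ContinuousLinearMap.lsmul ℝ ℂ Complex.I

/-- the complex linear part -/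
def del (l : V →L[ℝ] ℂ) : V →L[ℝ] ℂ := (1 / 2 : ℂ) • (l - Complex.I • l.comp Jv)

/-- the form `∂ log n` -/
def dl (n : V → ℝ) (z : V) : V →L[ℝ] ℂ := del (fderiv ℝ (fun y => (Real.log (n y) : ℂ)) z)

/-- the form `∑ A i j g(t i) g(t j) dt i ⊗ dt j` -/
def tw (co : Co) (g : ℝ → ℝ) (A : Fin 4 → Fin 4 → ℂ) (z x y : V) : ℂ :=
  ∑ i, ∑ j, A i j * (g (co z i) * co x i : ℝ) * (g (co z j) * co y j : ℝ)

/-- staircase functions -/
structure Stair (St : ℝ → ℝ) : Prop where
  smooth : ContDiff ℝ ∞ St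
  half : ∀ s, St (s + 1 / 2) = St s + 1 / 2
  odd : ∀ s, St (-s) = -St s
  zero : ∀ s, |s| ≤ 1 / 8 → St s = 0

section vec

variable {ι : Type} [Fintype ι]

/-- the Hermitian product -/
def ip (v w : ι → ℂ) : ℂ := ∑ k, conj (v k) * w k

/-- the orthogonal projection onto the line of `v` -/
def prj (v : ι → ℂ) : Matrix ι ι ℂ := Matrix.of fun i j => v i * conj (v j) / ip v v

/-- the connection form `v* dv / v* v` -/
def con (v : V → ι → ℂ) (z : V) : V →L[ℝ] ℂ :=
  (ip (v z) (v z))⁻¹ • ∑ k, conj (v z k) • fderiv ℝ (fun y => v y k) z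

/-- the derivative of a matrix valued function -/
def dP (P : V → Matrix ι ι ℂ) (z x : V) : Matrix ι ι ℂ :=
  Matrix.of fun i j => fderiv ℝ (fun y => P y i j) z x

/-- the curvature of a family of projections -/
def cu (P : V → Matrix ι ι ℂ) (z x y : V) : ℂ :=
  (P z * (dP P z x * dP P z y - dP P z y * dP P z x)).trace

/-- near `p` the function `v` is constant -/
def Loc0 (v : V → ι → ℂ) (p : V) : Prop := ∃ w : ι → ℂ, w ≠ 0 ∧ ∀ᶠ z in 𝓝 p, v z = w

/-- near `p` the function `v` is a multiple of an isometric linear embedding -/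
def Loc1 (v : V → ι → ℂ) (p : V) : Prop :=
  ∃ w w' : ι → ℂ, w ≠ 0 ∧ ip w w' = 0 ∧ ip w' w' = ip w w ∧
    ∀ᶠ z in 𝓝 p, v z = (z - p).1 • w + (z - p).2 • w'

end vec

/-! ### forms along local biholomorphisms -/

section api

variable {Y : W.K3}

/-- `ν` is locally biholomorphic near `v` -/
def Et (ν : V → Y.X) (v : V) : Prop := ∀ᶠ z in 𝓝 v, All.Etale ν z

/-- the derivative of `ν` in the preferred chart -/
def Dm (ν : V → Y.X) (v : V) : V →L[ℝ] FL.C2 := fderiv ℝ (fun z => chartAt FL.C2 (ν v) (ν z)) v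

/-- the pull back of a one-form -/
def p1 (ν : V → Y.X) (A : OneF Y.X) (v : V) : V →L[ℝ] ℂ := (val1 A (ν v)).comp (Dm ν v)

/-- the pull back of a two-form -/
def p2 (ν : V → Y.X) (F : TwoF Y.X) (v : V) : V →L[ℝ] V →L[ℝ] ℂ :=
  (val2 F (ν v)).bilinearComp (Dm ν v) (Dm ν v)

theorem p1_apply (ν : V → Y.X) (A : OneF Y.X) (v x : V) :
    p1 ν A v x = val1 A (ν v) (Dm ν v x) := rfl

theorem p2_apply (ν : V → Y.X) (F : TwoF Y.X) (v x y : V) :
    p2 ν F v x y = val2 F (ν v) (Dm ν v x) (Dm ν v y) := rfl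

variable {co : Co}

/-- `N` is a norm function with the reduced zero set `Cv K a` -/
structure IsE (K : All.Kummer (Lt co) Y.X) (a : F4) (N : Y.X → ℝ) : Prop where
  nf : H757.IsNormFn FL.C2 N
  zero : ∀ y, N y = 0 ↔ y ∈ Cv K a
  red : ∀ p, N p = 0 → ∃ U g ψ, p ∈ U ∧ H757.LocRep FL.C2 N U g ψ ∧
    mfderiv 𝓘(ℂ, FL.C2) 𝓘(ℂ) g p ≠ 0

/-- such a norm function in standard form near the curves -/
structure IsN (K : All.Kummer (Lt co) Y.X) (a : F4) (N : Y.X → ℝ) : Prop extends IsE K a N where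
  loc : ∀ b, ∀ᶠ z in 𝓝 (pt co b), Good co z →
    N (Kum.pr K z) = if b = a then nq (z - pt co b) ^ 2 else 1

/-- the marking `κ` is adapted to the Kummer structure `K` -/
structure KL (K : All.Kummer (Lt co) Y.X) {n : ℕ} (U : H342.UData Y.X n) (κ : LConf U.G)
    (J : ℂ) : Prop where
  ne : J ≠ 0
  om : ∀ z, Good co z → ∀ x y, p2 (Kum.pr K) (Kur.omF Y) z x y = J * det2 x y
  cl : ∀ a, ∃ N, IsE K a N ∧ U.HasCl (H332.cF N) (κ.E a)
  per : ∀ s, BlockC.ExactTwo (Kur.omF Y - U.combC s) → ∀ x : LKm,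
    bil U.G s (Lat.cs ℂ (κ.φ x)) =
      J / (4 * Real.pi * Complex.I) * pf (Dl co) fun i j => (x.1.1 i j : ℂ)

end api

end Vale.Agent.P290Z.KT
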