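import Vale.Agent.P290Z.KT.Basic

/-! P290Z, part III, block KT: descent of functions, extension of identities to the curves. -/

set_option linter.all false

open Set Filter
open scoped Topology Manifold ContDiff

noncomputable section

namespace Vale.Agent.P290Z.KT

open Vale.Agent.P290 Vale.Agent.P267 Vale.Agent.P290Z.W Vale.Agent.P290Z.Top
open Vale.Agent.P267.FL (TwoF)
open Vale.Agent.P290.H686 (val2 val2_inj)
open Vale.Agent.P290Z.Kum (pr ph cs)
open Vale.Agent.P290.All (dir Dom)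

namespace D0

variable {Y : W.K3}

theorem tend (p : V) (b : Bool) (u : ℂ) :
    Tendsto (fun q : V => p + q.1 • dir b q.2) (𝓝 (0, u)) (𝓝 p) :=
  (continuous_const.add (continuous_fst.smul ((Kum.continuous_dir b).comp continuous_snd))).tendsto'
    _ _ (by simp)

theorem val_zero (h0 : StApi0) {ν : V → Y.X} {v : V} (h : Et ν v) {F : TwoF Y.X}
    (e : p2 ν F v = 0) : val2 F (ν v) = 0 := by
  ext1 x
  ext1 y
  obtain ⟨x, rfl⟩ := ((h0 Y).1 ν v h).1.2 x
  obtain ⟨y, rfl⟩ := ((h0 Y).1 ν v h).1.2 y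
  rw [← p2_apply, e]
  rfl

end D0

open D0

theorem desc0 (h1 : StApi1) : StDesc0 := by
  intro Y co K f G hf ha hn hG he
  have c1 : ∀ z z', Good co z → Good co z' → pr K z = pr K z' → f z = f z' := fun z z' k k' e => by
    obtain ⟨m, rfl | rfl⟩ := (pr_eq_iff K k k').1 e
    · exact (ha z m k).symm
    · exact ((ha _ m (good_neg k)).trans (hn z k)).symm
  have c2 : ∀ z a b u, Good co z → pr K z ≠ K.N (pt co a) b (0, u) := fun z a b u k e =>
    pr_not_mem_Cv K k a ⟨b, u, e.symm⟩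
  have c3 : ∀ a b u a' b' u', K.N (pt co a) b (0, u) = K.N (pt co a') b' (0, u') →
      G a b (0, u) = G a' b' (0, u') := fun a b u a' b' u' e => by
    obtain ⟨rfl, t, ht⟩ := (N_curve_iff K).1 e
    have t0 : t ≠ 0 := fun k => dir_ne_zero b' u' (by rw [ht, k, zero_smul])
    have l : ∀ b u (t : ℂ), Tendsto (fun w : ℂ => G a b ((w * t) ^ 2, u)) (𝓝[≠] 0)
        (𝓝 (G a b (0, u))) := fun b u t => (hG a b u).continuousAt.tendsto.comp
      (((by fun_prop : Continuous fun w : ℂ => (((w * t) ^ 2, u) : V)).tendsto' 0 _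
        (by simp)).mono_left nhdsWithin_le_nhds)
    refine tendsto_nhds_unique_of_eventuallyEq (l b u t) (l b' u' 1) ?_
    filter_upwards [self_mem_nhdsWithin, nhdsWithin_le_nhds (((tend _ b' u').comp
      ((Continuous.prodMk_left u').tendsto 0)).eventually (he a))] with w (k1 : w ≠ 0) k2
    simp only [Function.comp, add_sub_cancel_left] at k2 ht
    have k3 := k2 b' (by rwa [Kum.cs_smul_dir])
    have k4 := k2 b
    rw [ph_smul_dir k1] at k3
    rw [k3, ht, smul_smul, Kum.cs_smul_dir, ph_smul_dir (mul_ne_zero k1 t0)] at k4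
    rw [mul_one, k4 (mul_ne_zero k1 t0)]
  obtain ⟨s, s1, s2⟩ : ∃ s : Y.X → ℂ, (∀ z, Good co z → s (pr K z) = f z) ∧
      ∀ a b u, s (K.N (pt co a) b (0, u)) = G a b (0, u) := by
    have : ∀ y, ∃ c, (∀ z, Good co z → pr K z = y → c = f z) ∧
        ∀ a b u, K.N (pt co a) b (0, u) = y → c = G a b (0, u) := fun y => by
      rcases cover K y with ⟨z, k, rfl⟩ | ⟨a, b, u, rfl⟩
      · exact ⟨f z, fun z' k' e => c1 _ _ k k' e.symm, fun a b u e => absurd e.symm (c2 z a b u k)⟩
      · exact ⟨_, fun z k e => absurd e (c2 z a b u k), fun a' b' u' e => c3 _ _ _ _ _ _ e.symm⟩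
    choose s s1 s2 using this
    exact ⟨s, fun z k => s1 _ z k rfl, fun a b u => s2 _ a b u rfl⟩
  refine ⟨s, (h1 Y).2.1 s fun y => ?_, s1, s2⟩
  rcases cover K y with ⟨z, k, rfl⟩ | ⟨a, b, u, rfl⟩
  · exact ⟨_, z, et_pr K k, rfl, (hf z k).congr_of_eventuallyEq (k.ev.mono s1)⟩
  · refine ⟨_, _, et_curve K a b u, rfl, (hG a b u).congr_of_eventuallyEq ?_⟩
    filter_upwards [near_N K a (he a) b u] with v k
    by_cases e : v.1 = 0
    · rw [show v = (0, v.2) from Prod.ext e rfl, s2]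
    · obtain ⟨z, k1, k2, k3, k4, k5⟩ := k.2 e
      rw [k5, s1 z k1, k2 b k3, k4]

theorem ext (h0 : StApi0) (h1 : StApi1) : StExt := by
  intro Y co K F hF
  have c : ∀ a, (∀ᶠ z in 𝓝 (pt co a), Good co z → p2 (pr K) F z = 0) →
      ∀ y ∈ Cv K a, val2 F y = 0 := by
    rintro a h _ ⟨b, u, rfl⟩
    refine val_zero h0 (et_curve K a b u) (tendsto_nhds_unique_of_frequently_eq
      ((h1 Y).2.2.2.2.1 F _ _ hF (et_curve K a b u)).continuousAt.tendsto tendsto_const_nhds ?_)
    have k : ∃ᶠ v in 𝓝 ((0, u) : V), v.1 ≠ 0 := ((Continuous.prodMk_left u).tendsto 0).frequently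
      (frequently_nhdsWithin_iff.1 (eventually_mem_nhdsWithin (s := {0}ᶜ)).frequently |>.mono
        fun _ k => k.2)
    refine (k.and_eventually (near_N K a h b u)).mono fun v k => ?_
    obtain ⟨z, k1, k2, -, -, k3⟩ := k.2.2 k.1
    rw [p2, k3, val_zero h0 (et_pr K k1) (k2 k1)]
    rfl
  refine ⟨fun h => val2_inj fun y => ?_, c⟩
  rw [show val2 (0 : TwoF Y.X) y = 0 from ContinuousLinearMap.ext fun v =>
    ContinuousLinearMap.ext fun w => by simpa using H686.val2_smul' 0 (0 : TwoF Y.X) y v w]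
  rcases cover K y with ⟨z, k, rfl⟩ | ⟨a, k⟩
  · exact val_zero h0 (et_pr K k) (h z k)
  · exact c a (Eventually.of_forall h) y k

end Vale.Agent.P290Z.KT
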