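import Vale.Agent.P290Z.KT.Basic

/-! P290Z, part III, block KT: one-forms which vanish near the points of order two descend. -/

open Set Filter
open scoped Topology Manifold ContDiff ComplexConjugate

noncomputable section

namespace Vale.Agent.P290Z.KT

open Vale.Agent.P290 Vale.Agent.P267 Vale.Agent.P290Z.W Vale.Agent.P290Z.Top
open Vale.Agent.P267.FL (TwoF OneF LB)
open Vale.Agent.P290.H686 (val1 val2)
open Vale.Agent.P290Z.Kum (pr ph)

namespace Desc1Aux

variable {Y : W.K3} {co : Co} (K : All.Kummer (Lt co) Y.X)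

theorem Dm_lp (h0 : StApi0) {z : V} (hz : Good co z) (m : Fin 4 → ℤ) :
    Dm (pr K) z = Dm (pr K) (z + lp co m) := by
  have h := (h0 Y).2.1 (pr K) (pr K) (fun w => w + lp co m) z (et_pr K (good_add hz m))
    (differentiableAt_id.add_const _) (hz.ev.mono fun w hw => (pr_lp K hw m).symm)
  have e : HasFDerivAt (fun w : V => w + lp co m) (ContinuousLinearMap.id ℝ V) z :=
    (hasFDerivAt_id z).add_const _
  rw [h, e.fderiv]
  rfl

theorem Dm_neg (h0 : StApi0) {z : V} (hz : Good co z) : Dm (pr K) z = -Dm (pr K) (-z) := by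
  have h := (h0 Y).2.1 (pr K) (pr K) (fun w => -w) z (et_pr K (good_neg hz))
    differentiableAt_id.neg (hz.ev.mono fun w hw => (pr_neg K hw).symm)
  have e : HasFDerivAt (fun w : V => -w) (-ContinuousLinearMap.id ℝ V) z :=
    (hasFDerivAt_id z).neg
  rw [h, e.fderiv, ContinuousLinearMap.comp_neg]
  rfl

theorem exists_val (h0 : StApi0) {β : V → V →L[ℝ] ℂ}
    (h2 : ∀ z m, Good co z → β (z + lp co m) = β z) (h3 : ∀ z, Good co z → β (-z) = -β z)
    (y : Y.X) : ∃ L : FL.C2 →L[ℝ] ℂ,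
      (∀ z, Good co z → pr K z = y → L.comp (Dm (pr K) z) = β z) ∧
      ((¬ ∃ z, Good co z ∧ pr K z = y) → L = 0) := by
  by_cases h : ∃ z, Good co z ∧ pr K z = y
  · obtain ⟨z', hz', rfl⟩ := h
    let e := (LinearEquiv.ofBijective (Dm (pr K) z' : V →ₗ[ℝ] FL.C2)
      ((h0 Y).1 _ _ (et_pr K hz')).1).toContinuousLinearEquiv
    have he : ((β z').comp (e.symm : FL.C2 →L[ℝ] V)).comp (Dm (pr K) z') = β z' :=
      ContinuousLinearMap.ext fun x => congrArg (β z') (e.symm_apply_apply x)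
    refine ⟨(β z').comp (e.symm : FL.C2 →L[ℝ] V), fun z hz hp => ?_,
      fun h => absurd ⟨z', hz', rfl⟩ h⟩
    obtain ⟨m, rfl | rfl⟩ := (pr_eq_iff K hz hz').1 hp
    · rw [Dm_lp K h0 hz m, he, h2 z m hz]
    · rw [Dm_neg K h0 hz, Dm_lp K h0 (good_neg hz) m, ContinuousLinearMap.comp_neg, he,
        h2 _ m (good_neg hz), h3 z hz, neg_neg]
  · exact ⟨0, fun z hz hp => absurd ⟨z, hz, hp⟩ h, fun _ => rfl⟩

end Desc1Aux

open Desc1Aux in
theorem desc1 (h0 : StApi0) (h1 : StApi1) : StDesc1 := by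
  intro Y co K β b1 b2 b3 b4
  choose L hL hL' using exists_val K h0 b2 b3
  let A : OneF Y.X := ⟨fun y i => H686.k10 i (L y), fun y i => H686.k01 i (L y)⟩
  have hA : ∀ y, val1 A y = L y := fun y => H686.ev1_comps (L y)
  have key : ∀ z, Good co z → p1 (pr K) A z = β z := fun z hz => by
    rw [p1, hA, hL _ z hz rfl]
  refine ⟨A, (h1 Y).2.2.2.1 A fun y => ?_, key⟩
  rcases cover K y with ⟨z, hz, rfl⟩ | ⟨a, b, u, rfl⟩
  · exact ⟨pr K, z, et_pr K hz, rfl, (b1 z hz).congr_of_eventuallyEq (hz.ev.mono key)⟩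
  · refine ⟨_, _, et_curve K a b u, rfl,
      (contDiffAt_const (c := 0)).congr_of_eventuallyEq ?_⟩
    filter_upwards [near_N K a (b4 a) b u] with v hv
    have h : L (K.N (pt co a) b v) = 0 := by
      by_cases h : v.1 = 0
      · refine hL' _ fun ⟨z, hz, e⟩ => pr_not_mem_Cv K hz a ⟨b, v.2, ?_⟩
        rw [e, ← h]
      · obtain ⟨z, hz, z1, -, -, z2⟩ := hv.2 h
        refine ContinuousLinearMap.ext fun x => ?_
        obtain ⟨x, rfl⟩ := ((h0 Y).1 _ _ (et_pr K hz)).1.2 x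
        have := hL _ z hz z2.symm
        rw [z1 hz] at this
        exact congrArg (fun l : V →L[ℝ] ℂ => l x) this
    rw [p1, hA, h, ContinuousLinearMap.zero_comp]

end Vale.Agent.P290Z.KT
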