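import Vale.Agent.P290Z.KT.Spec
import Vale.Agent.P290Z.Lat.Basic

/-! P290Z, block KT, step EN: the bound for the energy. -/

noncomputable section

namespace Vale.Agent.P290Z.KT

open Vale.Agent.P290.H726 Vale.Agent.P290Z.Lat

namespace EnA

variable {n : ℕ} {G : Matrix (Fin n) (Fin n) ℤ} (κ : LConf G)

theorem form2_symm (x y : LKm) : form2 x y = form2 y x := by
  simp only [form2, pf, mul_comm (x.1.2 _)]
  ring

include κ in
theorem symm (i j : Fin n) : G i j = G j i := by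
  obtain ⟨x, hx⟩ := κ.φ.surjective (Pi.single i 1)
  obtain ⟨y, hy⟩ := κ.φ.surjective (Pi.single j 1)
  have h1 := κ.form x y
  have h2 := κ.form y x
  rw [hx, hy, bil_single] at h1 h2
  rw [form2_symm] at h2
  omega

theorem bil_E (a b : F4) : bil G (κ.E a) (κ.E b) = if a = b then -2 else 0 := by
  have h1 := κ.form (eK a) (eK b)
  have h2 : form2 (eK a) (eK b) = if a = b then -4 else 0 := by
    simp only [form2, eK, pf, Pi.zero_apply, mul_zero, add_zero, sub_zero, zero_sub,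
      Pi.single_apply, ite_mul, zero_mul, Finset.sum_ite_eq', Finset.mem_univ, if_true]
    split_ifs <;> rfl
  rw [h2] at h1
  change 2 * bil G (κ.E a) (κ.E b) = _ at h1
  split_ifs at h1 ⊢ <;> omega

/-- twice the projection onto the orthogonal complement of the sixteen classes -/
def Q (R : Type) [CommRing R] (x : Fin n → R) : Fin n → R :=
  (2 : R) • x + ∑ b, bil G (cs R (κ.E b)) x • cs R (κ.E b)

theorem Q_cs (x : Fin n → ℤ) : Q κ ℂ (cs ℂ x) = cs ℂ (Q κ ℤ x) := by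
  ext i
  simp only [Q, bil_cs, cs_int, Pi.add_apply, Pi.smul_apply, Finset.sum_apply, smul_eq_mul]
  simp [cs]

theorem Q_E (x : Fin n → ℂ) (a : F4) : bil G (Q κ ℂ x) (cs ℂ (κ.E a)) = 0 := by
  simp only [Q, bil_add_left, bil_sum_left, bil_smul_left, bil_cs, bil_E]
  rw [Finset.sum_eq_single a (fun b _ h => by simp [h]) (by simp), bil_symm G (symm κ) x]
  simp [mul_comm]

theorem Q_add (x y : Fin n → ℂ) : Q κ ℂ (x + y) = Q κ ℂ x + Q κ ℂ y := by
  simp only [Q, bil_add_right, add_smul, smul_add, Finset.sum_add_distrib]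
  abel

theorem Q_smul (c : ℂ) (x : Fin n → ℂ) : Q κ ℂ (c • x) = c • Q κ ℂ x := by
  simp only [Q, bil_smul_right, smul_add, Finset.smul_sum, mul_smul, smul_comm c (2 : ℂ)]

end EnA

open EnA in
theorem enL : StEnL := by
  intro n G m κ E' ε s k k' hε hm hs h1 h2 hy hk hk'
  have hσ : ∀ b, ∃ σ : ℝ, (σ = 1 ∨ σ = -1) ∧ cs ℂ (E' b) = (σ : ℂ) • cs ℂ (κ.E b) ∧
      act m (cs ℂ (κ.E b)) = (σ : ℂ) • cs ℂ (κ.E b) := fun b => by
    have h3 := congrArg (cs ℂ) (h1 b)
    rw [← act_cs] at h3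
    rcases h2 b with h | h
    · exact ⟨1, Or.inl rfl, by simp [h], by simpa [h] using h3⟩
    · rw [h, cs_neg, act_neg, neg_eq_iff_eq_neg] at h3
      exact ⟨-1, Or.inr rfl, by simp [h, cs_neg], by simpa using h3⟩
  choose σ hσ1 hσ2 hσ3 using hσ
  have hε2 : (ε : ℂ) * ε = 1 := by rcases hε with h | h <;> simp [h]
  have hσ4 : ∀ b, (σ b : ℂ) * σ b = 1 := fun b => by rcases hσ1 b with h | h <;> simp [h]
  have k1 : ∀ x : Fin n → ℤ, act m (Q κ ℂ (cs ℂ x)) = (ε : ℂ) • Q κ ℂ (cs ℂ x) := by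
    intro x
    have e : cs ℂ (act m (Q κ ℤ x) - ε • Q κ ℤ x) =
        act m (Q κ ℂ (cs ℂ x)) - (ε : ℂ) • Q κ ℂ (cs ℂ x) := by
      rw [cs_sub, cs_smul, ← act_cs, Q_cs]
    rw [← sub_eq_zero, ← e, hy (act m (Q κ ℤ x) - ε • Q κ ℤ x) ?_ fun b => ?_, cs_zero]
    · have h3 := hm s (Q κ ℂ (cs ℂ x))
      rw [hs, bil_smul_left] at h3
      rw [e, bil_sub_right, bil_smul_right, ← h3, ← mul_assoc, hε2, one_mul, sub_self]
    · have h3 := hm (Q κ ℂ (cs ℂ x)) (cs ℂ (κ.E b))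
      rw [hσ3, bil_smul_right, Q_E] at h3
      refine Int.cast_injective (α := ℂ) ?_
      rw [← bil_cs, e, bil_sub_left, bil_smul_left, Q_E]
      linear_combination (σ b : ℂ) * h3 -
        bil G (act m (Q κ ℂ (cs ℂ x))) (cs ℂ (κ.E b)) * hσ4 b
  have k2 : ∀ x : Fin n → ℂ, act m (Q κ ℂ x) = (ε : ℂ) • Q κ ℂ x := by
    intro x
    induction x using Pi.single_induction with
    | zero => simpa only [cs_zero] using k1 0
    | add x y hx hy => rw [Q_add, act_add, hx, hy, smul_add]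
    | single i c =>
      have e : (Pi.single i c : Fin n → ℂ) = c • cs ℂ (Pi.single i 1) := by
        rw [cs_single, ← Pi.single_smul, Int.cast_one, smul_eq_mul, mul_one]
      rw [e, Q_smul, act_smul, k1, smul_comm]
  have k3 := congrArg (bil G k) (k2 k')
  simp only [Q, act_add, act_smul, act_sum, hσ3, bil_add_right, bil_smul_right,
    bil_sum_right] at k3
  have k4 : ∀ b, ∃ t : ℝ, 0 ≤ t ∧ (ε : ℂ) * (bil G (cs ℂ (κ.E b)) k' * bil G k (cs ℂ (κ.E b))) =
      bil G (cs ℂ (κ.E b)) k' * (σ b * bil G k (cs ℂ (κ.E b))) + t := fun b => by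
    obtain ⟨a1, a2⟩ := hk b
    obtain ⟨a3, a4⟩ := hk' b
    have e1 := Complex.re_add_im (Complex.I * bil G (cs ℂ (κ.E b)) k)
    have e2 := Complex.re_add_im (Complex.I * bil G (cs ℂ (E' b)) k')
    rw [a1] at e1
    rw [a3] at e2
    refine ⟨(1 - ε * σ b) * (_ * _), mul_nonneg ?_ (mul_nonneg_of_nonpos_of_nonpos a2 a4), ?_⟩
    · rcases hε with h | h <;> rcases hσ1 b with h' | h' <;> simp [h, h']
    · generalize (Complex.I * bil G (cs ℂ (κ.E b)) k).re = α at e1 ⊢
      generalize (Complex.I * bil G (cs ℂ (E' b)) k').re = β at e2 ⊢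
      rw [hσ2, bil_smul_left] at e2
      rw [bil_symm G (symm κ) k]
      push_cast at e1 e2 ⊢
      rw [zero_mul, add_zero] at e1 e2
      rw [e1, e2]
      linear_combination (bil G (cs ℂ (κ.E b)) k * bil G (cs ℂ (κ.E b)) k') *
        (-(1 - ε * σ b) * σ b * Complex.I_mul_I - ε * hσ4 b)
  choose t ht1 ht2 using k4
  rw [mul_add, Finset.mul_sum] at k3
  simp only [ht2, Finset.sum_add_distrib] at k3
  have k5 : 2 * bil G k (act m k') = 2 * (ε * bil G k k') + ((∑ b, t b : ℝ) : ℂ) := by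
    push_cast
    linear_combination k3
  have k6 := congrArg Complex.re k5
  have k7 : ‖(ε : ℂ) * bil G k k'‖ = ‖bil G k k'‖ := by rcases hε with h | h <;> simp [h]
  have k8 := (abs_le.1 (Complex.abs_re_le_norm ((ε : ℂ) * bil G k k'))).1
  have k9 : 0 ≤ ∑ b, t b := Finset.sum_nonneg fun b _ => ht1 b
  rw [Complex.add_re, Complex.ofReal_re, two_mul, two_mul, Complex.add_re, Complex.add_re] at k6
  linarith

end Vale.Agent.P290Z.KT
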