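import Vale.Agent.P290Z.KT.Spec

/-! P290Z, part III, block KT: generic periods and the sixteen classes. -/

set_option linter.all false

open Matrix

namespace Vale.Agent.P290Z.KT

open Vale.Agent.P290.H726

namespace GenA

theorem form2_eK (x : LKm) (a : F4) : form2 x (eK a) = 2 * x.1.2 a := by
  simp [form2, eK, pf, Pi.single_apply, mul_comm]

theorem form2_symm (x y : LKm) : form2 x y = form2 y x := by
  simp only [form2, pf, mul_comm (x.1.2 _)]
  ring

theorem two_zero : (2 : ZMod 2) = 0 := rfl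

/-- twice the elementary skew matrices -/
def tw (k l : Fin 4) : LKm := ⟨(fun i j => 2 * el k l i j, 0),
  fun i j => by simp only [el, and_comm]; ring, fun a b => by simp [two_zero]⟩

/-- the roots of the Kummer lattice -/
theorem root {x : LKm} (h0 : x.1.1 = 0) (h : form2 x x = -4) : ∃ a, x = eK a ∨ x = -eK a := by
  have h4 : ∑ a, x.1.2 a * x.1.2 a = 4 := by
    simp only [form2, h0, pf, Pi.zero_apply] at h
    omega
  have ha : ∀ a b, (x.1.2 (a + b) : ZMod 2) = x.1.2 a + x.1.2 b + x.1.2 0 := fun a b => by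
    have := x.2.2 a b
    simp only [h0, Pi.zero_apply, Int.cast_zero, mul_zero, zero_mul, Finset.sum_const_zero,
      Int.cast_add] at this
    linear_combination this - ((x.1.2 a : ZMod 2) + x.1.2 b + x.1.2 0) * two_zero
  have hev : ∀ c, (x.1.2 c : ZMod 2) = 0 := by
    by_contra! hc
    obtain ⟨c, hc⟩ := hc
    obtain ⟨d, hd⟩ : ∃ d, ∀ a, (x.1.2 a : ZMod 2) ≠ 0 ∨ (x.1.2 (a + d) : ZMod 2) ≠ 0 := by
      by_cases h1 : ∀ a, (x.1.2 a : ZMod 2) ≠ 0
      · exact ⟨0, fun a => Or.inl (h1 a)⟩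
      push Not at h1
      obtain ⟨d, h1⟩ := h1
      by_cases h2 : (x.1.2 0 : ZMod 2) = 0
      · exact ⟨c, fun a => or_iff_not_imp_left.2 fun h3 => by
          rwa [ha, not_not.1 h3, h2, zero_add, add_zero]⟩
      · exact ⟨d, fun a => or_iff_not_imp_left.2 fun h3 => by
          rwa [ha, not_not.1 h3, h1, zero_add, zero_add]⟩
    have h5 : ∑ a, x.1.2 (a + d) * x.1.2 (a + d) = 4 :=
      (Equiv.sum_comp (Equiv.addRight d) fun a => x.1.2 a * x.1.2 a).trans h4
    have h6 : ∑ a : F4, (1 : ℤ) ≤ ∑ a, (x.1.2 a * x.1.2 a + x.1.2 (a + d) * x.1.2 (a + d)) :=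
      Finset.sum_le_sum fun a _ => by
        rcases hd a with q | q
        · have := mul_self_pos.2 (show x.1.2 a ≠ 0 from fun e => q (by rw [e, Int.cast_zero]))
          nlinarith [mul_self_nonneg (x.1.2 (a + d))]
        · have := mul_self_pos.2 (show x.1.2 (a + d) ≠ 0 from fun e => q (by rw [e, Int.cast_zero]))
          nlinarith [mul_self_nonneg (x.1.2 a)]
    rw [Finset.sum_add_distrib, h4, h5] at h6
    simp at h6
  choose m hm using fun c => (ZMod.intCast_zmod_eq_zero_iff_dvd _ 2).1 (hev c)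
  have h1 : ∑ a, m a * m a = 1 := by
    have : ∑ a, x.1.2 a * x.1.2 a = 4 * ∑ a, m a * m a := by
      rw [Finset.mul_sum]
      exact Finset.sum_congr rfl fun a _ => by rw [hm]; push_cast; ring
    omega
  obtain ⟨a, ha⟩ : ∃ a, m a ≠ 0 := by
    by_contra! hc
    simp [hc] at h1
  rw [← Finset.add_sum_erase _ _ (Finset.mem_univ a)] at h1
  have p1 : 0 < m a * m a := mul_self_pos.2 ha
  have p2 : 0 ≤ ∑ b ∈ Finset.univ.erase a, m b * m b :=
    Finset.sum_nonneg fun _ _ => mul_self_nonneg _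
  have p3 : ∀ b, b ≠ a → m b = 0 := fun b hb => mul_self_eq_zero.1
    ((Finset.sum_eq_zero_iff_of_nonneg fun _ _ => mul_self_nonneg _).1 (by omega) b
      (Finset.mem_erase.2 ⟨hb, Finset.mem_univ _⟩))
  refine ⟨a, ?_⟩
  rcases mul_self_eq_one_iff.1 (show m a * m a = 1 by omega) with q | q
  · refine Or.inr (Subtype.ext (Prod.ext (by simp [h0, eK]) (funext fun b => ?_)))
    rcases eq_or_ne b a with rfl | hb
    · simp [hm, q, eK]
    · simp [hm, p3 b hb, eK, hb]
  · refine Or.inl (Subtype.ext (Prod.ext (by simp [h0, eK]) (funext fun b => ?_)))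
    rcases eq_or_ne b a with rfl | hb
    · simp [hm, q, eK]
    · simp [hm, p3 b hb, eK, hb]

variable {ι : Type} [Fintype ι] [DecidableEq ι] {G : Matrix ι ι ℤ}

theorem bil_E (κ : LConf G) (x : LKm) (a : F4) : bil G (κ.φ x) (κ.E a) = x.1.2 a := by
  have := κ.form x (eK a)
  rw [form2_eK] at this
  exact mul_left_cancel₀ two_ne_zero this

theorem E_E (κ : LConf G) (a b : F4) : bil G (κ.E a) (κ.E b) = if b = a then -2 else 0 :=
  (bil_E κ _ b).trans (by simp [eK, Pi.single_apply])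

/-- classes which are orthogonal to a generic period -/
theorem fst_eq {κ : LConf G} {s : ι → ℂ} (h : κ.GenK s) {x : LKm}
    (hx : bil G s (Lat.cs ℂ (κ.φ x)) = 0) : x.1.1 = 0 := by
  have h1 : ∀ k l, form2 (tw k l) x = 0 := fun k l => by
    rw [← κ.form, (h _).1 hx _ fun a => bil_E κ _ a, mul_zero]
  have e1 := h1 0 1
  have e2 := h1 0 2
  have e3 := h1 0 3
  have e4 := h1 1 2
  have e5 := h1 1 3
  have e6 := h1 2 3
  simp [form2, tw, pf, el] at e1 e2 e3 e4 e5 e6
  have hs := x.2.1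
  have hd : ∀ i, x.1.1 i i = 0 := fun i => by have := hs i i; omega
  funext i j
  fin_cases i <;> fin_cases j <;>
    simp [hd, e1, e2, e3, e4, e5, e6, hs 1 0, hs 2 0, hs 3 0, hs 2 1, hs 3 1, hs 3 2]

theorem exists_E {κ₀ : LConf G} {s : ι → ℂ} (h : κ₀.GenK s) {y : ι → ℤ}
    (hy : bil G s (Lat.cs ℂ y) = 0) (h2 : bil G y y = -2) : ∃ a, y = κ₀.E a ∨ y = -κ₀.E a := by
  obtain ⟨x, rfl⟩ := κ₀.φ.surjective y
  obtain ⟨a, ha⟩ := root (fst_eq h hy) (by rw [← κ₀.form, h2]; rfl)
  exact ⟨a, ha.imp (fun e => by rw [e]; rfl) fun e => by rw [e, map_neg]; rfl⟩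

end GenA

open GenA in
theorem gen : StGen := by
  intro n G κ₀ κ κ' s h hk hk'
  choose τ hτ using fun b => exists_E h (hk b) (by simp [E_E])
  have hinj : Function.Injective τ := fun a b hab => by
    by_contra hne
    have e1 := E_E κ a b
    rcases hτ a with p | p <;> rcases hτ b with q | q <;>
      simp [p, q, hab, bil_neg_left, bil_neg_right, E_E, Ne.symm hne] at e1
  have hs : ∀ c, ∃ b, κ₀.E c = κ.E b ∨ κ₀.E c = -κ.E b := fun c => by
    obtain ⟨b, rfl⟩ := Finite.injective_iff_surjective.1 hinj c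
    exact ⟨b, (hτ b).imp Eq.symm fun e => by rw [e, neg_neg]⟩
  refine ⟨fun a => ?_, fun y hy hb => ?_⟩
  · obtain ⟨c, hc⟩ := exists_E h (hk' a) (by simp [E_E])
    obtain ⟨b, hb⟩ := hs c
    refine ⟨b, ?_⟩
    rcases hc with p | p <;> rcases hb with q | q <;> simp [p, q]
  · obtain ⟨x, rfl⟩ := κ₀.φ.surjective y
    have h2 : x.1.2 = 0 := funext fun c => by
      obtain ⟨b, q⟩ := hs c
      rw [← bil_E κ₀]
      rcases q with q | q <;> simp [q, bil_neg_right, hb]
    rw [show x = 0 from Subtype.ext (Prod.ext (fst_eq h hy) h2), map_zero]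

end Vale.Agent.P290Z.KT
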