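import Vale.Agent.P290Z.KT.Defs

/-! P290Z, part III, block KT: calculus for the step GLUE. -/

open Set Filter
open scoped Topology ContDiff ComplexConjugate

noncomputable section

namespace Vale.Agent.P290Z.KT.Gl

/-! ### the exterior derivative -/

theorem dd_congr {β β' : V → V →L[ℝ] ℂ} {z : V} (h : β =ᶠ[𝓝 z] β') (x y : V) :
    dd β z x y = dd β' z x y := by
  rw [dd, dd, h.fderiv_eq]

theorem dd_comb {ι : Type} (s : Finset ι) {α θ : V → V →L[ℝ] ℂ} {δ : ι → V → V →L[ℝ] ℂ} {z : V}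
    (hα : DifferentiableAt ℝ α z) (hθ : DifferentiableAt ℝ θ z)
    (hδ : ∀ a ∈ s, DifferentiableAt ℝ (δ a) z) (c : ℂ) (x y : V) :
    dd (fun w => α w - θ w - c • ∑ a ∈ s, δ a w) z x y =
      dd α z x y - dd θ z x y - c * ∑ a ∈ s, dd (δ a) z x y := by
  have h := ((hα.hasFDerivAt.sub hθ.hasFDerivAt).sub
    ((HasFDerivAt.fun_sum fun a ha => (hδ a ha).hasFDerivAt).const_smul c)).fderiv
  have h' : fderiv ℝ (fun w => α w - θ w - c • ∑ a ∈ s, δ a w) z = _ := h
  simp only [dd, h', sub_apply, smul_apply, sum_apply, smul_eq_mul, Finset.sum_sub_distrib]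
  ring

theorem fderiv_neg' {E : Type} [NormedAddCommGroup E] [NormedSpace ℝ E] (f : V → E) (z : V) :
    fderiv ℝ (fun y => f (-y)) z = -fderiv ℝ f (-z) := by
  simpa using fderiv_comp_smul (f := f) (x := z) (-1 : ℝ)

/-- the form `∂ log |ζ|²` -/
def lg (ζ x : V) : ℂ := (nq ζ : ℂ)⁻¹ * (conj ζ.1 * x.1 + conj ζ.2 * x.2)

theorem nq_coe (ζ : V) : (nq ζ : ℂ) = conj ζ.1 * ζ.1 + conj ζ.2 * ζ.2 := by
  rw [nq, Complex.ofReal_add, Complex.normSq_eq_conj_mul_self, Complex.normSq_eq_conj_mul_self]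

theorem nq_ne {ζ : V} (h : ζ ≠ 0) : nq ζ ≠ 0 := fun e => by
  have := (add_eq_zero_iff_of_nonneg (Complex.normSq_nonneg _) (Complex.normSq_nonneg _)).1 e
  exact h (Prod.ext (Complex.normSq_eq_zero.1 this.1) (Complex.normSq_eq_zero.1 this.2))

/-! ### the connection form -/

section vec

variable {ι : Type} [Fintype ι] {v u : V → ι → ℂ} {z : V}

theorem ip_ne {w : ι → ℂ} (h : w ≠ 0) : ip w w ≠ 0 := fun e => h (funext fun k => by
  have h1 : ((∑ k, Complex.normSq (w k) : ℝ) : ℂ) = 0 := by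
    rw [← e, ip, Complex.ofReal_sum]
    exact Finset.sum_congr rfl fun k _ => Complex.normSq_eq_conj_mul_self
  exact Complex.normSq_eq_zero.1 ((Finset.sum_eq_zero_iff_of_nonneg
    fun k _ => Complex.normSq_nonneg (w k)).1 (Complex.ofReal_eq_zero.1 h1) k (Finset.mem_univ k)))

theorem ip_swap (w w' : ι → ℂ) : ip w' w = conj (ip w w') := by
  simp only [ip, map_sum, map_mul, Complex.conj_conj, mul_comm]

theorem ip_comb (a b c d : ℂ) (w w' : ι → ℂ) : ip (a • w + b • w') (c • w + d • w') =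
    conj a * c * ip w w + conj a * d * ip w w' + conj b * c * ip w' w + conj b * d * ip w' w' := by
  simp only [ip, Pi.add_apply, Pi.smul_apply, smul_eq_mul, map_add, map_mul, Finset.mul_sum,
    ← Finset.sum_add_distrib]
  exact Finset.sum_congr rfl fun k _ => by ring

theorem con_apply (v : V → ι → ℂ) (z x : V) :
    con v z x = (ip (v z) (v z))⁻¹ * ip (v z) fun k => fderiv ℝ (fun y => v y k) z x := by
  simp only [con, ip, smul_apply, sum_apply, smul_eq_mul]

theorem con_smooth (hv : ContDiffAt ℝ ∞ v z) (h0 : v z ≠ 0) : ContDiffAt ℝ ∞ (con v) z := by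
  have h1 : ∀ k, ContDiffAt ℝ ∞ (fun y => v y k) z := contDiffAt_pi.1 hv
  have h2 : ∀ k, ContDiffAt ℝ ∞ (fun y => conj (v y k)) z := fun k =>
    Complex.conjCLE.contDiff.contDiffAt.comp z (h1 k)
  exact ((ContDiffAt.sum fun k _ => (h2 k).mul (h1 k)).inv (ip_ne h0)).smul
    (ContDiffAt.sum fun k _ => (h2 k).smul ((h1 k).fderiv_right le_rfl))

theorem con_congr (h : u =ᶠ[𝓝 z] v) : con u z = con v z := by
  have h1 : ∀ k, fderiv ℝ (fun y => u y k) z = fderiv ℝ (fun y => v y k) z := fun k =>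
    EventuallyEq.fderiv_eq (h.mono fun y hy => congrFun hy k)
  simp only [con, h.self_of_nhds, h1]

theorem con_add (l : V) : con (fun y => v (y + l)) z = con v (z + l) := by
  simp only [con, fun k => fderiv_comp_add_right (𝕜 := ℝ) (f := fun y => v y k) (x := z) l]

theorem con_neg : con (fun y => v (-y)) z = -con v (-z) := by
  simp only [con, fun k => fderiv_neg' (fun y => v y k) z, smul_neg, Finset.sum_neg_distrib]

theorem con_mul {f : V → ℂ} {f' : V →L[ℝ] ℂ} (hf : HasFDerivAt f f' z) (hf0 : f z ≠ 0)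
    (hv : DifferentiableAt ℝ v z) (h0 : v z ≠ 0) :
    con (fun y => f y • v y) z = con v z + (f z)⁻¹ • f' := by
  have h1 : ∀ k, fderiv ℝ (fun y => (f y • v y) k) z =
      f z • fderiv ℝ (fun y => v y k) z + v z k • f' := fun k =>
    (hf.mul (differentiableAt_pi.1 hv k).hasFDerivAt).fderiv
  have h2 := ip_ne h0
  have h3 : conj (f z) ≠ 0 := (map_ne_zero _).2 hf0
  have h4 := ip_comb (f z) 0 (f z) 0 (v z) (v z)
  refine ContinuousLinearMap.ext fun x => ?_
  have h5 : ip (f z • v z) (fun k => fderiv ℝ (fun y => (f y • v y) k) z x) =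
      conj (f z) * (f z * (ip (v z) fun k => fderiv ℝ (fun y => v y k) z x) +
        ip (v z) (v z) * f' x) := by
    simp only [h1]
    simp only [ip, Pi.smul_apply, smul_eq_mul, map_mul, add_apply, smul_apply, Finset.mul_sum,
      Finset.sum_mul, ← Finset.sum_add_distrib]
    exact Finset.sum_congr rfl fun k _ => by ring
  simp only [zero_smul, add_zero, map_zero, zero_mul, mul_zero] at h4
  rw [add_apply, smul_apply, con_apply, con_apply, h4, h5, smul_eq_mul]
  field_simp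

theorem con_loc0 {p : V} (h : Loc0 v p) : ∀ᶠ z in 𝓝 p, con v z = 0 := by
  obtain ⟨w, -, h⟩ := h
  filter_upwards [h.eventually_nhds] with z hz
  rw [con_congr (v := fun _ => w) hz]
  exact ContinuousLinearMap.ext fun x => by simp [con_apply, ip]

theorem con_loc1 {p : V} (h : Loc1 v p) : ∀ᶠ z in 𝓝 p, ∀ x, con v z x = lg (z - p) x := by
  obtain ⟨w, w', h0, h1, h2, h⟩ := h
  filter_upwards [h.eventually_nhds] with z hz x
  have h3 : (fun k => fderiv ℝ (fun y : V => ((y - p).1 • w + (y - p).2 • w') k) z x) =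
      x.1 • w + x.2 • w' := funext fun k => by
    have h4 := (hasFDerivAt_id (𝕜 := ℝ) z).sub_const p
    have h5 := ((h4.fst.mul_const (w k)).add (h4.snd.mul_const (w' k))).fderiv
    refine (congrArg (fun l : V →L[ℝ] ℂ => l x) h5).trans ?_
    simp [mul_comm]
  have h6 := ip_ne h0
  rw [con_congr (v := fun y => (y - p).1 • w + (y - p).2 • w') hz, con_apply, h3, ip_comb, ip_comb,
    ip_swap w w', h1, h2, lg, nq_coe]
  simp only [map_zero, mul_zero, add_zero, ← add_mul, mul_inv]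
  field_simp

end vec

/-! ### the form `∂ log n` -/

section dl

variable {n n' : V → ℝ} {z : V}

theorem dl_smooth (hn : ContDiffAt ℝ ∞ n z) (h0 : n z ≠ 0) : ContDiffAt ℝ ∞ (dl n) z := by
  have h1 : ContDiffAt ℝ ∞ (fderiv ℝ fun y => (Real.log (n y) : ℂ)) z :=
    (Complex.ofRealCLM.contDiff.contDiffAt.comp z (hn.log h0)).fderiv_right le_rfl
  exact (h1.sub ((h1.clm_comp contDiffAt_const).const_smul Complex.I)).const_smul (1 / 2 : ℂ)

theorem dl_congr (h : n =ᶠ[𝓝 z] n') : dl n z = dl n' z :=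
  congrArg del (EventuallyEq.fderiv_eq (h.mono fun y hy => by simp only [hy]))

theorem dl_add (l : V) : dl (fun y => n (y + l)) z = dl n (z + l) :=
  congrArg del (fderiv_comp_add_right (f := fun y => (Real.log (n y) : ℂ)) l)

theorem del_apply (l : V →L[ℝ] ℂ) (x : V) :
    del l x = 1 / 2 * (l x - Complex.I * l (Complex.I • x)) := rfl

theorem dl_neg : dl (fun y => n (-y)) z = -dl n (-z) := ContinuousLinearMap.ext fun x => by
  rw [dl, fderiv_neg' fun y => (Real.log (n y) : ℂ), neg_apply, dl, del_apply, del_apply, neg_apply,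
    neg_apply]
  ring

theorem dl_one : dl (fun _ => 1) z = 0 := ContinuousLinearMap.ext fun x => by
  simp [dl, del_apply]

theorem dl_nq {p : V} (h : z - p ≠ 0) (x : V) :
    dl (fun y => nq (y - p) ^ 2) z x = 2 * lg (z - p) x := by
  have ha : ∀ a : V →L[ℝ] ℝ,
      HasFDerivAt (fun y => a (y - p) * a (y - p)) (a (z - p) • a + a (z - p) • a) z := fun a =>
    have := a.hasFDerivAt.comp z ((hasFDerivAt_id z).sub_const p)
    this.mul this
  have h1 : HasFDerivAt (fun y => nq (y - p)) _ z :=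
    ((ha (Complex.reCLM.comp (.fst ℝ ℂ ℂ))).add (ha (Complex.imCLM.comp (.fst ℝ ℂ ℂ)))).add
      ((ha (Complex.reCLM.comp (.snd ℝ ℂ ℂ))).add (ha (Complex.imCLM.comp (.snd ℝ ℂ ℂ))))
  have h2 := nq_ne h
  have h3 : fderiv ℝ (fun y => (Real.log (nq (y - p) ^ 2) : ℂ)) z = _ :=
    (Complex.ofRealCLM.hasFDerivAt.comp z ((h1.pow 2).log (pow_ne_zero 2 h2))).fderiv
  have h4 : (nq (z - p) : ℂ) ≠ 0 := Complex.ofReal_ne_zero.2 h2
  rw [dl, h3, lg]
  generalize z - p = ζ at h4 ⊢
  simp [del_apply]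
  field_simp
  refine Complex.ext ?_ ?_ <;> simp [-mul_eq_mul_left_iff, -mul_eq_mul_right_iff] <;> ring

end dl

end Vale.Agent.P290Z.KT.Gl
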