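import Vale.Agent.P290Z.KT.Basic
import Vale.Agent.P290Z.KT.GlueA

/-! P290Z, part III, block KT: the step GLUE. -/

open Set Filter
open scoped Topology ContDiff ComplexConjugate

noncomputable section

namespace Vale.Agent.P290Z.KT

open Vale.Agent.P290Z.Kum (pr)

namespace Gl

variable {St : ℝ → ℝ} {co : Co}

/-! ### staircase functions -/

theorem st_half (h : Stair St) (k : ℤ) (s : ℝ) : St (s + k / 2) = St s + k / 2 := by
  induction k using Int.induction_on with
  | zero => simp
  | succ k ih =>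
    have := h.half (s + (k : ℤ) / 2)
    rw [ih] at this
    push_cast at this ⊢
    rw [add_div, ← add_assoc, this, add_assoc]
  | pred k ih =>
    have := h.half (s + ((-k - 1 : ℤ) : ℝ) / 2)
    rw [show s + ((-k - 1 : ℤ) : ℝ) / 2 + 1 / 2 = s + ((-k : ℤ) : ℝ) / 2 by push_cast; ring,
      ih] at this
    push_cast at this ⊢
    linarith

theorem st_int (h : Stair St) (k : ℤ) (s : ℝ) : St (s + k) = St s + k := by
  simpa using st_half h (2 * k) s

theorem dst_half (h : Stair St) (k : ℤ) (s : ℝ) : deriv St (s + k / 2) = deriv St s := by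
  rw [← deriv_comp_add_const St]
  simp only [st_half h, deriv_add_const]

theorem dst_int (h : Stair St) (k : ℤ) (s : ℝ) : deriv St (s + k) = deriv St s := by
  simpa using dst_half h (2 * k) s

theorem dst_neg (h : Stair St) (s : ℝ) : deriv St (-s) = deriv St s := by
  have := deriv_comp_neg St s
  simp only [h.odd, deriv.fun_neg] at this
  exact (neg_inj.1 this).symm

theorem dst_zero (h : Stair St) (k : ℕ) : ∀ᶠ s in 𝓝 ((k : ℝ) / 2), deriv St s = 0 := by
  have h1 : ∀ᶠ s in 𝓝 (0 : ℝ), St s = 0 :=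
    (eventually_abs_sub_lt (0 : ℝ) (by norm_num : (0 : ℝ) < 1 / 8)).mono fun s hs =>
      h.zero s (by simpa using hs.le)
  have h2 : Tendsto (fun s : ℝ => s - k / 2) (𝓝 ((k : ℝ) / 2)) (𝓝 0) :=
    (continuous_sub_right _).tendsto' _ _ (sub_self _)
  filter_upwards [h2.eventually h1.eventually_nhds] with s hs
  have h3 := dst_half h k (s - k / 2)
  rw [Int.cast_natCast, sub_add_cancel] at h3
  rw [h3, EventuallyEq.deriv_eq (f := fun _ => 0) hs, deriv_const]

/-! ### the model connection -/

/-- the coordinates -/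
def cr (co : Co) (j : Fin 4) : V →L[ℝ] ℂ :=
  Complex.ofRealCLM.comp ((ContinuousLinearMap.proj j).comp (co : V →L[ℝ] R4))

theorem cr_apply (j : Fin 4) (x : V) : cr co j x = (co x j : ℝ) := rfl

theorem cd_co {g : ℝ → ℝ} (hg : ContDiff ℝ ∞ g) (j : Fin 4) :
    ContDiff ℝ ∞ fun z => (g (co z j) : ℂ) :=
  Complex.ofRealCLM.contDiff.comp (hg.comp (contDiff_pi.1 co.contDiff j))

theorem hd_co {g : ℝ → ℝ} (hg : ContDiff ℝ ∞ g) (j : Fin 4) (z : V) :
    HasFDerivAt (fun z => (g (co z j) : ℂ)) (((deriv g (co z j) : ℝ) : ℂ) • cr co j) z := by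
  have h1 := ((hg.differentiable (by simp)) (co z j)).hasDerivAt.ofReal_comp.hasFDerivAt.comp z
    ((ContinuousLinearMap.proj j).comp (co : V →L[ℝ] R4)).hasFDerivAt
  refine h1.congr_fderiv (ContinuousLinearMap.ext fun x => ?_)
  simp [cr_apply, mul_comm]

/-- the form `π i ∑ A i j T i dT j` -/
def th (co : Co) (St : ℝ → ℝ) (A : Fin 4 → Fin 4 → ℂ) (z : V) : V →L[ℝ] ℂ :=
  ∑ i, ∑ j, (Real.pi * Complex.I * A i j * ((St (co z i) : ℂ) * (deriv St (co z j) : ℝ))) • cr co j

variable {A : Fin 4 → Fin 4 → ℂ}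

theorem th_smooth (h : Stair St) : ContDiff ℝ ∞ (th co St A) :=
  ContDiff.sum fun i _ => ContDiff.sum fun j _ => (contDiff_const.mul ((cd_co h.smooth i).mul
    (cd_co (contDiff_infty_iff_deriv.1 h.smooth).2 j))).smul_const _

theorem dd_th (h : Stair St) (hA : ∀ i j, A i j = -A j i) (z x y : V) :
    dd (th co St A) z x y = 2 * Real.pi * Complex.I * tw co (deriv St) A z x y := by
  have h1 : HasFDerivAt (th co St A) _ z :=
    HasFDerivAt.fun_sum fun i _ => HasFDerivAt.fun_sum fun j _ =>
      (((hd_co h.smooth i z).mul (hd_co (contDiff_infty_iff_deriv.1 h.smooth).2 j z)).const_mul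
        (Real.pi * Complex.I * A i j)).smul_const (cr co j)
  have h2 : tw co (deriv St) A z x y = -tw co (deriv St) A z y x := by
    rw [tw, tw, Finset.sum_comm, ← Finset.sum_neg_distrib]
    refine Finset.sum_congr rfl fun i _ => ?_
    rw [← Finset.sum_neg_distrib]
    exact Finset.sum_congr rfl fun j _ => by rw [hA j i]; ring
  have h3 : dd (th co St A) z x y =
      Real.pi * Complex.I * (tw co (deriv St) A z x y - tw co (deriv St) A z y x) := by
    simp only [dd, h1.fderiv, tw, sum_apply, ContinuousLinearMap.smulRight_apply, smul_apply,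
      add_apply, cr_apply, smul_eq_mul, ← Finset.sum_sub_distrib, Finset.mul_sum,
      Complex.ofReal_mul]
    exact Finset.sum_congr rfl fun i _ => Finset.sum_congr rfl fun j _ => by ring
  rw [h3, h2]
  ring

theorem th_neg (h : Stair St) (z x : V) : th co St A (-z) x = -th co St A z x := by
  simp only [th, map_neg, Pi.neg_apply, h.odd, dst_neg h, Complex.ofReal_neg, neg_mul, mul_neg,
    sum_apply, smul_apply, smul_eq_mul, Finset.sum_neg_distrib]

theorem th_add (h : Stair St) (z : V) (m : Fin 4 → ℤ) : th co St A (z + lp co m) = th co St A z +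
    (Real.pi * Complex.I : ℂ) •
      ∑ i, ∑ j, ((m i : ℂ) * A i j) • ((deriv St (co z j) : ℝ) : ℂ) • cr co j := by
  refine ContinuousLinearMap.ext fun x => ?_
  simp only [th, map_add, Pi.add_apply, co_lp, st_int h, dst_int h, add_apply, sum_apply,
    smul_apply, smul_eq_mul, Finset.mul_sum, ← Finset.sum_add_distrib, Complex.ofReal_add,
    Complex.ofReal_intCast]
  exact Finset.sum_congr rfl fun i _ => Finset.sum_congr rfl fun j _ => by ring

theorem th_zero (h : Stair St) (a : F4) : ∀ᶠ z in 𝓝 (pt co a), ∀ x, th co St A z x = 0 := by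
  have h1 : ∀ j, ∀ᶠ z in 𝓝 (pt co a), deriv St (co z j) = 0 := fun j =>
    (((continuous_apply j).comp co.continuous).tendsto' _ _ (co_pt a j)).eventually
      (dst_zero h (a j).val)
  filter_upwards [eventually_all.2 h1] with z hz x
  simp [th, hz]

end Gl

open Gl in
theorem glue (_ : StApi0) (h1 : StApi1) (h2 : StApi2) (hd : StDesc1) (hc : StCurv) (hl : StLB)
    (hs : StSec) : StGlue := by
  intro Y co K St hSt N hN x
  obtain ⟨ι, _, _, v, hv, hv0, hvl, ⟨c, hvn⟩, hvp⟩ := hs co St hSt x
  obtain ⟨L, hL⟩ := hl Y co K ι v hv hv0 (fun z m => (hvl m).elim fun c h => ⟨_, h z⟩)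
    (fun z => ⟨c, hvn z⟩) fun a => (Int.even_or_odd _).imp (hvp a).1 (hvp a).2
  set A : Fin 4 → Fin 4 → ℂ := fun i j => (x.1.1 i j : ℂ)
  have hA : ∀ i j, A i j = -A j i := fun i j => by simp only [A, x.2.1 i j, Int.cast_neg]
  let n : F4 → V → ℝ := fun a z => N a (pr K z)
  have hn0 : ∀ a z, Good co z → n a z ≠ 0 := fun a z hz e =>
    pr_not_mem_Cv K hz a (((hN a).zero _).1 e)
  have s1 : ∀ z, Good co z → ContDiffAt ℝ ∞ (con v) z := fun z hz =>
    con_smooth hv.contDiffAt (hv0 z hz)
  have s2 : ∀ a z, Good co z → ContDiffAt ℝ ∞ (dl (n a)) z := fun a z hz =>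
    dl_smooth ((h1 Y).2.2.2.2.2 (N a) _ z (hN a).nf (et_pr K hz)).1 (hn0 a z hz)
  have dv : ∀ z, DifferentiableAt ℝ v z := hv.differentiable (by simp)
  obtain ⟨B, hB, hβ⟩ := hd Y co K
    (fun z => con v z - th co St A z - (1 / 2 : ℂ) • ∑ a with Odd (x.1.2 a), dl (n a) z)
    (fun z hz => ((s1 z hz).sub (th_smooth hSt).contDiffAt).sub
      ((ContDiffAt.sum fun a _ => s2 a z hz).const_smul _))
    (fun z m hz => by
      obtain ⟨c, h⟩ := hvl m
      have e1 := ((HasFDerivAt.fun_sum fun i (_ : i ∈ Finset.univ) =>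
        HasFDerivAt.fun_sum fun j (_ : j ∈ Finset.univ) =>
          (hd_co (co := co) hSt.smooth j z).const_mul ((m i : ℂ) * A i j)).const_mul
            (Real.pi * Complex.I)).cexp.const_mul c
      have e2 := left_ne_zero_of_smul (h z ▸ hv0 _ (good_add hz m))
      have e3 := con_mul e1 e2 (dv z) (hv0 z hz)
      have e4 : ∀ a, dl (n a) (z + lp co m) = dl (n a) z := fun a =>
        (dl_add _).symm.trans (dl_congr (hz.ev.mono fun y hy => congrArg (N a) (pr_lp K hy m)))
      rw [smul_smul, smul_smul, mul_assoc, inv_mul_cancel₀ e2, one_smul] at e3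
      have e5 := ((con_add (lp co m)).symm.trans (con_congr (.of_forall h))).trans e3
      simp only [e4, th_add hSt, e5, add_sub_add_right_eq_sub])
    (fun z hz => by
      have e2 := left_ne_zero_of_smul (hvn z ▸ hv0 _ (good_neg hz))
      have e3 := con_mul (hasFDerivAt_const c z) e2 (dv z) (hv0 z hz)
      have e4 : ∀ a, dl (n a) (-z) = -dl (n a) z := fun a => neg_eq_iff_eq_neg.1
        (dl_neg.symm.trans (dl_congr (hz.ev.mono fun y hy => congrArg (N a) (pr_neg K hy))))
      have e5 : con v (-z) = -con v z := neg_eq_iff_eq_neg.1 (by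
        rw [← con_neg]
        simp only [hvn, e3]
        exact ContinuousLinearMap.ext fun y => by simp)
      refine ContinuousLinearMap.ext fun y => ?_
      simp only [e4, e5, Finset.sum_neg_distrib, sub_apply, neg_apply, smul_apply, smul_eq_mul,
        th_neg hSt]
      ring)
    (fun a => by
      have e1 : ∀ b, ∀ᶠ z in 𝓝 (pt co a), Good co z → ∀ y,
          dl (n b) z y = if a = b then 2 * lg (z - pt co a) y else 0 := fun b => by
        filter_upwards [((hN b).loc a).eventually_nhds] with z hz hg y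
        have e2 : n b =ᶠ[𝓝 z] fun z => if a = b then nq (z - pt co a) ^ 2 else 1 := by
          filter_upwards [hz, hg.ev] with w e3 e4 using e3 e4
        rw [dl_congr e2]
        split_ifs
        · exact dl_nq (sub_ne_zero.2 fun e => not_good_pt a (e ▸ hg)) y
        · rw [dl_one]; rfl
      have e3 : ∀ᶠ z in 𝓝 (pt co a), ∀ y,
          con v z y = if Odd (x.1.2 a) then lg (z - pt co a) y else 0 := by
        split_ifs with e
        · exact con_loc1 ((hvp a).2 e)
        · exact (con_loc0 ((hvp a).1 (Int.not_odd_iff_even.1 e))).mono fun z hz y => by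
            rw [hz]; rfl
      filter_upwards [eventually_all.2 e1, e3, th_zero (A := A) hSt a] with z e4 e5 e6 hz
      refine ContinuousLinearMap.ext fun y => ?_
      simp only [sub_apply, smul_apply, sum_apply, smul_eq_mul, fun b => e4 b hz y, e5, e6,
        Finset.sum_ite_eq, Finset.mem_filter, Finset.mem_univ, true_and, zero_apply]
      split_ifs <;> ring)
  refine ⟨⟨ι, L⟩, B, hB, fun z hz ξ η => ?_⟩
  obtain ⟨a1, -, a3, a4⟩ := h2 Y (pr K) z (et_pr K hz)
  have e1 : cu (fun z => L.P (pr K z)) z ξ η = cu (fun w => prj (v w)) z ξ η := by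
    have e2 : ∀ i j, fderiv ℝ (fun y => L.P (pr K y) i j) z = fderiv ℝ (fun y => prj (v y) i j) z :=
      fun i j => EventuallyEq.fderiv_eq (hz.ev.mono fun y hy => by simp only [hL y hy])
    simp only [cu, dP, e2, hL z hz]
  rw [p2_sub, p2_sub, p2_smul, p2_sum, a1 B hB, a3, e1,
    hc ι v z (hv.contDiffAt.of_le (ENat.LEInfty.out)) (hv0 z hz), dd_congr (hz.ev.mono hβ),
    dd_comb _ ((s1 z hz).differentiableAt (by simp))
      ((th_smooth hSt).contDiffAt.differentiableAt (by simp))
      (fun a _ => (s2 a z hz).differentiableAt (by simp)), dd_th hSt hA,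
    Finset.sum_congr rfl fun a _ => a4 (N a) (hN a).nf (hn0 a z hz) ξ η]
  ring

end Vale.Agent.P290Z.KT
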