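import Vale.Agent.P290Z.KT.Basic

/-! P290Z, part III, block KT, step JAC: the holomorphic two-form pulls back to a constant form. -/

set_option linter.all false

open Set Filter Metric
open scoped Topology Manifold ContDiff

noncomputable section

namespace Vale.Agent.P290Z.KT

open Vale.Agent.P290 Vale.Agent.P267 Vale.Agent.P290Z.W
open Vale.Agent.P290Z.Kum (pr ph)
open Vale.Agent.P290.All (dir Dom Etale)

namespace JacA

variable {Y : W.K3} {co : Co}

/-- the coefficient of the pull back of the holomorphic two-form -/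
def jc (ν : V → Y.X) (v : V) : ℂ :=
  W.H445.Om Y (ν v) * (fderiv ℂ (fun z => chartAt V (ν v) (ν z)) v).det

theorem det_comp (A B : V →L[ℂ] V) : (A.comp B).det = A.det * B.det :=
  LinearMap.det_comp (A : V →ₗ[ℂ] V) (B : V →ₗ[ℂ] V)

theorem det2_map (A : V →L[ℂ] V) (x y : V) : det2 (A x) (A y) = A.det * det2 x y := by
  have h : ∀ x : V, A x = x.1 • A (1, 0) + x.2 • A (0, 1) := fun x => by
    rw [← map_smul, ← map_smul, ← map_add]
    congr 1
    simp
  rw [R2.H236.det_formula, h x, h y]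
  simp only [det2, Prod.fst_add, Prod.snd_add, Prod.smul_fst, Prod.smul_snd, smul_eq_mul]
  ring

theorem jc_ne {ν : V → Y.X} {v : V} (h : Etale ν v) : jc ν v ≠ 0 :=
  mul_ne_zero (W.H445.Om_ne_zero Y _) h.2.2

theorem p2_om {ν : V → Y.X} {v : V} (h : Etale ν v) (x y : V) :
    p2 ν (Kur.omF Y) v x y = jc ν v * det2 x y := by
  have h1 : HasFDerivAt (fun z => chartAt FL.C2 (ν v) (ν z)) _ v :=
    ((H445.φ : V →L[ℂ] FL.C2).hasFDerivAt.comp v h.2.1.hasFDerivAt).restrictScalars ℝ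
  have h2 : ∀ x, Dm ν v x = H445.φ (fderiv ℂ (fun z => chartAt V (ν v) (ν z)) v x) := fun x => by
    rw [Dm, h1.fderiv]
    rfl
  rw [p2_apply, h2, h2, jc, mul_assoc, ← det2_map, H686.val2, H686.ev2_apply]
  simp [Kur.omF, det2]

theorem jc_congr {ν ν' : V → Y.X} {v : V} (h : ν =ᶠ[𝓝 v] ν') : jc ν v = jc ν' v := by
  have h1 : (fun z => chartAt V (ν' v) (ν z)) =ᶠ[𝓝 v] fun z => chartAt V (ν' v) (ν' z) :=
    h.mono fun z hz => by simp only [hz]
  rw [jc, jc, h.self_of_nhds, h1.fderiv_eq]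

theorem jc_comp {ν : V → Y.X} {g : V → V} {v : V} (h : Etale ν (g v))
    (hg : DifferentiableAt ℂ g v) :
    jc (fun z => ν (g z)) v = jc ν (g v) * (fderiv ℂ g v).det := by
  have h1 : fderiv ℂ (fun z => chartAt V (ν (g v)) (ν (g z))) v =
      (fderiv ℂ (fun z => chartAt V (ν (g v)) (ν z)) (g v)).comp (fderiv ℂ g v) :=
    fderiv_comp (g := fun z => chartAt V (ν (g v)) (ν z)) (f := g) v h.2.1 hg
  rw [jc, jc, h1, det_comp, mul_assoc]

theorem trans_diff {e e' : OpenPartialHomeomorph Y.X V} (he : e ∈ atlas V Y.X)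
    (he' : e' ∈ atlas V Y.X) {x : Y.X} (hx : x ∈ e.source) (hx' : x ∈ e'.source) :
    DifferentiableAt ℂ (fun z => e' (e.symm z)) (e x) := by
  have h0 := FL.trans_differentiableAt (W.H445.mem_atlas_toFL Y he) (W.H445.mem_atlas_toFL Y he')
    (x := x) hx hx'
  have h1 : (fun z => e' (e.symm z)) =
      H445.φ.symm ∘ (fun z => H445.toFL e' ((H445.toFL e).symm z)) ∘ H445.φ := by
    funext z
    simp
  rw [h1]
  exact (H445.φ.symm : FL.C2 →L[ℂ] ℂ × ℂ).differentiableAt.comp _
    (DifferentiableAt.comp (e x) h0 (H445.φ : ℂ × ℂ →L[ℂ] FL.C2).differentiableAt)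

/-- the coefficient in an arbitrary chart -/
theorem jc_chart {ν : V → Y.X} {v : V} (h : Etale ν v) {e : OpenPartialHomeomorph Y.X V}
    (he : e ∈ atlas V Y.X) (hv : ν v ∈ e.source) : DifferentiableAt ℂ (fun z => e (ν z)) v ∧
      jc ν v = Y.vol e (e (ν v)) * (fderiv ℂ (fun z => e (ν z)) v).det := by
  have ht := chart_mem_atlas V (ν v)
  have hs := mem_chart_source V (ν v)
  have h1 : (fun z => e (ν z)) =ᶠ[𝓝 v]
      (fun y => e ((chartAt V (ν v)).symm y)) ∘ fun z => chartAt V (ν v) (ν z) := by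
    filter_upwards [h.1.eventually ((chartAt V (ν v)).open_source.mem_nhds hs)] with z hz
    rw [Function.comp_apply, (chartAt V (ν v)).left_inv hz]
  have h2 := trans_diff ht he hs hv
  have h3 := ((Y.holo _ ht).2 _ (mem_chart_target V (ν v))).2 e he
    (by rwa [(chartAt V (ν v)).left_inv hs])
  rw [(chartAt V (ν v)).left_inv hs] at h3
  refine ⟨(h2.comp v h.2.1).congr_of_eventuallyEq h1, ?_⟩
  rw [h1.fderiv_eq, fderiv_comp v h2 h.2.1, det_comp, ← mul_assoc, ← h3]
  rfl

theorem jc_diff {ν : V → Y.X} {v : V} (h : Et ν v) : DifferentiableAt ℂ (jc ν) v := by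
  have ht := chart_mem_atlas V (ν v)
  have hs := mem_chart_source V (ν v)
  generalize chartAt V (ν v) = e at ht hs
  have h1 : ∀ᶠ z in 𝓝 v, DifferentiableAt ℂ (fun z => e (ν z)) z ∧
      jc ν z = Y.vol e (e (ν z)) * (fderiv ℂ (fun z => e (ν z)) z).det := by
    filter_upwards [h, h.etale.1.eventually (e.open_source.mem_nhds hs)] with z h1 h2
    exact jc_chart h1 ht h2
  obtain ⟨U, hU, Uo, vU⟩ := _root_.eventually_nhds_iff.1 h1
  have h2 : ContDiffAt ℂ (2 : ℕ) (fun z => e (ν z)) v :=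
    (P268.contDiffOn_of_differentiableOn Uo
      (fun z hz => (hU z hz).1.differentiableWithinAt) 2).contDiffAt (Uo.mem_nhds vU)
  have h3 : DifferentiableAt ℂ (fderiv ℂ fun z => e (ν z)) v :=
    (h2.fderiv_right (m := 1) (by norm_num)).differentiableAt one_ne_zero
  have h4 : DifferentiableAt ℂ (Y.vol e) (e (ν v)) :=
    (Y.holo e ht).1.differentiableAt (e.open_target.mem_nhds (e.map_source hs))
  refine DifferentiableAt.congr_of_eventuallyEq ?_ (h1.mono fun z hz => hz.2)
  exact (h4.comp v (hU v vU).1).mul ((R2.H236.det_differentiable _).comp v h3)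

variable (K : All.Kummer (Lt co) Y.X)

theorem jc_N {a z : V} (ha : a + a ∈ Lt co) (hz : Good co z) {b : Bool}
    (h : Kum.cs b (z - a) ≠ 0) : ‖jc (pr K) z‖ = ‖jc (K.N a b) (ph b (z - a))‖ * 2 := by
  have hs : HasFDerivAt (fun y : V => y - a) (ContinuousLinearMap.id ℂ V) z :=
    (hasFDerivAt_id z).sub_const a
  have hd := (Kum.ph_deriv h).1.hasFDerivAt.comp z hs
  have e : fderiv ℂ (fun y => ph b (y - a)) z = fderiv ℂ (ph b) (z - a) := hd.fderiv
  rw [jc_congr (pr_ev K ha hz h), jc_comp (g := fun y => ph b (y - a))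
    (K.etale _ _ _ (dom_ph ha hz h)) hd.differentiableAt, norm_mul, e, (Kum.ph_deriv h).2]

theorem jc_add {z a : V} (hz : Good co z) (ha : a ∈ Lt co) : jc (pr K) (z + a) = jc (pr K) z := by
  obtain ⟨m, rfl⟩ := mem_Lt.1 ha
  have hs : HasFDerivAt (fun y : V => y + lp co m) (ContinuousLinearMap.id ℂ V) z :=
    (hasFDerivAt_id z).add_const _
  have h1 := jc_comp (g := fun y => y + lp co m) (v := z) (etale_pr K (good_add hz m))
    hs.differentiableAt
  have h2 : (ContinuousLinearMap.id ℂ V).det = 1 := LinearMap.det_id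
  rw [hs.fderiv, h2, mul_one] at h1
  rw [← h1]
  exact jc_congr (hz.ev.mono fun y h => pr_lp K h m)

theorem bdd_curve {a : V} (ha : a + a ∈ Lt co) (b : Bool) :
    ∃ M : ℝ, ∀ᶠ h in 𝓝 (0 : ℂ), ∀ u ∈ closedBall (0 : ℂ) 1, ‖jc (K.N a b) (h, u)‖ ≤ M := by
  have hd : ∀ u : ℂ, Dom (Lt co) a b (0, u) := fun u =>
    ⟨ha, fun w hw _ => pow_eq_zero_iff two_ne_zero |>.1 hw⟩
  have hc : ∀ u : ℂ, ContinuousAt (jc (K.N a b)) (0, u) := fun u =>
    (jc_diff (et_N K (hd u))).continuousAt
  have hc' : Continuous fun u : ℂ => jc (K.N a b) (0, u) := continuous_iff_continuousAt.2 fun u =>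
    ContinuousAt.comp (g := jc (K.N a b)) (f := fun u : ℂ => ((0 : ℂ), u)) (hc u)
      (Continuous.prodMk_right 0).continuousAt
  obtain ⟨M, hM⟩ := (isCompact_closedBall (0 : ℂ) 1).exists_bound_of_continuousOn
    hc'.continuousOn
  refine ⟨M + 1, (isCompact_closedBall (0 : ℂ) 1).eventually_forall_of_forall_eventually
    fun u hu => ?_⟩
  exact ((hc u).norm.eventually (gt_mem_nhds ((hM u hu).trans_lt (lt_add_one M)))).mono
    fun _ h => h.le

theorem bdd_loc (y : V) : ∃ M : ℝ, ∀ᶠ y' in 𝓝 y, Good co y' → ‖jc (pr K) y'‖ ≤ M := by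
  by_cases hy : y + y ∈ Lt co
  · choose M hM using bdd_curve K hy
    refine ⟨max (M true) (M false) * 2, ?_⟩
    filter_upwards [(tendsto_ph y true).eventually (hM true),
      (tendsto_ph y false).eventually (hM false)] with y' h1 h2 hg
    obtain ⟨b, e1, e2⟩ := Kum.exists_cs (z := y' - y) fun e => hg (sub_eq_zero.1 e ▸ hy)
    have h3 : ‖jc (K.N y b) (ph b (y' - y))‖ ≤ max (M true) (M false) := by
      cases b
      · exact (h2 _ (mem_closedBall_zero_iff.2 e2)).trans (le_max_right _ _)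
      · exact (h1 _ (mem_closedBall_zero_iff.2 e2)).trans (le_max_left _ _)
    rw [jc_N K hy hg e1]
    exact mul_le_mul_of_nonneg_right h3 zero_le_two
  · exact ⟨_, ((jc_diff (et_pr K hy)).continuousAt.norm.eventually
      (gt_mem_nhds (lt_add_one _))).mono fun _ h _ => h.le⟩

theorem bdd : ∃ M : ℝ, ∀ y : V, Good co y → ‖jc (pr K) y‖ ≤ M := by
  obtain ⟨R, hR⟩ := (Kum.lat (li_lv co)).2
  choose M hM using bdd_loc K
  obtain ⟨t, -, ht⟩ := (isCompact_closedBall (0 : V) R).elim_nhds_subcover _ fun y _ => hM y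
  refine ⟨∑ y ∈ t, |M y|, fun y hy => ?_⟩
  obtain ⟨a, ha, h⟩ := hR y
  obtain ⟨z, hz, h1⟩ := mem_iUnion₂.1 (ht (mem_closedBall_zero_iff.2 h))
  have hg : Good co (y - a) := fun hm => hy (by
    have := (Lt co).add_mem hm ((Lt co).add_mem ha ha)
    rwa [add_add_add_comm, sub_add_cancel] at this)
  have h2 := jc_add K hg ha
  rw [sub_add_cancel] at h2
  rw [h2]
  exact ((h1 hg).trans (le_abs_self _)).trans
    (Finset.single_le_sum (f := fun y => |M y|) (fun _ _ => abs_nonneg _) hz)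

theorem const {y y' : V} (hy : Good co y) (hy' : Good co y') : jc (pr K) y = jc (pr K) y' := by
  obtain ⟨M, hM⟩ := bdd K
  obtain ⟨z, h1, h2⟩ := Kum.exists_line (Kum.countable_bad (hfin co)) hy hy'
  have key : ∀ y : V, (∀ t : ℂ, Good co (y + t • (z - y))) → jc (pr K) y = jc (pr K) z := by
    intro y h
    have hd : Differentiable ℂ fun t : ℂ => jc (pr K) (y + t • (z - y)) := fun t =>
      DifferentiableAt.comp (g := jc (pr K)) (f := fun t : ℂ => y + t • (z - y)) t
        (jc_diff (et_pr K (h t))) ((differentiableAt_id.smul_const _).const_add y)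
    have := hd.apply_eq_apply_of_bounded (isBounded_iff_forall_norm_le.2 ⟨M, by
      rintro _ ⟨t, rfl⟩
      exact hM _ (h t)⟩) 0 1
    simpa using this
  rw [key y h1, key y' h2]

end JacA

open JacA

theorem jacK' : StJ := by
  intro Y co K
  obtain ⟨y₀, hy₀⟩ : ∃ y : V, Good co y := by
    by_contra h
    have := Kum.unc2
    exact not_countable_univ ((Kum.countable_bad (hfin co)).mono fun y _ =>
      not_not.1 fun h' => h ⟨y, h'⟩)
  exact ⟨jc (pr K) y₀, jc_ne (etale_pr K hy₀), fun z hz x y => by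
    rw [p2_om (etale_pr K hz), const K hz hy₀]⟩

theorem jacK (_ : StApi0) (_ : StApi1) : StJ := jacK'

end Vale.Agent.P290Z.KT
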