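import Vale.Agent.P290Z.KT.Cl

/-! P290Z, part III, block KT: the lattice and the period of a Kummer surface. -/

open Set Filter
open scoped Topology Manifold ContDiff ComplexConjugate

noncomputable section

namespace Vale.Agent.P290Z.KT

open Vale.Agent.P290 Vale.Agent.P267 Vale.Agent.P290Z.W Vale.Agent.P290Z.Top
open Vale.Agent.P267.FL (TwoF OneF LB)
open Vale.Agent.P267.BlockC (pair ExactTwo ALB)
open Vale.Agent.P267.H332 (cF HC intAx cF_smooth cF_closed)
open Vale.Agent.P267.H757 (IsNormFn)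
open Vale.Agent.P290.H726 (bil)
open Vale.Agent.P290.H342
open Vale.Agent.P290Z.Kum (pr)

namespace KLA

variable {St : ℝ → ℝ}

theorem st_zero (h : Stair St) : St 0 = 0 := h.zero 0 (by norm_num)

theorem wt_deriv (h : Stair St) : Wt (deriv St) := by
  have h1 : Differentiable ℝ St := h.smooth.differentiable (by simp)
  have h2 : Continuous (deriv St) := h.smooth.continuous_deriv (by simp)
  have h3 : ∀ b, ∫ s in (0 : ℝ)..b, deriv St s = St b - St 0 := fun b =>
    intervalIntegral.integral_deriv_eq_sub (fun x _ => h1 x) (h2.intervalIntegrable _ _)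
  have h4 := h.half 0
  have h5 := h.half (1 / 2)
  rw [zero_add] at h4
  rw [show (1 / 2 + 1 / 2 : ℝ) = 1 by norm_num] at h5
  refine ⟨h2, ?_, ?_⟩ <;> rw [h3] <;> linarith

theorem wt_one : Wt fun _ => 1 := ⟨continuous_const, by simp, by simp⟩

theorem deriv_zero (h : Stair St) (c : ZMod 2) :
    ∀ᶠ s in 𝓝 ((c.val : ℝ) / 2), deriv St s = 0 := by
  have h0 : ∀ᶠ s in 𝓝 ((c.val : ℝ) / 2), |s - (c.val : ℝ) / 2| < 1 / 8 :=
    (continuous_id.sub continuous_const).abs.continuousAt.eventually (gt_mem_nhds (by simp))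
  have h1 : St =ᶠ[𝓝 ((c.val : ℝ) / 2)] fun _ => (c.val : ℝ) / 2 := by
    filter_upwards [h0] with s hs
    have h2 := h.zero _ hs.le
    have h3 := h.half (s - 1 / 2)
    have h4 : c.val = 0 ∨ c.val = 1 := by have := ZMod.val_lt c; omega
    rcases h4 with e | e
    · simpa [e] using h2
    · rw [e, Nat.cast_one] at h2 ⊢
      rw [sub_add_cancel] at h3
      linarith
  filter_upwards [h1.eventually_nhds] with s hs
  rw [Filter.EventuallyEq.deriv_eq hs, deriv_const]

theorem tw_near (h : Stair St) (co : Co) (A : Fin 4 → Fin 4 → ℂ) (a : F4) :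
    ∀ᶠ z in 𝓝 (pt co a), ∀ x y, tw co (deriv St) A z x y = 0 := by
  have h1 : ∀ i, ∀ᶠ z in 𝓝 (pt co a), deriv St (co z i) = 0 := fun i => by
    have h2 : Continuous fun z : V => co z i := (continuous_apply i).comp co.continuous
    have h3 := h2.tendsto (pt co a)
    rw [co_pt] at h3
    exact h3.eventually (deriv_zero h (a i))
  filter_upwards [eventually_all.2 h1] with z hz x y
  simp [tw, hz]

theorem tw_smul (co : Co) (g : ℝ → ℝ) (c : ℂ) (A : Fin 4 → Fin 4 → ℂ) (z x y : V) :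
    tw co g (fun i j => c * A i j) z x y = c * tw co g A z x y := by
  simp only [tw, Finset.mul_sum, mul_assoc]

theorem tw_add (co : Co) (g : ℝ → ℝ) (A B : Fin 4 → Fin 4 → ℂ) (z x y : V) :
    tw co g (fun i j => A i j + B i j) z x y = tw co g A z x y + tw co g B z x y := by
  simp only [tw, add_mul, Finset.sum_add_distrib]

theorem tw_Dl (co : Co) (z x y : V) : tw co (fun _ => 1) (Dl co) z x y = det2 x y := by
  conv_rhs => rw [eq_sum_lv (co := co) x, eq_sum_lv (co := co) y]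
  simp only [tw, Dl, det2, Fin.sum_univ_four, Prod.fst_add, Prod.snd_add, Prod.smul_fst,
    Prod.smul_snd, Complex.real_smul, one_mul]
  ring

theorem pf_smul (c d : ℂ) (A B : Fin 4 → Fin 4 → ℂ) :
    pf (fun i j => c * A i j) (fun i j => d * B i j) = c * d * pf A B := by
  simp only [pf]; ring

theorem pf_cast (A B : Fin 4 → Fin 4 → ℤ) :
    pf (fun i j => (A i j : ℂ)) (fun i j => (B i j : ℂ)) = ((pf A B : ℤ) : ℂ) := by
  simp [pf]

variable {Y : W.K3} {co : Co} {K : All.Kummer (Lt co) Y.X}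

theorem p2_cF_near (h2 : StApi2) {a b : F4} (hab : a ≠ b) {N : Y.X → ℝ} (hN : IsN K b N) :
    ∀ᶠ z in 𝓝 (pt co a), Good co z → p2 (pr K) (cF N) z = 0 := by
  filter_upwards [(hN.loc a).eventually_nhds] with z hz hg
  have h1 : ∀ᶠ w in 𝓝 z, N (pr K w) = 1 := by
    filter_upwards [hz, hg.ev] with w h3 h4
    rw [h3 h4, if_neg hab]
  have h3 : (dl fun z => N (pr K z)) =ᶠ[𝓝 z] fun _ => 0 := by
    filter_upwards [h1.eventually_nhds] with w hw
    have h4 : (fun y => (Real.log (N (pr K y)) : ℂ)) =ᶠ[𝓝 w] fun _ => 0 :=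
      hw.mono fun y hy => by simp [hy]
    rw [dl, h4.fderiv_eq]
    ext <;> simp [del]
  ext x y
  all_goals
    rw [ContinuousLinearMap.comp_apply, ContinuousLinearMap.comp_apply,
      (h2 Y _ z (et_pr K hg)).2.2.2 N hN.nf (by rw [h1.self_of_nhds]; exact one_ne_zero), dd,
      h3.fderiv_eq]
    simp

end KLA

open KLA in
theorem kl (h2 : StApi2) (hx : StExt) (hs : StStair) (hc : StCurve) (hp : StPL) (hg : StGlue)
    (hq : StPair) (hj : StJ) (hi : StIso) : StKL := by
  intro Y co K hpos n U hκ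
  obtain ⟨St, hSt⟩ := hs
  choose N hN using hc Y co K
  obtain ⟨J, hJ, hom⟩ := hj Y co K
  choose L B hB hF using hg Y co K St hSt N hN
  have hpi : (Real.pi : ℂ) ≠ 0 := by exact_mod_cast Real.pi_ne_zero
  let c : F4 → HC Y.X := fun a => ⟨cF (N a), hc_cF (hN a).nf⟩
  let F : LKm → HC Y.X := fun x =>
    ⟨(L x).L.curv, mem_HC_iff.2 ⟨(lbFacts _).smooth _, (lbFacts _).closed _⟩⟩ -
      (1 / 2 : ℂ) • (∑ a with Odd (x.1.2 a), c a) - ⟨(B x).d, hc_of_exact ⟨_, hB x, rfl⟩⟩
  have hFv : ∀ x, (F x).1 =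
      (L x).L.curv - (1 / 2 : ℂ) • (∑ a with Odd (x.1.2 a), cF (N a)) - (B x).d := fun x => by
    simp [F, c]
  have hFp : ∀ x z, Good co z → ∀ ξ η, p2 (pr K) (F x).1 z ξ η = tw co (deriv St)
      (fun i j => 2 * Real.pi * Complex.I * (x.1.1 i j : ℂ)) z ξ η := fun x z hz ξ η => by
    rw [hFv, hF x z hz, tw_smul]
  have hext : ∀ G : HC Y.X, (∀ z, Good co z → ∀ ξ η, p2 (pr K) G.1 z ξ η = 0) → G = 0 :=
    fun G h => Subtype.ext ((hx Y co K G.1 G.2.1).1 fun z hz =>
      ContinuousLinearMap.ext fun ξ => ContinuousLinearMap.ext fun η => h z hz ξ η)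
  have hFa : ∀ x y, F (x + y) = F x + F y := fun x y => by
    refine sub_eq_zero.1 (hext _ fun z hz ξ η => ?_)
    rw [Submodule.coe_sub, Submodule.coe_add, p2_sub, p2_add, hFp _ z hz, hFp _ z hz, hFp _ z hz,
      ← tw_add, sub_eq_zero]
    congr 1
    funext i j
    simp [mul_add]
  let W : LKm → HC Y.X := fun x => F x - (1 / 2 : ℂ) • ∑ a, (x.1.2 a : ℂ) • c a
  have hWa : ∀ x y, W (x + y) = W x + W y := fun x y => by
    simp only [W, hFa, AddSubgroup.coe_add, Prod.snd_add, Pi.add_apply, Int.cast_add, add_smul,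
      Finset.sum_add_distrib, smul_add]
    abel
  have hW : ∀ x, ∃ k, U.HasCl (W x).1 k := fun x => by
    have h1 := (U.c1_spec (L x)).sub (hasCl_sum Finset.univ fun a =>
      hasCl_zsmul (U.clN_spec (nflbY _) (hN a).nf) ((x.1.2 a + 1) / 2))
    refine ⟨_, h1.congr ?_⟩
    have h3 : (W x).1 = (F x).1 - (1 / 2 : ℂ) • ∑ a, (x.1.2 a : ℂ) • cF (N a) := by simp [W, c]
    have h4 : ∑ a, ((((x.1.2 a + 1) / 2 : ℤ) : ℂ)) • cF (N a) =
        (1 / 2 : ℂ) • (∑ a with Odd (x.1.2 a), cF (N a)) +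
          (1 / 2 : ℂ) • ∑ a, (x.1.2 a : ℂ) • cF (N a) := by
      rw [Finset.sum_filter, Finset.smul_sum, Finset.smul_sum, ← Finset.sum_add_distrib]
      refine Finset.sum_congr rfl fun a _ => ?_
      rcases Int.even_or_odd' (x.1.2 a) with ⟨q, e | e⟩
      · have e1 : ¬ Odd (x.1.2 a) := by rw [e]; simp
        rw [if_neg e1, e, show (2 * q + 1) / 2 = q by omega, smul_zero, zero_add, smul_smul]
        congr 1
        push_cast
        ring
      · have e1 : Odd (x.1.2 a) := ⟨q, e⟩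
        rw [if_pos e1, e, show (2 * q + 1 + 1) / 2 = q + 1 by omega, smul_smul, ← add_smul]
        congr 1
        push_cast
        ring
    have h5 := exact_neg (⟨_, hB x, rfl⟩ : ExactTwo (B x).d)
    convert h5 using 1
    rw [h3, hFv, h4]
    abel
  choose k hk using hW
  let φ : LKm →+ (Fin n → ℤ) := AddMonoidHom.mk' k fun x y =>
    UData.HasCl.unique (W (x + y)).2.1 (W (x + y)).2.2.1 (hk _) (by
      rw [hWa]; exact (hk x).add (hk y))
  have hcF : ∀ a x, pr2 Y (c a) (F x) = 0 := fun a x =>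
    (hp Y co K a _ (hN a).toIsE).2.1 _ (F x).2.1 (F x).2.2.1
      ((hx Y co K _ (F x).2.1).2 a (by
        filter_upwards [tw_near hSt co (fun i j => 2 * Real.pi * Complex.I * (x.1.1 i j : ℂ)) a]
          with z hz hg
        exact ContinuousLinearMap.ext fun ξ => ContinuousLinearMap.ext fun η => by
          rw [hFp x z hg, hz]; rfl))
  have hFc : ∀ a x, pr2 Y (F x) (c a) = 0 := fun a x =>
    (H342.pair_comm _ _).trans (hcF a x)
  have hcc : ∀ a b, pr2 Y (c a) (c b) = if a = b then 8 * (Real.pi : ℂ) ^ 2 else 0 := fun a b => by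
    split_ifs with e
    · subst e
      exact (hp Y co K a _ (hN a).toIsE).1
    · exact (hp Y co K a _ (hN a).toIsE).2.1 _ (c b).2.1 (c b).2.2.1
        ((hx Y co K _ (c b).2.1).2 a (p2_cF_near h2 e (hN b)))
  have hsk : ∀ (x : LKm) i j, 2 * Real.pi * Complex.I * (x.1.1 i j : ℂ) =
      -(2 * Real.pi * Complex.I * (x.1.1 j i : ℂ)) := fun x i j => by
    rw [x.2.1 i j]; push_cast; ring
  have hFF : ∀ x y, pr2 Y (F x) (F y) = -(2 * Real.pi ^ 2) * ((pf x.1.1 y.1.1 : ℤ) : ℂ) :=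
    fun x y => by
      rw [pr2_apply, hq Y co K hpos _ _ (wt_deriv hSt) (wt_deriv hSt) _ _ (hsk x) (hsk y) _ _
        (F x).2.1 (F y).2.1 (hFp x) (hFp y), pf_smul, pf_cast]
      linear_combination (2 * Real.pi ^ 2 * ((pf x.1.1 y.1.1 : ℤ) : ℂ)) * Complex.I_mul_I
  have hform : ∀ x y, 2 * bil U.G (φ x) (φ y) = form2 x y := fun x y => by
    have h1 : pr2 Y (W x) (W y) = _ := pair_cl (hk x) (hk y)
    have h3 : pr2 Y (W x) (W y) = -(2 * Real.pi ^ 2) * ((form2 x y : ℤ) : ℂ) := by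
      simp only [W, map_sub, map_smul, map_sum, LinearMap.sub_apply, LinearMap.smul_apply,
        LinearMap.sum_apply, hcF, hFc, hcc, hFF, smul_eq_mul, mul_zero, Finset.sum_const_zero,
        mul_ite, Finset.sum_ite_eq', Finset.mem_univ, if_true, form2]
      push_cast
      rw [mul_sub, Finset.mul_sum, sub_zero, Finset.mul_sum]
      congr 1
      exact Finset.sum_congr rfl fun a _ => by ring
    have h4 := bil_cs U.G (k x) (k y)
    change bil U.G (fun i => (k x i : ℂ)) (fun i => (k y i : ℂ)) = _ at h4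
    rw [h3, h4] at h1
    have h5 : (2 * ((bil U.G (k x) (k y) : ℤ) : ℂ)) = ((form2 x y : ℤ) : ℂ) := by
      refine mul_left_cancel₀ (mul_ne_zero two_ne_zero (pow_ne_zero 2 hpi)) ?_
      linear_combination h1
    exact_mod_cast h5
  refine ⟨⟨AddEquiv.ofBijective φ (hi n U.G U.unit hκ φ hform), hform⟩, J, hJ, hom,
    fun a => ⟨N a, (hN a).toIsE, ?_⟩, fun s hs x => ?_⟩
  · have h1 : F (eK a) = 0 := hext _ fun z hz ξ η => by rw [hFp _ z hz]; simp [tw, eK]
    have h3 : (W (eK a)).1 = cF (N a) := by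
      have h4 : ∀ b, (((eK a).1.2 b : ℤ) : ℂ) • c b = if b = a then (-2 : ℂ) • c a else 0 := by
        intro b
        by_cases e : b = a <;> simp [eK, e]
      simp only [W, h1, h4, Finset.sum_ite_eq', Finset.mem_univ, if_true, smul_smul]
      norm_num [c]
    rw [← h3]
    exact hk _
  · have h1 : pr2 Y ⟨_, hc_of_cl hs⟩ (W x) = _ := pair_cl hs (hk x)
    have h3 : ∀ a, pr2 Y ⟨_, hc_of_cl hs⟩ (c a) = 0 := fun a => pair_om_cF _ (hN a).nf
    have h4 : pr2 Y ⟨_, hc_of_cl hs⟩ (F x) = _ :=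
      hq Y co K hpos _ _ wt_one (wt_deriv hSt) (fun i j => J * Dl co i j) _
        (fun i j => by simp only [Dl, det2]; ring) (hsk x) _ _ (hc_of_cl hs).1 (F x).2.1
        (fun z hz ξ η => by rw [tw_smul, tw_Dl]; exact hom z hz ξ η) (hFp x)
    simp only [W, map_sub, map_smul, map_sum, h3, h4, pf_smul, smul_zero, Finset.sum_const_zero,
      sub_zero] at h1
    change bil U.G s (fun i => (k x i : ℂ)) = _
    rw [div_mul_eq_mul_div, eq_div_iff
      (mul_ne_zero (mul_ne_zero (by norm_num) hpi) Complex.I_ne_zero)]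
    refine mul_left_cancel₀ hpi ?_
    linear_combination Complex.I * h1 -
      (Real.pi * J * pf (Dl co) fun i j => (x.1.1 i j : ℂ)) * Complex.I_mul_I

end Vale.Agent.P290Z.KT
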