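import Vale.Agent.P290Z.KT.Basic
import Vale.Agent.P290Z.KT.Curv

/-! P290Z, part III, block KT, step LB: equivariant vectors define line bundles. -/

open Set Filter
open scoped Topology ContDiff ComplexConjugate Matrix

noncomputable section

namespace Vale.Agent.P290Z.KT

open Vale.Agent.P290 Vale.Agent.P267
open Vale.Agent.P290.All (dir)
open Vale.Agent.P290Z.Kum (pr ph)
open CurvAux

namespace LBAux

variable {ι : Type} [Fintype ι]

theorem ip_smul (c : ℂ) (v : ι → ℂ) : ip (c • v) (c • v) = conj c * c * ip v v := by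
  simp only [ip, Pi.smul_apply, smul_eq_mul, map_mul, Finset.mul_sum]
  exact Finset.sum_congr rfl fun k _ => by ring

theorem prj_smul {c : ℂ} (hc : c ≠ 0) (v : ι → ℂ) : prj (c • v) = prj v := by
  ext i j
  have hc' : conj c * c ≠ 0 := mul_ne_zero ((map_ne_zero _).2 hc) hc
  simp only [prj, Matrix.of_apply, ip_smul, Pi.smul_apply, smul_eq_mul, map_mul]
  rw [← mul_div_mul_left (v i * conj (v j)) (ip v v) hc']
  congr 1
  ring

theorem prj_of_eq {v w : ι → ℂ} (hv : v ≠ 0) (h : ∃ c : ℂ, v = c • w) : prj v = prj w := by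
  obtain ⟨c, rfl⟩ := h
  exact prj_smul (fun e => hv (by rw [e, zero_smul])) w

theorem prj_herm (v : ι → ℂ) : (prj v)ᴴ = prj v := by
  ext i j
  have e : conj (ip v v) = ip v v := by rw [ip_self, Complex.conj_ofReal]
  change conj (v j * conj (v i) / ip v v) = v i * conj (v j) / ip v v
  rw [map_div₀, map_mul, Complex.conj_conj, e, mul_comm]

theorem prj_idem {v : ι → ℂ} (h : v ≠ 0) : prj v * prj v = prj v := by
  rw [prj_eq, Matrix.smul_mul, Matrix.mul_smul, rk1_mul, smul_smul _ (ip v v),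
    inv_mul_cancel₀ (ip_ne h), one_smul]

theorem prj_trace {v : ι → ℂ} (h : v ≠ 0) : (prj v).trace = 1 := by
  rw [prj_eq, Matrix.trace_smul, rk1_trace, smul_eq_mul, inv_mul_cancel₀ (ip_ne h)]

theorem prj_smooth {v : V → ι → ℂ} {z : V} (hv : ContDiffAt ℝ ∞ v z) (h : v z ≠ 0) (i j : ι) :
    ContDiffAt ℝ ∞ (fun y => prj (v y) i j) z := by
  have h1 : ∀ k, ContDiffAt ℝ ∞ (fun y => v y k) z := contDiffAt_pi.1 hv
  have h2 : ∀ k, ContDiffAt ℝ ∞ (fun y => conj (v y k)) z := fun k =>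
    Complex.conjCLE.contDiff.contDiffAt.comp z (h1 k)
  have h3 : ContDiffAt ℝ ∞ (fun y => ip (v y) (v y)) z :=
    ContDiffAt.sum fun k _ => (h2 k).mul (h1 k)
  exact (((h1 i).mul (h2 j)).mul (h3.inv (ip_ne h))).congr_of_eventuallyEq
    (Eventually.of_forall fun y => div_eq_mul_inv _ _)

theorem comb_ne {w w' : ι → ℂ} (h0 : w ≠ 0) (h1 : ip w w' = 0) (h2 : ip w' w' = ip w w) {d : V}
    (hd : d ≠ 0) : d.1 • w + d.2 • w' ≠ 0 := by
  intro e
  have e1 : d.1 * ip w w + d.2 * ip w w' = 0 := by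
    simp only [ip, Finset.mul_sum, ← Finset.sum_add_distrib]
    refine Finset.sum_eq_zero fun k _ => ?_
    have := congrFun e k
    simp only [Pi.add_apply, Pi.smul_apply, smul_eq_mul, Pi.zero_apply] at this
    linear_combination conj (w k) * this
  rw [h1, mul_zero, add_zero] at e1
  have e2 : d.1 = 0 := (mul_eq_zero.1 e1).resolve_right (ip_ne h0)
  rw [e2, zero_smul, zero_add] at e
  rcases smul_eq_zero.1 e with e3 | e3
  · exact hd (Prod.ext e2 e3)
  · refine ip_ne h0 ?_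
    rw [← h2, e3]
    simp [ip]

theorem dir_smooth (b : Bool) : ContDiff ℝ ∞ fun y : V => dir b y.2 := by
  cases b
  · exact contDiff_snd.prodMk contDiff_const
  · exact contDiff_const.prodMk contDiff_snd

theorem exists_W {v : V → ι → ℂ} {p : V} (h : Loc0 v p ∨ Loc1 v p) :
    ∃ W : Bool → V → ι → ℂ, (∀ b, ContDiff ℝ ∞ (W b)) ∧ (∀ b y, W b y ≠ 0) ∧
      ∀ᶠ z in 𝓝 p, ∀ b, Kum.cs b (z - p) ≠ 0 → prj (v z) = prj (W b (ph b (z - p))) := by
  rcases h with ⟨w, h0, h⟩ | ⟨w, w', h0, h1, h2, h⟩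
  · exact ⟨fun _ _ => w, fun _ => contDiff_const, fun _ _ => h0, h.mono fun z e _ _ => by rw [e]⟩
  · refine ⟨fun b y => (dir b y.2).1 • w + (dir b y.2).2 • w', fun b =>
      ((dir_smooth b).fst.smul contDiff_const).add ((dir_smooth b).snd.smul contDiff_const),
      fun b y => comb_ne h0 h1 h2 (dir_ne_zero b y.2), h.mono fun z e b hb => ?_⟩
    have e1 := Kum.smul_dir hb
    refine Eq.trans (congrArg prj ?_) (prj_smul hb _)
    rw [smul_add, smul_smul, smul_smul, e]
    exact congrArg₂ (fun s t : ℂ => s • w + t • w') (congrArg Prod.fst e1).symm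
      (congrArg Prod.snd e1).symm

end LBAux

open LBAux

theorem lb (hd : StDesc0) : StLB := by
  intro Y co K ι _ _ v hv h0 hm hn hl
  choose W w1 w2 w3 using fun a => exists_W (hl a)
  have H := fun i j => hd Y co K (fun z => prj (v z) i j) (fun a b y => prj (W a b y) i j)
    (fun z hz => prj_smooth hv.contDiffAt (h0 z hz) i j)
    (fun z m hz => by rw [prj_of_eq (h0 _ (good_add hz m)) (hm z m)])
    (fun z hz => by rw [prj_of_eq (h0 _ (good_neg hz)) (hn z)])
    (fun a b u => prj_smooth (w1 a b).contDiffAt (w2 a b _) i j)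
    (fun a => (w3 a).mono fun z h b hb => by rw [h b hb])
  choose s s1 s2 s3 using H
  have key : ∀ y, ∃ w : ι → ℂ, w ≠ 0 ∧ (Matrix.of fun i j => s i j y) = prj w := fun y => by
    rcases cover K y with ⟨z, hz, rfl⟩ | ⟨a, b, u, rfl⟩
    · exact ⟨v z, h0 z hz, Matrix.ext fun i j => s2 i j z hz⟩
    · exact ⟨W a b (0, u), w2 a b _, Matrix.ext fun i j => s3 i j a b u⟩
  refine ⟨⟨fun y => Matrix.of fun i j => s i j y, s1, fun y => ?_, fun y => ?_, fun y => ?_⟩,
    fun z hz => Matrix.ext fun i j => s2 i j z hz⟩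
  · obtain ⟨w, -, e⟩ := key y
    rw [e, prj_herm]
  · obtain ⟨w, hw, e⟩ := key y
    rw [e, prj_idem hw]
  · obtain ⟨w, hw, e⟩ := key y
    rw [e, prj_trace hw]

end Vale.Agent.P290Z.KT
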