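import Vale.Agent.P290Z.KT.Basic
import Vale.Agent.P290Z.W.H445Coh
import Vale.Agent.P267.H823.PL10

/-! P290Z, part III, block KT: the classes of the sixteen curves. -/

open Set Filter MeasureTheory
open scoped Topology Manifold ContDiff

noncomputable section

namespace Vale.Agent.P290Z.KT

open Vale.Agent.P290 Vale.Agent.P267 Vale.Agent.P290Z.W Vale.Agent.P290Z.Top
open Vale.Agent.P267.FL (TwoF)
open Vale.Agent.P267.BlockC (pair)
open Vale.Agent.P267.H332 (cF)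
open Vale.Agent.P290.H686 (val2)
open Vale.Agent.P267.H823.PL (pbC poincare_lelong_P1' adjunction_compact)

namespace PLm

variable {Y : W.K3} {co : Co} (K : All.Kummer (Lt co) Y.X) (a : F4)

theorem eq_iff (b b' : Bool) (u u' : ℂ) :
    K.N (pt co a) b (0, u) = K.N (pt co a) b' (0, u') ↔
      ∃ t : ℂ, All.dir b' u' = t • All.dir b u := by
  rw [N_curve_iff]
  simp

theorem line (h0 : StApi0) (b : Bool) (u : ℂ) :
    MDifferentiableAt 𝓘(ℂ) 𝓘(ℂ, FL.C2) (fun u : ℂ => K.N (pt co a) b (0, u)) u ∧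
      Function.Injective
        (mfderiv 𝓘(ℂ) 𝓘(ℂ, FL.C2) (fun u : ℂ => K.N (pt co a) b (0, u)) u) := by
  obtain ⟨h1, -, h2, h3⟩ := (h0 Y).1 _ _ (et_curve K a b u)
  have h4 : HasMFDerivAt 𝓘(ℂ) 𝓘(ℂ, V) (fun u : ℂ => (((0 : ℂ), u) : V)) u
      (ContinuousLinearMap.inr ℂ ℂ ℂ) :=
    (ContinuousLinearMap.inr ℂ ℂ ℂ).hasFDerivAt.hasMFDerivAt
  have h5 := HasMFDerivAt.comp (g := K.N (pt co a) b) u h2.hasMFDerivAt h4
  refine ⟨h5.mdifferentiableAt, ?_⟩
  have h6 := h5.mfderiv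
  intro x y hxy
  have h7 : mfderiv 𝓘(ℂ) 𝓘(ℂ, FL.C2) (fun u : ℂ => K.N (pt co a) b (0, u)) u = _ := h6
  rw [h7] at hxy
  have h8 : Dm (K.N (pt co a) b) (0, u) (0, x) = Dm (K.N (pt co a) b) (0, u) (0, y) := by
    rw [← h3, ← h3]
    exact hxy
  exact congrArg Prod.snd (h1.1 h8)

/-- the curve over `a` as an embedded projective line -/
def emb (h0 : StApi0) : H338.EmbP1 Y.X where
  f₀ u := K.N (pt co a) true (0, u)
  f₁ u := K.N (pt co a) false (0, u)
  holo₀ u := (line K a h0 true u).1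
  holo₁ u := (line K a h0 false u).1
  glue z hz := (eq_iff K a _ _ _ _).2 ⟨z⁻¹, by simp [All.dir, hz]⟩
  inj u u' h := by
    obtain ⟨t, ht⟩ := (eq_iff K a _ _ _ _).1 h
    simp only [All.dir, cond_true, Prod.smul_mk, smul_eq_mul, mul_one, Prod.mk.injEq] at ht
    rw [ht.2, ← ht.1, one_mul]
  ninf := by
    rintro ⟨u, h⟩
    obtain ⟨t, ht⟩ := (eq_iff K a _ _ _ _).1 h
    simp only [All.dir, cond_true, cond_false, Prod.smul_mk, smul_eq_mul, mul_one,
      Prod.mk.injEq] at ht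
    rw [← ht.1, zero_mul] at ht
    exact one_ne_zero ht.2
  imm₀ u := (line K a h0 true u).2
  imm₁ u := (line K a h0 false u).2

theorem mem_emb (h0 : StApi0) (y : Y.X) : y ∈ Cv K a ↔ y ∈ (emb K a h0).image := by
  constructor
  · rintro ⟨b, u, rfl⟩
    cases b
    · exact (emb K a h0).mem_image_f₁ u
    · exact (emb K a h0).mem_image_f₀ u
  · rintro (⟨u, rfl⟩ | rfl)
    · exact ⟨true, u, rfl⟩
    · exact ⟨false, 0, rfl⟩

variable {K a}

theorem pair_eq (h0 : StApi0) {N : Y.X → ℝ} (h : IsE K a N) {F : TwoF Y.X} (hF : F.Smooth)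
    (hc : F.Closed) : pair (cF N) F = -(4 * Real.pi) * ∫ t, pbC (emb K a h0).f₀ F t :=
  (poincare_lelong_P1' (emb K a h0) h.nf (fun y => (h.zero y).trans (mem_emb K a h0 y)) h.red
    isCompact_univ (fun x hx => absurd (mem_univ x) hx) hF hc).2

end PLm

open PLm in
/-- PL -/
theorem pl0 (h0 : StApi0) : StPL := by
  intro Y co K a N h
  refine ⟨?_, fun F hF hc hz => ?_, fun N' h' F hF hc => ?_⟩
  · have h1 := adjunction_compact (emb K a h0) h.nf
      (fun y => (h.zero y).trans (mem_emb K a h0 y)) h.red (W.H445.isCanon_OX Y)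
    have h2 : ((cF N).wedge ⟨fun _ => 0, fun _ => 0, fun _ => 0⟩) = fun _ : Y.X => (0 : ℂ) := by
      funext x
      simp [TwoF.wedge]
    rw [W.H445.curv_OX, h2, W.H445.intX_zero, zero_add] at h1
    exact h1
  · have h1 : ∀ t, pbC (emb K a h0).f₀ F t = 0 := fun t => by
      have h2 : H686.ev2 _ _ _ = 0 := hz _ ⟨true, t, rfl⟩
      have h3 : (0 : FL.C2 →L[ℝ] FL.C2 →L[ℝ] ℂ) = H686.ev2 0 0 0 := by
        ext1 v
        ext1 w
        simp [H686.ev2_apply]
      have h4 : F.f11 ((emb K a h0).f₀ t) = 0 := (H686.ev2_inj (h2.trans h3)).2.1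
      simp [pbC, h4]
    rw [pair_eq h0 h hF hc]
    simp [h1]
  · rw [pair_eq h0 h hF hc, pair_eq h0 h' hF hc]

/-- PL, with the hypotheses of the plan -/
theorem pl (h0 : StApi0) (_h1 : StApi1) (_h2 : StApi2) (_hc : StCurve) : StPL := pl0 h0

end Vale.Agent.P290Z.KT
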