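import Vale.Agent.P290Z.KT.Dom

/-! P290Z, part III, block KT: the product of two forms of product type. -/

open Set Filter MeasureTheory
open scoped Topology Manifold ContDiff

noncomputable section

namespace Vale.Agent.P290Z.KT

open Vale.Agent.P290 Vale.Agent.P267 Vale.Agent.P290Z.W
open Vale.Agent.P290Z.Kum (pr)

namespace DP

/-- the Pfaffian under a change of coordinates -/
theorem pf_chg (B B' : Fin 4 → Fin 4 → ℂ) (hB : ∀ i j, B i j = -B j i)
    (hB' : ∀ i j, B' i j = -B' j i) (M : Matrix (Fin 4) (Fin 4) ℂ) :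
    pf (fun i j => ∑ k, ∑ l, B k l * M k i * M l j)
      (fun i j => ∑ k, ∑ l, B' k l * M k i * M l j) = M.det * pf B B' := by
  have h0 : ∀ i, B i i = 0 := fun i => by linear_combination (1 / 2 : ℂ) * hB i i
  have h0' : ∀ i, B' i i = 0 := fun i => by linear_combination (1 / 2 : ℂ) * hB' i i
  have hd : M.det =
      (M 0 0 * M 1 1 - M 0 1 * M 1 0) * (M 2 2 * M 3 3 - M 2 3 * M 3 2) -
      (M 0 0 * M 1 2 - M 0 2 * M 1 0) * (M 2 1 * M 3 3 - M 2 3 * M 3 1) +
      (M 0 0 * M 1 3 - M 0 3 * M 1 0) * (M 2 1 * M 3 2 - M 2 2 * M 3 1) +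
      (M 0 1 * M 1 2 - M 0 2 * M 1 1) * (M 2 0 * M 3 3 - M 2 3 * M 3 0) -
      (M 0 1 * M 1 3 - M 0 3 * M 1 1) * (M 2 0 * M 3 2 - M 2 2 * M 3 0) +
      (M 0 2 * M 1 3 - M 0 3 * M 1 2) * (M 2 0 * M 3 1 - M 2 1 * M 3 0) := by
    rw [Matrix.det_succ_row_zero]
    simp only [Fin.sum_univ_four, Matrix.det_fin_three, Matrix.submatrix_apply]
    simp [Fin.succAbove]
    ring
  simp only [hd, pf, Fin.sum_univ_four, h0, h0', hB 1 0, hB 2 0, hB 3 0, hB 2 1, hB 3 1, hB 3 2,
    hB' 1 0, hB' 2 0, hB' 3 0, hB' 2 1, hB' 3 1, hB' 3 2]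
  ring

/-- the sides of the fundamental domain -/
def side (i : Fin 4) : Set ℝ := Ioo 0 (if i = 0 then 1 / 2 else 1)

theorem fd_eq (co : Co) : Fd co = co ⁻¹' univ.pi side := by
  ext z
  simp [Fd, side, Fin.forall_fin_succ]

theorem int_side {g : ℝ → ℝ} (h : Wt g) (i : Fin 4) :
    IntegrableOn (fun s => (g s : ℂ)) (side i) ∧
      ∫ s in side i, (g s : ℂ) = if i = 0 then 1 / 2 else 1 := by
  refine ⟨(Complex.continuous_ofReal.comp h.1).integrableOn_Icc.mono_set Ioo_subset_Icc_self, ?_⟩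
  rw [integral_complex_ofReal, side, ← integral_Ioc_eq_integral_Ioo,
    ← intervalIntegral.integral_of_le (by split_ifs <;> norm_num)]
  split_ifs
  · rw [h.2.1]
    norm_num
  · rw [h.2.2]
    norm_num

theorem int_box {g0 g1 g2 g3 : ℝ → ℝ} (h0 : Wt g0) (h1 : Wt g1) (h2 : Wt g2) (h3 : Wt g3) (c : ℂ) :
    IntegrableOn (fun t : R4 => c * (g0 (t 0) * g1 (t 1) * g2 (t 2) * g3 (t 3))) (univ.pi side) ∧
      ∫ t : R4 in univ.pi side, c * (g0 (t 0) * g1 (t 1) * g2 (t 2) * g3 (t 3)) = c / 2 := by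
  have h : ∀ i, Wt (![g0, g1, g2, g3] i) := fun i => by fin_cases i <;> assumption
  have e : ∀ t : R4, (g0 (t 0) * g1 (t 1) * g2 (t 2) * g3 (t 3) : ℂ) =
      ∏ i, (![g0, g1, g2, g3] i (t i) : ℂ) := fun t => by simp [Fin.prod_univ_four]
  have e' : (volume : Measure R4).restrict (univ.pi side) =
      Measure.pi fun i => volume.restrict (side i) := Measure.restrict_pi_pi _ _
  simp only [e, IntegrableOn, e']
  refine ⟨(Integrable.fintype_prod (f := fun i s => (![g0, g1, g2, g3] i s : ℂ))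
    fun i => (int_side (h i) i).1).const_mul c, ?_⟩
  rw [integral_const_mul, integral_fintype_prod_eq_prod fun i s => (![g0, g1, g2, g3] i s : ℂ),
    Finset.prod_congr rfl fun i _ => (int_side (h i) i).2]
  simp [div_eq_mul_inv]

theorem int_pf {g g' : ℝ → ℝ} (hg : Wt g) (hg' : Wt g') (A A' : Fin 4 → Fin 4 → ℂ) :
    ∫ t : R4 in univ.pi side, pf (fun i j => A i j * g (t i) * g (t j))
      (fun i j => A' i j * g' (t i) * g' (t j)) = pf A A' / 2 := by
  have h1 := int_box hg hg hg' hg' (A 0 1 * A' 2 3)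
  have h2 := int_box hg' hg' hg hg (A 2 3 * A' 0 1)
  have h3 := int_box hg hg' hg hg' (A 0 2 * A' 1 3)
  have h4 := int_box hg' hg hg' hg (A 1 3 * A' 0 2)
  have h5 := int_box hg hg' hg' hg (A 0 3 * A' 1 2)
  have h6 := int_box hg' hg hg hg' (A 1 2 * A' 0 3)
  have e : ∀ t : R4, pf (fun i j => A i j * g (t i) * g (t j))
      (fun i j => A' i j * g' (t i) * g' (t j)) =
      A 0 1 * A' 2 3 * (g (t 0) * g (t 1) * g' (t 2) * g' (t 3)) +
      A 2 3 * A' 0 1 * (g' (t 0) * g' (t 1) * g (t 2) * g (t 3)) -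
      A 0 2 * A' 1 3 * (g (t 0) * g' (t 1) * g (t 2) * g' (t 3)) -
      A 1 3 * A' 0 2 * (g' (t 0) * g (t 1) * g' (t 2) * g (t 3)) +
      A 0 3 * A' 1 2 * (g (t 0) * g' (t 1) * g' (t 2) * g (t 3)) +
      A 1 2 * A' 0 3 * (g' (t 0) * g (t 1) * g (t 2) * g' (t 3)) := fun t => by
    simp only [pf]
    ring
  have add : ∀ {f f' : R4 → ℂ} {a a' : ℂ},
      (IntegrableOn f (univ.pi side) ∧ ∫ t in univ.pi side, f t = a) →
      (IntegrableOn f' (univ.pi side) ∧ ∫ t in univ.pi side, f' t = a') →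
      IntegrableOn (fun t => f t + f' t) (univ.pi side) ∧
        ∫ t in univ.pi side, (f t + f' t) = a + a' :=
    fun h h' => ⟨h.1.add h'.1, by rw [integral_add h.1 h'.1, h.2, h'.2]⟩
  have sub : ∀ {f f' : R4 → ℂ} {a a' : ℂ},
      (IntegrableOn f (univ.pi side) ∧ ∫ t in univ.pi side, f t = a) →
      (IntegrableOn f' (univ.pi side) ∧ ∫ t in univ.pi side, f' t = a') →
      IntegrableOn (fun t => f t - f' t) (univ.pi side) ∧
        ∫ t in univ.pi side, (f t - f' t) = a - a' :=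
    fun h h' => ⟨h.1.sub h'.1, by rw [integral_sub h.1 h'.1, h.2, h'.2]⟩
  simp only [e]
  rw [(add (add (sub (sub (add h1 h2) h3) h4) h5) h6).2, pf]
  ring

theorem pf_tw (co : Co) (g g' : ℝ → ℝ) {A A' : Fin 4 → Fin 4 → ℂ} (hA : ∀ i j, A i j = -A j i)
    (hA' : ∀ i j, A' i j = -A' j i) (z : V) :
    pf (fun i j => tw co g A z (bs i) (bs j)) (fun i j => tw co g' A' z (bs i) (bs j)) =
      ((Matrix.of fun i j => co (bs j) i).det : ℝ) *
        pf (fun i j => A i j * g (co z i) * g (co z j))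
          fun i j => A' i j * g' (co z i) * g' (co z j) := by
  have h : ∀ (g : ℝ → ℝ) (A : Fin 4 → Fin 4 → ℂ), (fun i j => tw co g A z (bs i) (bs j)) =
      fun i j => ∑ k, ∑ l, A k l * g (co z k) * g (co z l) *
        Complex.ofRealHom.mapMatrix (Matrix.of fun i j => co (bs j) i) k i *
        Complex.ofRealHom.mapMatrix (Matrix.of fun i j => co (bs j) i) l j := by
    intro g A
    funext i j
    refine Finset.sum_congr rfl fun k _ => Finset.sum_congr rfl fun l _ => ?_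
    simp
    ring
  rw [h, h, pf_chg _ _ (fun i j => by rw [hA i j]; ring) (fun i j => by rw [hA' i j]; ring),
    ← RingHom.map_det]
  rfl

end DP

open DP

/-- PAIR -/
theorem pairK (hi : StInt) (hd : StDom) : StPair := by
  intro Y co K hp g g' hg hg' A A' hA hA' F F' hF hF' h h'
  obtain ⟨h1, h2, h3, h4⟩ := hd Y co K
  rw [hi Y (pr K) (Fd co) h1 (fun z hz => etale_pr K (h2 z hz)) h3 h4 F F' hF hF',
    setIntegral_congr_fun h1.measurableSet (g := fun z =>
      ((Matrix.of fun i j => co (bs j) i).det : ℝ) *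
        pf (fun i j => A i j * g (co z i) * g (co z j))
          fun i j => A' i j * g' (co z i) * g' (co z j))
      fun z hz => by simp only [h z (h2 z hz), h' z (h2 z hz), pf_tw co g g' hA hA']]
  have h5 := co.toHomeomorph.measurableEmbedding.setIntegral_map (μ := volume)
    (fun t : R4 => pf (fun i j => A i j * g (t i) * g (t j))
      fun i j => A' i j * g' (t i) * g' (t j)) (univ.pi side)
  have h6 : (co.toHomeomorph : V → R4) = co := rfl
  rw [h6, map_co, Measure.restrict_smul, integral_smul_measure, int_pf hg hg',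
    ENNReal.toReal_ofReal (abs_nonneg _), abs_of_pos (inv_pos.2 hp), Complex.real_smul] at h5
  rw [integral_const_mul, fd_eq, ← h5, ← mul_assoc, ← Complex.ofReal_mul,
    mul_inv_cancel₀ (det_co_ne co), Complex.ofReal_one, one_mul]

end Vale.Agent.P290Z.KT
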