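import Vale.Agent.P290Z.KT.Spec
import Vale.Agent.P290Z.Orb.Basic

/-! P290Z, part III, block KT: maps which preserve the periods or the form. -/

set_option linter.all false

open Matrix

noncomputable section

namespace Vale.Agent.P290Z.KT

open Vale.Agent.P290.H726 (bil)

namespace PerA

theorem det4 {R : Type} [CommRing R] (M : Matrix (Fin 4) (Fin 4) R) : M.det =
    (M 0 0 * M 1 1 - M 1 0 * M 0 1) * (M 2 2 * M 3 3 - M 3 2 * M 2 3) -
    (M 0 0 * M 2 1 - M 2 0 * M 0 1) * (M 1 2 * M 3 3 - M 3 2 * M 1 3) +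
    (M 0 0 * M 3 1 - M 3 0 * M 0 1) * (M 1 2 * M 2 3 - M 2 2 * M 1 3) +
    (M 1 0 * M 2 1 - M 2 0 * M 1 1) * (M 0 2 * M 3 3 - M 3 2 * M 0 3) -
    (M 1 0 * M 3 1 - M 3 0 * M 1 1) * (M 0 2 * M 2 3 - M 2 2 * M 0 3) +
    (M 2 0 * M 3 1 - M 3 0 * M 2 1) * (M 0 2 * M 1 3 - M 1 2 * M 0 3) := by
  rw [Matrix.det_succ_row_zero]
  simp [Fin.sum_univ_four, Matrix.det_fin_three, Fin.succAbove]
  ring

/-- the polarised Pfaffian under a change of the basis -/
theorem pf_conj (M X Y : Matrix (Fin 4) (Fin 4) ℂ) (hX : ∀ i j, X i j = -X j i)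
    (hY : ∀ i j, Y i j = -Y j i) : pf (Mᵀ * X * M) (Mᵀ * Y * M) = M.det * pf X Y := by
  have key : ∀ X : Matrix (Fin 4) (Fin 4) ℂ, (∀ i j, X i j = -X j i) → ∀ i j, (Mᵀ * X * M) i j =
      X 0 1 * (M 0 i * M 1 j - M 1 i * M 0 j) + X 0 2 * (M 0 i * M 2 j - M 2 i * M 0 j) +
      X 0 3 * (M 0 i * M 3 j - M 3 i * M 0 j) + X 1 2 * (M 1 i * M 2 j - M 2 i * M 1 j) +
      X 1 3 * (M 1 i * M 3 j - M 3 i * M 1 j) + X 2 3 * (M 2 i * M 3 j - M 3 i * M 2 j) := by
    intro X h i j
    have h0 : ∀ i, X i i = 0 := fun i => by linear_combination (1 / 2) * h i i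
    simp only [Matrix.mul_apply, transpose_apply, Fin.sum_univ_four, h0, h 1 0, h 2 0, h 3 0, h 2 1,
      h 3 1, h 3 2]
    ring
  simp only [pf, key X hX, key Y hY, det4]
  ring

theorem skew_conj {R : Type} [CommRing R] (M X : Matrix (Fin 4) (Fin 4) R)
    (hX : ∀ i j, X i j = -X j i) (i j : Fin 4) : (Mᵀ * X * M) i j = -(Mᵀ * X * M) j i := by
  have h : Xᵀ = -X := Matrix.ext fun i j => hX j i
  have h1 : (Mᵀ * X * M)ᵀ = -(Mᵀ * X * M) := by
    rw [transpose_mul, transpose_mul, transpose_transpose, h, Matrix.neg_mul, Matrix.mul_neg,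
      Matrix.mul_assoc]
  exact congrFun (congrFun h1 j) i

/-- twice a skew matrix -/
def two (A : Matrix (Fin 4) (Fin 4) ℤ) (h : ∀ i j, A i j = -A j i) : LKm :=
  ⟨(fun i j => 2 * A i j, 0), fun i j => by
    change 2 * A i j = -(2 * A j i)
    rw [h i j, mul_neg], fun a b => by
    have h2 : (2 : ZMod 2) = 0 := rfl
    simp [h2]⟩

theorem eq_of_pf {X Y : Fin 4 → Fin 4 → ℂ} (hX : ∀ i j, X i j = -X j i) (hY : ∀ i j, Y i j = -Y j i)
    (h : ∀ B : Matrix (Fin 4) (Fin 4) ℤ, (∀ i j, B i j = -B j i) →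
      pf X (fun i j => (B i j : ℂ)) = pf Y fun i j => (B i j : ℂ)) : X = Y := by
  have key := fun k l : Fin 4 => h (Matrix.of fun i j =>
    (if k = i ∧ l = j then 1 else 0) - if k = j ∧ l = i then 1 else 0) fun i j => by
      simp only [of_apply]; ring
  have h0 : ∀ i, X i i = 0 := fun i => by linear_combination (1 / 2) * hX i i
  have h1 : ∀ i, Y i i = 0 := fun i => by linear_combination (1 / 2) * hY i i
  have a01 := key 2 3
  have a02 := key 1 3
  have a03 := key 1 2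
  have a12 := key 0 3
  have a13 := key 0 2
  have a23 := key 0 1
  simp [pf] at a01 a02 a03 a12 a13 a23
  funext i j
  fin_cases i <;> fin_cases j <;>
    simp [h0, h1, hX 1 0, hX 2 0, hX 3 0, hX 2 1, hX 3 1, hX 3 2, hY 1 0, hY 2 0, hY 3 0, hY 2 1,
      hY 3 1, hY 3 2, a01, a02, a03, a12, a13, a23]

theorem det2_skew (x y : V) : det2 x y = -det2 y x := by
  unfold det2
  ring

theorem eq_sum (co : Co) (x : V) : x = ∑ i, co x i • lv co i := by
  apply co.injective
  funext j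
  simp [lv, map_sum, Pi.single_apply, Finset.sum_apply]

theorem det2_sum (a b : Fin 4 → ℝ) (u v : Fin 4 → V) :
    det2 (∑ i, a i • u i) (∑ j, b j • v j) = ∑ i, ∑ j, (a i : ℂ) * det2 (u i) (v j) * b j := by
  simp only [det2, Fin.sum_univ_four, Prod.fst_add, Prod.snd_add, Prod.smul_fst, Prod.smul_snd,
    Complex.real_smul]
  ring

theorem eq_zero_of_det2 {x : V} (h : ∀ y, det2 x y = 0) : x = 0 := by
  have h1 := h (0, 1)
  have h2 := h (1, 0)
  simp [det2] at h1 h2
  exact Prod.ext h1 h2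

end PerA

open PerA

theorem per : StPer := by
  intro co co' J J' M ε hJ hJ' hM hε H
  obtain ⟨Mc, hMc⟩ : ∃ Mc : Matrix (Fin 4) (Fin 4) ℂ, Mc = M.map (Int.castRingHom ℂ) := ⟨_, rfl⟩
  have hd : Mc.det = 1 := by
    rw [hMc, ← RingHom.mapMatrix_apply, ← RingHom.map_det, hM, map_one]
  have hN : M.adjugate * M = 1 := by rw [adjugate_mul, hM, one_smul]
  have hN' : M * M.adjugate = 1 := by rw [mul_adjugate, hM, one_smul]
  have sD : ∀ co : Co, ∀ i j, Dl co i j = -Dl co j i := fun co i j => det2_skew _ _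
  have E : (fun i j => ε * J * Dl co i j) =
      fun i j => J' * (Mcᵀ * Matrix.of (Dl co') * Mc) i j := by
    refine eq_of_pf (fun i j => by rw [sD co i j, mul_neg])
      (fun i j => by rw [skew_conj Mc (Matrix.of (Dl co')) (sD co') i j, mul_neg]) fun B hB => ?_
    obtain ⟨A, hA⟩ : ∃ A, A = M.adjugateᵀ * B * M.adjugate := ⟨_, rfl⟩
    have sA : ∀ i j, A i j = -A j i := hA ▸ skew_conj _ B hB
    have eB : Mᵀ * A * M = B := by
      rw [hA, Matrix.mul_assoc, Matrix.mul_assoc, hN, Matrix.mul_one, ← Matrix.mul_assoc,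
        ← transpose_mul, hN, transpose_one, Matrix.one_mul]
    have h1 := H (two A sA)
    have h2 : ∀ i j, ∑ k, ∑ l, M k i * (two A sA).1.1 k l * M l j = 2 * B i j := fun i j => by
      rw [← eB]
      simp only [two, Matrix.mul_apply, transpose_apply, Fin.sum_univ_four]
      ring
    have h3 := pf_conj Mc (Matrix.of (Dl co')) (A.map (Int.castRingHom ℂ)) (sD co') fun i j => by
      simp only [map_apply]
      rw [sA i j, map_neg]
    have h4 : Mcᵀ * A.map (Int.castRingHom ℂ) * Mc = B.map (Int.castRingHom ℂ) := by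
      rw [← eB, Matrix.map_mul, Matrix.map_mul, hMc, transpose_map]
    rw [h4, hd, one_mul] at h3
    simp only [h2] at h1
    simp only [pf, two, map_apply, of_apply, eq_intCast, Int.cast_mul, Int.cast_ofNat] at h1 h3 ⊢
    linear_combination (1 / 2) * h1 - J' * h3
  let g : V →ₗ[ℝ] V := co'.symm.toLinearEquiv.toLinearMap ∘ₗ
    (M.map (Int.castRingHom ℝ)).mulVecLin ∘ₗ co.toLinearEquiv.toLinearMap
  have g0 : ∀ x, g x = co'.symm (M.map (Int.castRingHom ℝ) *ᵥ co x) := fun _ => rfl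
  have g1 : ∀ j, g (lv co j) = lp co' fun i => M i j := fun j => by
    rw [g0, lv, co.apply_symm_apply, lp, mulVec_single_one]
    rfl
  have g2 : ∀ j, g (lv co j) = ∑ i, (M i j : ℝ) • lv co' i := fun j => by
    rw [g1, eq_sum co' (lp co' _), lp, co'.apply_symm_apply]
  have gs : Function.Surjective g := fun y =>
    ⟨co.symm (M.adjugate.map (Int.castRingHom ℝ) *ᵥ co' y), by
      rw [g0, co.apply_symm_apply, mulVec_mulVec, ← Matrix.map_mul, hN',
        Matrix.map_one _ (map_zero _) (map_one _), one_mulVec, co'.symm_apply_apply]⟩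
  have g3 : ∀ i j, J' * det2 (g (lv co i)) (g (lv co j)) = ε * J * Dl co i j := fun i j => by
    rw [congrFun (congrFun E i) j, g2, g2, det2_sum, hMc]
    simp only [Matrix.mul_apply, transpose_apply, map_apply, of_apply, eq_intCast, Dl,
      Complex.ofReal_intCast, Finset.sum_mul]
    rw [Finset.sum_comm]
  have g4 : ∀ x y, J' * det2 (g x) (g y) = ε * J * det2 x y := fun x y => by
    rw [eq_sum co x, eq_sum co y, map_sum, map_sum]
    simp only [map_smul, det2_sum, Finset.mul_sum]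
    refine Finset.sum_congr rfl fun i _ => Finset.sum_congr rfl fun j _ => ?_
    have := g3 i j
    rw [Dl] at this
    linear_combination ((co x i : ℝ) : ℂ) * ((co y j : ℝ) : ℂ) * this
  have g5 : ∀ (c : ℂ) (x : V), g (c • x) = c • g x := fun c x => by
    refine sub_eq_zero.1 (eq_zero_of_det2 fun y => ?_)
    obtain ⟨y, rfl⟩ := gs y
    have h1 := g4 (c • x) y
    have h2 := g4 x y
    refine mul_left_cancel₀ hJ' ?_
    simp only [det2, Prod.fst_sub, Prod.snd_sub, Prod.smul_fst, Prod.smul_snd, smul_eq_mul] at h1 h2 ⊢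
    linear_combination h1 - c * h2
  have hε0 : (ε : ℂ) ≠ 0 := by rcases hε with rfl | rfl <;> simp
  have gi : Function.Injective g := (injective_iff_map_eq_zero g).2 fun x hx =>
    eq_zero_of_det2 fun y => by
      have h1 := g4 x y
      rw [hx] at h1
      simp only [det2, Prod.fst_zero, Prod.snd_zero, zero_mul, sub_self, mul_zero] at h1
      exact (mul_eq_zero.1 h1.symm).resolve_left (mul_ne_zero hε0 hJ)
  let k : V →ₗ[ℂ] V := { toFun := g, map_add' := g.map_add, map_smul' := g5 }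
  exact ⟨(LinearEquiv.ofBijective k ⟨gi, gs⟩).toContinuousLinearEquiv, g1, g4⟩

theorem iso : StIso := by
  rintro n G hG ⟨κ⟩ φ hφ
  let ψ : (Fin n → ℤ) →ₗ[ℤ] (Fin n → ℤ) := (φ.comp κ.φ.symm.toAddMonoidHom).toIntLinearMap
  have h0 : ∀ x, LinearMap.toMatrix' ψ *ᵥ x = φ (κ.φ.symm x) := fun x =>
    LinearMap.toMatrix'_mulVec ψ x
  have h1 : Orb.Isom G (LinearMap.toMatrix' ψ) := Orb.isom_of hG fun x y => by
    have h2 := κ.form (κ.φ.symm x) (κ.φ.symm y)
    rw [κ.φ.apply_symm_apply, κ.φ.apply_symm_apply, ← hφ] at h2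
    rw [h0, h0]
    omega
  obtain ⟨g, -, g1, g2⟩ := h1.inv
  have h3 : Function.Bijective fun x => LinearMap.toMatrix' ψ *ᵥ x :=
    Function.bijective_iff_has_inverse.2 ⟨fun x => g *ᵥ x,
      fun x => (mulVec_mulVec _ _ _).trans (by rw [g1, one_mulVec]),
      fun x => (mulVec_mulVec _ _ _).trans (by rw [g2, one_mulVec])⟩
  have h4 : ⇑φ = (fun x => LinearMap.toMatrix' ψ *ᵥ x) ∘ κ.φ := funext fun x => by
    rw [Function.comp_apply, h0, κ.φ.symm_apply_apply]
  rw [h4]
  exact h3.comp κ.φ.bijective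

end Vale.Agent.P290Z.KT
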