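import Vale.Agent.P290Z.KT.Basic

/-! P290Z, part III, block KT: symmetric sections of the bundles of Appell and Humbert. -/

open Set Filter
open scoped Topology ContDiff ComplexConjugate

noncomputable section

namespace Vale.Agent.P290Z.KT

namespace Sec

/-! ### functions of one variable -/

section one

variable {St : ℝ → ℝ} (h : Stair St)
include h

theorem st_half (k : ℤ) (s : ℝ) : St (s + k / 2) = St s + k / 2 := by
  induction k using Int.induction_on generalizing s with
  | zero => simp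
  | succ k ih =>
    have := h.half (s + (k : ℤ) / 2)
    rw [ih] at this
    push_cast at this ⊢
    rw [show s + ((k : ℝ) + 1) / 2 = s + k / 2 + 1 / 2 by ring, this]
    ring
  | pred k ih =>
    have h1 := h.half (s + (-(k : ℝ) - 1) / 2)
    have h2 := ih s
    push_cast at h2 ⊢
    rw [show s + (-(k : ℝ) - 1) / 2 + 1 / 2 = s + -k / 2 by ring, h2] at h1
    linarith

theorem st_int (k : ℤ) (s : ℝ) : St (s + k) = St s + k := by
  have := st_half h (2 * k) s
  push_cast at this
  rwa [mul_div_cancel_left₀ _ two_ne_zero] at this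

omit h in
/-- the staircase with integral steps -/
def S1 (St : ℝ → ℝ) (s : ℝ) : ℝ := 2 * St (s / 2)

theorem S1_int (k : ℤ) (s : ℝ) : S1 St (s + k) = S1 St s + k := by
  rw [S1, S1, add_div, st_half h]
  ring

theorem S1_neg (s : ℝ) : S1 St (-s) = -S1 St s := by
  rw [S1, S1, neg_div, h.odd]
  ring

theorem S1_near (k : ℤ) {s : ℝ} (hs : |s - k| ≤ 1 / 4) : S1 St s = k := by
  have := S1_int h k (s - k)
  rw [sub_add_cancel, S1, S1, h.zero ((s - k) / 2) (by rw [abs_div, abs_two]; linarith)] at this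
  rw [S1, this]
  ring

theorem S1_smooth : ContDiff ℝ ∞ (S1 St) :=
  contDiff_const.mul (h.smooth.comp (contDiff_id.div_const 2))

omit h in
/-- the periodic bump function -/
def bp (St : ℝ → ℝ) (s : ℝ) : ℝ := expNegInvGlue (Real.cos (2 * Real.pi * S1 St s))

omit h in
/-- the nearest integer on the support of the bump function -/
def rd (St : ℝ → ℝ) (s : ℝ) : ℝ := S1 St (S1 St s)

theorem bp_smooth : ContDiff ℝ ∞ (bp St) :=
  expNegInvGlue.contDiff.comp (Real.contDiff_cos.comp (contDiff_const.mul (S1_smooth h)))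

theorem rd_smooth : ContDiff ℝ ∞ (rd St) := (S1_smooth h).comp (S1_smooth h)

theorem bp_int (k : ℤ) (s : ℝ) : bp St (s + k) = bp St s := by
  rw [bp, bp, S1_int h, mul_add, mul_comm (2 * Real.pi) (k : ℝ), Real.cos_add_int_mul_two_pi]

theorem bp_neg (s : ℝ) : bp St (-s) = bp St s := by
  rw [bp, bp, S1_neg h, mul_neg, Real.cos_neg]

theorem rd_int (k : ℤ) (s : ℝ) : rd St (s + k) = rd St s + k := by
  rw [rd, rd, S1_int h, S1_int h]

theorem rd_neg (s : ℝ) : rd St (-s) = -rd St s := by rw [rd, rd, S1_neg h, S1_neg h]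

theorem bp_near (k : ℤ) {s : ℝ} (hs : |s - k| ≤ 1 / 4) : bp St s ≠ 0 := by
  rw [bp, S1_near h k hs, mul_comm (2 * Real.pi) (k : ℝ), Real.cos_int_mul_two_pi]
  exact (expNegInvGlue.pos_of_pos one_pos).ne'

theorem bp_half : bp St (1 / 2) = 0 := by
  have h1 := S1_int h 1 (-(1 / 2))
  rw [S1_neg h, show -(1 / 2 : ℝ) + (1 : ℤ) = 1 / 2 by norm_num] at h1
  rw [bp, show 2 * Real.pi * S1 St (1 / 2) = Real.pi by
    rw [show S1 St (1 / 2) = 1 / 2 by push_cast at h1; linarith]; ring, Real.cos_pi]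
  exact expNegInvGlue.zero_of_nonpos (by norm_num)

theorem rd_mem {s : ℝ} (hs : bp St s ≠ 0) : ∃ k : ℤ, rd St s = k := by
  refine ⟨round (S1 St s), S1_near h _ (not_lt.1 fun h1 => hs ?_)⟩
  have h2 := abs_sub_round (S1 St s)
  refine expNegInvGlue.zero_of_nonpos ?_
  rw [← Real.cos_sub_int_mul_two_pi _ (round (S1 St s)), mul_comm (round (S1 St s) : ℝ), ← mul_sub,
    ← Real.cos_abs, abs_mul, abs_of_pos Real.two_pi_pos]
  exact Real.cos_nonpos_of_pi_div_two_le_of_le (by nlinarith [Real.pi_pos])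
    (by nlinarith [Real.pi_pos])

theorem bp_cover (s : ℝ) : ∃ a : ZMod 2, bp St (s - (a.val : ℝ) / 2) ≠ 0 := by
  have h2 := abs_le.1 (abs_sub_round s)
  by_cases h1 : |s - round s| ≤ 1 / 4
  · exact ⟨0, bp_near h (round s) (by simpa using h1)⟩
  · refine ⟨1, ?_⟩
    rw [show ((1 : ZMod 2).val : ℝ) = 1 by norm_num [ZMod.val_one]]
    rcases lt_abs.1 (not_le.1 h1) with h3 | h3
    · exact bp_near h (round s) (abs_le.2 ⟨by linarith, by linarith⟩)
    · exact bp_near h (round s - 1) (abs_le.2 ⟨by push_cast; linarith, by push_cast; linarith⟩)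

theorem bp_ne {a b : ZMod 2} (hne : a ≠ b) : bp St ((a.val : ℝ) / 2 - (b.val : ℝ) / 2) = 0 := by
  have h0 : ((0 : ZMod 2).val : ℝ) = 0 := by norm_num
  have h1 : ((1 : ZMod 2).val : ℝ) = 1 := by norm_num [ZMod.val_one]
  have : (a = 0 ∧ b = 1) ∨ (a = 1 ∧ b = 0) := by revert a b; decide
  rcases this with ⟨rfl, rfl⟩ | ⟨rfl, rfl⟩
  · rw [h0, h1, zero_div, zero_sub, bp_neg h, bp_half h]
  · rw [h0, h1, zero_div, sub_zero, bp_half h]

end one

/-! ### the phase -/

/-- the exponential -/
def E (t : ℝ) : ℂ := Complex.exp (Real.pi * Complex.I * t)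

theorem E_add (s t : ℝ) : E (s + t) = E s * E t := by
  rw [E, E, E, ← Complex.exp_add]
  push_cast
  ring_nf

theorem E_even (k : ℤ) : E (2 * k) = 1 := by
  rw [E, ← Complex.exp_int_mul_two_pi_mul_I k]
  push_cast
  ring_nf

theorem E_one : E 1 = -1 := by rw [E, Complex.ofReal_one, mul_one, Complex.exp_pi_mul_I]

theorem E_ne (t : ℝ) : E t ≠ 0 := Complex.exp_ne_zero _

theorem E_smooth : ContDiff ℝ ∞ E := (contDiff_const.mul Complex.ofRealCLM.contDiff).cexp

variable {R : Type} [CommRing R]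

/-- the upper triangular part of the form -/
def up (A : Fin 4 → Fin 4 → ℤ) (x y : Fin 4 → R) : R :=
  A 0 1 * x 0 * y 1 + A 0 2 * x 0 * y 2 + A 0 3 * x 0 * y 3 + A 1 2 * x 1 * y 2 +
    A 1 3 * x 1 * y 3 + A 2 3 * x 2 * y 3

/-- a linear form -/
def ln (c : Fin 4 → ℤ) (y : Fin 4 → R) : R := c 0 * y 0 + c 1 * y 1 + c 2 * y 2 + c 3 * y 3

/-- the quadratic function -/
def qq (A : Fin 4 → Fin 4 → ℤ) (c : Fin 4 → ℤ) (y : Fin 4 → R) : R := up A y y + ln c y

/-- the skew form -/
def sk (A : Fin 4 → Fin 4 → ℤ) (x y : Fin 4 → R) : R := up A x y - up A y x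

/-- the phase -/
def ph (A : Fin 4 → Fin 4 → ℤ) (c : Fin 4 → ℤ) (α r T : R4) : ℝ :=
  qq A c r + sk A (r + α) T - sk A α r

theorem sum_sk {A : Fin 4 → Fin 4 → ℤ} (hA : ∀ i j, A i j = -A j i) (x y : Fin 4 → R) :
    ∑ i, ∑ j, x i * (A i j : R) * y j = sk A x y := by
  have h0 : ∀ i, A i i = 0 := fun i => by have := hA i i; omega
  simp only [Fin.sum_univ_four, h0, hA 1 0, hA 2 0, hA 3 0, hA 2 1, hA 3 1, hA 3 2, sk, up]
  push_cast
  ring

theorem ph_add (A : Fin 4 → Fin 4 → ℤ) (c : Fin 4 → ℤ) (α T : R4) (k m : Fin 4 → ℤ) :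
    ph A c α (fun i => k i + m i) (fun i => T i + m i) = ph A c α (fun i => k i) T +
      (qq A c (fun i => (m i : ℝ)) + sk A (fun i => (m i : ℝ)) T) + 2 * ((up A k m : ℤ) : ℝ) := by
  simp only [ph, qq, sk, up, ln, Pi.add_apply]
  push_cast
  ring

theorem ph_neg (A : Fin 4 → Fin 4 → ℤ) (c : Fin 4 → ℤ) (T : R4) (k a : Fin 4 → ℤ) :
    ph A c (fun i => a i / 2) (fun i => -k i + (-a i : ℤ)) (-T) =
      ph A c (fun i => a i / 2) (fun i => k i) T + ((qq A c a : ℤ) : ℝ) +
        2 * ((up A a k - ln c k - ln c a : ℤ) : ℝ) := by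
  simp only [ph, qq, sk, up, ln, Pi.add_apply, Pi.neg_apply]
  push_cast
  ring

/-- the linear coefficients -/
def cf (x : LKm) (i : Fin 4) : ℤ := x.1.2 (Pi.single i 1) + x.1.2 0

theorem par (x : LKm) (a : F4) :
    Even (qq x.1.1 (cf x) (fun i => ((a i).val : ℤ)) + x.1.2 a + x.1.2 0) := by
  have two : (2 : ZMod 2) = 0 := rfl
  have h : ∀ a b : F4, (x.1.2 (a + b) : ZMod 2) = x.1.2 a + x.1.2 b + x.1.2 0 + sk x.1.1 a b :=
    fun a b => by
      have := x.2.2 a b
      rw [sum_sk x.2.1] at this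
      push_cast at this
      linear_combination this - (x.1.2 a + x.1.2 b + x.1.2 0 : ZMod 2) * two
  have hs : ∀ (i : Fin 4) (t : ZMod 2),
      (x.1.2 (Pi.single i t) : ZMod 2) = cf x i * t + x.1.2 0 := fun i t => by
    have : t = 0 ∨ t = 1 := by revert t; decide
    rcases this with rfl | rfl
    · rw [Pi.single_zero, mul_zero, zero_add]
    · rw [cf]
      push_cast
      linear_combination -(x.1.2 0 : ZMod 2) * two
  have e : (x.1.2 a : ZMod 2) = x.1.2 ((Pi.single 0 (a 0) : F4) + (Pi.single 1 (a 1) : F4) +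
      (Pi.single 2 (a 2) : F4) + (Pi.single 3 (a 3) : F4)) := by rw [← Fin.sum_univ_four fun i => (Pi.single i (a i) : F4),
        Finset.univ_sum_single]
  rw [h, h, h, hs, hs, hs, hs] at e
  have e1 : (x.1.2 a : ZMod 2) = qq x.1.1 (cf x) a + 7 * x.1.2 0 := by
    rw [e]
    simp [qq, sk, up, ln]
    ring
  have e2 : ((qq x.1.1 (cf x) fun i => ((a i).val : ℤ) : ℤ) : ZMod 2) = qq x.1.1 (cf x) a := by
    simp [qq, up, ln]
  rw [← ZMod.intCast_eq_zero_iff_even, Int.cast_add, Int.cast_add, e1, e2]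
  linear_combination (qq x.1.1 (cf x) a + 4 * x.1.2 0 : ZMod 2) * two

/-! ### the sections -/

variable (St : ℝ → ℝ) (x : LKm) (co : Co)

/-- the point of order two in coordinates -/
def al (a : F4) : R4 := fun i => (((a i).val : ℤ) : ℝ) / 2

/-- the local section near the points over `a` -/
def sc (a : F4) (T : R4) : ℂ :=
  ((∏ i, bp St (T i - al a i) : ℝ) : ℂ) *
    E (ph x.1.1 (cf x) (al a) (fun i => rd St (T i - al a i)) T)

/-- the staircase map -/
def TT (z : V) : R4 := fun i => St (co z i)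

/-- a periodic odd function which vanishes at the points of order two only -/
def od (z : V) : Bool ⊕ Fin 4 → ℂ :=
  Sum.elim (fun b => if b then (z - co.symm (TT St co z)).1 else (z - co.symm (TT St co z)).2)
    fun i => (Real.sin (2 * Real.pi * TT St co z i) : ℝ)

/-- the section -/
def vv (z : V) (p : F4 × (Bool ⊕ Fin 4)) : ℂ :=
  sc St x p.1 (TT St co z) *
    if Even (x.1.2 p.1) then (if p.2 = .inl true then 1 else 0) else od St co z p.2

variable {St} (h : Stair St)
include h

theorem sc_smooth (a : F4) : ContDiff ℝ ∞ (sc St x a) := by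
  have h1 : ∀ i, ContDiff ℝ ∞ fun T : R4 => rd St (T i - al a i) := fun i =>
    (rd_smooth h).comp ((contDiff_apply ℝ ℝ i).sub contDiff_const)
  have h2 : ContDiff ℝ ∞ fun T : R4 => ∏ i, bp St (T i - al a i) := contDiff_prod fun i _ =>
    (bp_smooth h).comp ((contDiff_apply ℝ ℝ i).sub contDiff_const)
  refine (Complex.ofRealCLM.contDiff.comp h2).mul (E_smooth.comp ?_)
  simp only [ph, qq, sk, up, ln, Pi.add_apply]
  have := h1 0
  have := h1 1
  have := h1 2
  have := h1 3
  fun_prop

theorem TT_smooth : ContDiff ℝ ∞ (TT St co) :=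
  contDiff_pi.2 fun i => h.smooth.comp ((contDiff_apply ℝ ℝ i).comp co.contDiff)

theorem od_smooth (k : Bool ⊕ Fin 4) : ContDiff ℝ ∞ fun z => od St co z k := by
  have h1 : ContDiff ℝ ∞ fun z => z - co.symm (TT St co z) :=
    contDiff_id.sub (co.symm.contDiff.comp (TT_smooth co h))
  rcases k with (_ | _) | i
  · exact h1.snd
  · exact h1.fst
  · exact Complex.ofRealCLM.contDiff.comp (Real.contDiff_sin.comp
      (contDiff_const.mul ((contDiff_apply ℝ ℝ i).comp (TT_smooth co h))))

theorem vv_smooth : ContDiff ℝ ∞ (vv St x co) := contDiff_pi.2 fun p => by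
  refine ((sc_smooth x h p.1).comp (TT_smooth co h)).mul ?_
  split_ifs
  · exact contDiff_const
  · exact contDiff_const
  · exact od_smooth co h p.2

theorem sc_cases (a : F4) (T : R4) : (∏ i, bp St (T i - al a i)) = 0 ∨
    ∃ k : Fin 4 → ℤ, ∀ i, rd St (T i - al a i) = k i := by
  refine or_iff_not_imp_left.2 fun h0 => ?_
  choose k hk using fun i => rd_mem h (Finset.prod_ne_zero_iff.1 h0 i (Finset.mem_univ i))
  exact ⟨k, hk⟩

theorem sc_add (a : F4) (T : R4) (m : Fin 4 → ℤ) : sc St x a (fun i => T i + m i) =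
    E (qq x.1.1 (cf x) fun i => (m i : ℝ)) * E (sk x.1.1 (fun i => (m i : ℝ)) T) * sc St x a T := by
  simp only [sc, add_sub_right_comm, bp_int h, rd_int h]
  rcases sc_cases h a T with h0 | ⟨k, hk⟩
  · rw [h0, Complex.ofReal_zero, zero_mul, zero_mul, mul_zero]
  · simp only [hk]
    rw [ph_add, E_add, E_add, E_add, E_even]
    ring

theorem sc_neg (a : F4) (T : R4) : sc St x a (-T) =
    E (qq x.1.1 (cf x) fun i => ((a i).val : ℤ) : ℤ) * sc St x a T := by
  have e : ∀ i, (-T) i - al a i = -(T i - al a i) + (-((a i).val : ℤ) : ℤ) := fun i => by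
    rw [al, Pi.neg_apply]
    push_cast
    ring
  simp only [sc, e, bp_int h, rd_int h, bp_neg h, rd_neg h]
  rcases sc_cases h a T with h0 | ⟨k, hk⟩
  · rw [h0, Complex.ofReal_zero, zero_mul, zero_mul, mul_zero]
  · simp only [hk]
    have := ph_neg x.1.1 (cf x) T k fun i => ((a i).val : ℤ)
    rw [show al a = fun i => (((a i).val : ℤ) : ℝ) / 2 from rfl, this, E_add, E_add, E_even]
    ring

theorem sc_al_ne {a b : F4} (hne : a ≠ b) : sc St x b (al a) = 0 := by
  obtain ⟨i, hi⟩ := Function.ne_iff.1 hne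
  rw [sc, Finset.prod_eq_zero (Finset.mem_univ i) (by simpa [al] using bp_ne h hi),
    Complex.ofReal_zero, zero_mul]

omit h in
theorem sc_ne {a : F4} {T : R4} (h0 : ∀ i, bp St (T i - al a i) ≠ 0) : sc St x a T ≠ 0 :=
  mul_ne_zero (Complex.ofReal_ne_zero.2 (Finset.prod_ne_zero_iff.2 fun i _ => h0 i)) (E_ne _)

theorem sc_al (a : F4) : sc St x a (al a) ≠ 0 :=
  sc_ne x fun i => bp_near h 0 (by simp)

theorem TT_add (z : V) (m : Fin 4 → ℤ) : TT St co (z + lp co m) = fun i => TT St co z i + m i :=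
  funext fun i => by rw [TT, TT, map_add, Pi.add_apply, co_lp, st_int h]

theorem TT_neg (z : V) : TT St co (-z) = -TT St co z :=
  funext fun i => by rw [TT, map_neg, Pi.neg_apply, h.odd, Pi.neg_apply, TT]

theorem TT_near (a : F4) : ∀ᶠ z in 𝓝 (pt co a), TT St co z = al a := by
  have h1 : ∀ i, ∀ᶠ z in 𝓝 (pt co a), TT St co z i = al a i := fun i => by
    have hc : Continuous fun z : V => |co z i - al a i| :=
      (((continuous_apply i).comp co.continuous).sub continuous_const).abs
    filter_upwards [hc.continuousAt.eventually (gt_mem_nhds (a := (1 / 8 : ℝ))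
      (by simp [al]))] with z hz
    have := st_half h ((a i).val : ℤ) (co z i - al a i)
    rw [h.zero _ hz.le, zero_add] at this
    exact (congrArg St (sub_add_cancel _ _).symm).trans this
  exact (eventually_all.2 h1).mono fun z hz => funext hz

theorem od_add (z : V) (m : Fin 4 → ℤ) : od St co (z + lp co m) = od St co z := by
  have e : z + lp co m - co.symm (TT St co (z + lp co m)) = z - co.symm (TT St co z) :=
    co_ext (co := co) fun i => by simp [TT_add co h]
  funext k
  rcases k with b | i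
  · simp only [od, Sum.elim_inl, e]
  · simp only [od, Sum.elim_inr, TT_add co h]
    rw [mul_add, mul_comm (2 * Real.pi) (m i : ℝ), Real.sin_add_int_mul_two_pi]

theorem od_neg (z : V) (k : Bool ⊕ Fin 4) : od St co (-z) k = -od St co z k := by
  have e : -z - co.symm (TT St co (-z)) = -(z - co.symm (TT St co z)) := by
    rw [TT_neg co h, map_neg]
    ring
  rcases k with (_ | _) | i
  · simp only [od, Sum.elim_inl, e]
    simp
  · simp only [od, Sum.elim_inl, e]
    simp
  · simp [od, TT_neg co h]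

omit h in
theorem od_ne {z : V} (hz : Good co z) : ∃ k, od St co z k ≠ 0 := by
  by_contra h0
  push Not at h0
  have h1 : z - co.symm (TT St co z) = 0 := Prod.ext (h0 (.inl true)) (h0 (.inl false))
  refine hz (mem_Lt'.2 fun i => ?_)
  obtain ⟨n, hn⟩ := Real.sin_eq_zero_iff.1 (Complex.ofReal_eq_zero.1 (h0 (.inr i)))
  have h2 : co z i = TT St co z i := by
    conv_lhs => rw [sub_eq_zero.1 h1, co.apply_symm_apply]
  refine ⟨n, mul_right_cancel₀ Real.pi_ne_zero ?_⟩
  rw [hn, map_add, Pi.add_apply, h2]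
  ring

theorem vv_ne {z : V} (hz : Good co z) : vv St x co z ≠ 0 := by
  choose a ha using fun i => bp_cover h (TT St co z i)
  have h1 : sc St x a (TT St co z) ≠ 0 := sc_ne x fun i => by simpa [al] using ha i
  obtain ⟨k, hk⟩ := od_ne (St := St) co hz
  by_cases he : Even (x.1.2 a)
  · exact Function.ne_iff.2 ⟨(a, .inl true), by simpa [vv, he] using h1⟩
  · exact Function.ne_iff.2 ⟨(a, k), by simpa [vv, he] using ⟨h1, hk⟩⟩

theorem vv_neg (z : V) : vv St x co (-z) = E (x.1.2 0) • vv St x co z := funext fun p => by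
  obtain ⟨k, hk⟩ := par x p.1
  rw [Pi.smul_apply, smul_eq_mul, vv, vv, TT_neg co h, sc_neg x h]
  split_ifs with he h1
  all_goals try rw [od_neg co h]
  · obtain ⟨l, hl⟩ := he
    rw [show qq x.1.1 (cf x) (fun i => ((p.1 i).val : ℤ)) = x.1.2 0 + 2 * (k - l - x.1.2 0) by omega,
      Int.cast_add, E_add, Int.cast_mul, Int.cast_two, E_even]
    ring
  · ring
  · obtain ⟨l, hl⟩ := Int.not_even_iff_odd.1 he
    rw [show qq x.1.1 (cf x) (fun i => ((p.1 i).val : ℤ)) =
      x.1.2 0 + 2 * (k - l - x.1.2 0 - 1) + 1 by omega, Int.cast_add, Int.cast_add, E_add, E_add,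
      Int.cast_mul, Int.cast_two, E_even, Int.cast_one, E_one]
    ring

theorem vv_near (a : F4) : ∀ᶠ z in 𝓝 (pt co a), ∀ p, vv St x co z p =
    if p.1 = a then sc St x a (al a) * (if Even (x.1.2 a) then (if p.2 = .inl true then 1 else 0)
      else Sum.elim (fun b => if b then (z - pt co a).1 else (z - pt co a).2) 0 p.2) else 0 := by
  filter_upwards [TT_near co h a] with z hz p
  rw [vv, hz]
  by_cases e : p.1 = a
  · rw [if_pos e, e]
    have e1 : co.symm (al a) = pt co a := co_ext (co := co) fun i => by simp [al]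
    congr 2
    rcases p.2 with b | i
    · simp only [od, Sum.elim_inl, hz, e1]
    · simp only [od, Sum.elim_inr, hz, al, Pi.zero_apply]
      rw [show 2 * Real.pi * ((((a i).val : ℤ) : ℝ) / 2) = ((a i).val : ℤ) * Real.pi by ring,
        Real.sin_int_mul_pi, Complex.ofReal_zero]
  · rw [if_neg e, sc_al_ne x h (Ne.symm e), zero_mul]

omit h in
theorem main : StSec := fun co St h x => by
  refine ⟨F4 × (Bool ⊕ Fin 4), inferInstance, inferInstance, vv St x co, vv_smooth x co h,
    fun z hz => vv_ne x co h hz, fun m => ⟨E (qq x.1.1 (cf x) fun i => (m i : ℝ)), fun z => ?_⟩,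
    ⟨_, vv_neg x co h⟩, fun a => ⟨fun he => ?_, fun ho => ?_⟩⟩
  · funext p
    rw [Pi.smul_apply, smul_eq_mul, vv, vv, TT_add co h, od_add co h, sc_add x h, mul_assoc,
      ← sum_sk x.2.1]
    simp only [E, TT]
    push_cast
    rfl
  · refine ⟨Pi.single (a, .inl true) (sc St x a (al a)), by simpa using sc_al x h a, ?_⟩
    filter_upwards [vv_near x co h a] with z hz
    funext p
    obtain ⟨b, k⟩ := p
    rw [hz, if_pos he, Pi.single_apply]
    by_cases e : b = a <;> by_cases e' : k = .inl true <;> simp [e, e']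
  · refine ⟨Pi.single (a, .inl true) (sc St x a (al a)), Pi.single (a, .inl false) (sc St x a (al a)),
      by simpa using sc_al x h a, by simp [ip, Pi.single_apply], by simp [ip, Pi.single_apply], ?_⟩
    filter_upwards [vv_near x co h a] with z hz
    funext p
    obtain ⟨b, k⟩ := p
    rw [hz, if_neg (Int.not_even_iff_odd.2 ho), Pi.add_apply, Pi.smul_apply, Pi.smul_apply,
      Pi.single_apply, Pi.single_apply]
    by_cases e : b = a <;> rcases k with (_ | _) | i <;> simp [e, mul_comm]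

end Sec

theorem sec : StSec := Sec.main

end Vale.Agent.P290Z.KT
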