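import Vale.Agent.P290Z.KT.Spec

/-! P290Z, part III, block KT: a staircase function. -/

open Set Filter
open scoped Topology Manifold ContDiff ComplexConjugate

noncomputable section

namespace Vale.Agent.P290Z.KT

open Real (smoothTransition)

namespace StairAux

theorem sym (x : ℝ) : smoothTransition (1 - x) = 1 - smoothTransition x := by
  have h := (Real.smoothTransition.pos_denom x).ne'
  unfold Real.smoothTransition
  rw [sub_sub_cancel, add_comm (expNegInvGlue (1 - x)), eq_sub_iff_add_eq, ← add_div, add_comm,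
    div_self h]

/-- the staircase with steps of height one -/
def G (u : ℝ) : ℝ := ⌊u⌋ + smoothTransition (2 * Int.fract u - 1 / 2)

theorem G_add (u : ℝ) : G (u + 1) = G u + 1 := by
  rw [G, G, Int.floor_add_one, Int.fract_add_one]
  push_cast
  ring

theorem G_neg (u : ℝ) : G (-u) = -G u := by
  by_cases h : Int.fract u = 0
  · have e : smoothTransition (2 * 0 - 1 / 2) = 0 :=
      Real.smoothTransition.zero_of_nonpos (by norm_num)
    have h1 := Int.floor_add_fract u
    have h2 := Int.floor_add_fract (-u)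
    rw [G, G, Int.fract_neg_eq_zero.2 h, h, e]
    rw [Int.fract_neg_eq_zero.2 h] at h2
    rw [h] at h1
    linarith
  · have h1 := Int.floor_add_fract u
    have h2 := Int.floor_add_fract (-u)
    have h3 := sym (2 * Int.fract u - 1 / 2)
    rw [G, G, Int.fract_neg h, show 2 * (1 - Int.fract u) - 1 / 2 =
      1 - (2 * Int.fract u - 1 / 2) by ring, h3]
    rw [Int.fract_neg h] at h2
    linarith

theorem G_zero {u : ℝ} (h0 : 0 ≤ u) (h : u ≤ 1 / 4) : G u = 0 := by
  have e : ⌊u⌋ = 0 := Int.floor_eq_zero_iff.2 ⟨h0, by linarith⟩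
  rw [G, Int.fract, e, Real.smoothTransition.zero_of_nonpos (by push_cast; linarith)]
  simp

theorem G_loc (k : ℤ) {u : ℝ} (h0 : (k : ℝ) - 1 < u) (h1 : u < k + 1) : G u = k - 1 +
    smoothTransition (2 * (u - k + 1) - 1 / 2) + smoothTransition (2 * (u - k) - 1 / 2) := by
  rcases lt_or_ge u k with h | h
  · have e : ⌊u⌋ = k - 1 := Int.floor_eq_iff.2 ⟨by push_cast; linarith, by push_cast; linarith⟩
    rw [G, Int.fract, e, Real.smoothTransition.zero_of_nonpos (x := 2 * (u - k) - 1 / 2)
      (by linarith)]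
    push_cast
    rw [add_zero, show u - (k - 1) = u - k + 1 by ring]
  · have e : ⌊u⌋ = k := Int.floor_eq_iff.2 ⟨h, h1⟩
    rw [G, Int.fract, e, Real.smoothTransition.one_of_one_le (x := 2 * (u - k + 1) - 1 / 2)
      (by linarith)]
    ring

theorem G_smooth : ContDiff ℝ ∞ G := by
  refine contDiff_iff_contDiffAt.2 fun u => ?_
  have h : ContDiff ℝ ∞ fun v : ℝ => ((⌊u⌋ : ℝ) - 1 +
      smoothTransition (2 * (v - ⌊u⌋ + 1) - 1 / 2)) + smoothTransition (2 * (v - ⌊u⌋) - 1 / 2) :=
    (contDiff_const.add (Real.smoothTransition.contDiff.comp (by fun_prop))).add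
      (Real.smoothTransition.contDiff.comp (by fun_prop))
  refine h.contDiffAt.congr_of_eventuallyEq ?_
  filter_upwards [Ioo_mem_nhds (a := (⌊u⌋ : ℝ) - 1) (by linarith [Int.floor_le u])
    (Int.lt_floor_add_one u)] with v hv using G_loc _ hv.1 hv.2

end StairAux

open StairAux in
theorem stair : StStair := by
  refine ⟨fun s => G (2 * s) / 2, (G_smooth.comp (by fun_prop)).div_const 2, fun s => ?_,
    fun s => ?_, fun s hs => ?_⟩
  · rw [show 2 * (s + 1 / 2) = 2 * s + 1 by ring, G_add]
    ring
  · rw [mul_neg, G_neg, neg_div]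
  · rw [abs_le] at hs
    rcases le_total 0 s with h | h
    · rw [G_zero (by linarith) (by linarith), zero_div]
    · rw [← neg_neg (2 * s), G_neg, G_zero (by linarith) (by linarith), neg_zero, zero_div]

end Vale.Agent.P290Z.KT
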