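import Vale.Agent.P290Z.KT.KL
import Vale.Agent.P290Z.KT.Api01
import Vale.Agent.P290Z.KT.Api2
import Vale.Agent.P290Z.KT.Desc0
import Vale.Agent.P290Z.KT.Desc1
import Vale.Agent.P290Z.KT.Stair
import Vale.Agent.P290Z.KT.Curve
import Vale.Agent.P290Z.KT.PL
import Vale.Agent.P290Z.KT.Curv
import Vale.Agent.P290Z.KT.LB
import Vale.Agent.P290Z.KT.Sec
import Vale.Agent.P290Z.KT.Glue
import Vale.Agent.P290Z.KT.Int
import Vale.Agent.P290Z.KT.Dom
import Vale.Agent.P290Z.KT.Pair
import Vale.Agent.P290Z.KT.Jac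
import Vale.Agent.P290Z.KT.Per

/-! P290Z, part III, block KT: the lattice of a Kummer surface, unconditional. -/

namespace Vale.Agent.P290Z.KT

theorem kl_main : StKL :=
  kl (api2' api0) (ext api0 api1) stair (curve api0 api1 (desc0 api1) stair) (pl0 api0)
    (glue api0 api1 (api2' api0) (desc1 api0 api1) curv (lb (desc0 api1)) sec) (pairK int dom')
    jacK' iso

end Vale.Agent.P290Z.KT
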