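import Vale.Agent.P290.K.AllDefs
import Vale.Agent.P268.Hol

/-! P290Z, block KT: chain rules in charts for `All.Hol` and `All.Etale`. -/

open Set Filter
open scoped Topology Manifold ContDiff

noncomputable section

namespace Vale.Agent.P290Z.KT.TrB

open Vale.Agent.P290 Vale.Agent.P290.All

/-- the chain rule through a chart -/
theorem chain {𝕜 E F G X : Type*} [NontriviallyNormedField 𝕜] [NormedAddCommGroup E]
    [NormedSpace 𝕜 E] [NormedAddCommGroup F] [NormedSpace 𝕜 F] [NormedAddCommGroup G]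
    [NormedSpace 𝕜 G] [TopologicalSpace X] (c : OpenPartialHomeomorph X F) {s : X → G}
    {ν : E → X} {v : E} {x : X} {A : E →L[𝕜] F} {B : F →L[𝕜] G} (hv : ν v = x)
    (hc : ContinuousAt ν v) (hx : x ∈ c.source) (hA : HasFDerivAt (fun z => c (ν z)) A v)
    (hB : HasFDerivAt (fun w => s (c.symm w)) B (c x)) :
    HasFDerivAt (fun z => s (ν z)) (B.comp A) v := by
  subst hv
  refine (HasFDerivAt.comp (g := fun w => s (c.symm w)) v hB hA).congr_of_eventuallyEq ?_
  filter_upwards [hc.eventually (c.open_source.mem_nhds hx)] with z hz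
  simp only [Function.comp_apply, c.left_inv hz]

variable {X Y : Type} [TopologicalSpace X] [ChartedSpace C2 X] [TopologicalSpace Y]
  [ChartedSpace C2 Y]

/-- the complex derivative in the preferred charts -/
def Dc (f : X → Y) (x : X) : C2 →L[ℂ] C2 :=
  fderiv ℂ (fun z => chartAt C2 (f x) (f ((chartAt C2 x).symm z))) (chartAt C2 x x)

theorem Dc_det {f : X → Y} {g : Y → X} {x : X} (hf : Hol f x) (hg : Hol g (f x))
    (h : ∀ x, g (f x) = x) : (Dc f x).det ≠ 0 := by
  have hx := mem_chart_source C2 x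
  have h0 := (chartAt C2 x).left_inv hx
  have h1 : ContinuousAt (fun z => f ((chartAt C2 x).symm z)) (chartAt C2 x x) :=
    ContinuousAt.comp (g := f) (by rw [h0]; exact hf.1)
      ((chartAt C2 x).continuousAt_symm (mem_chart_target C2 x))
  have h2 := chain (chartAt C2 (f x)) (s := fun y => chartAt C2 (g (f x)) (g y))
    (ν := fun z => f ((chartAt C2 x).symm z)) (congrArg f h0) h1 (mem_chart_source C2 _)
    hf.2.hasFDerivAt hg.2.hasFDerivAt
  have h3 : HasFDerivAt (fun z => chartAt C2 (g (f x)) (g (f ((chartAt C2 x).symm z))))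
      (ContinuousLinearMap.id ℂ C2) (chartAt C2 x x) := by
    refine (hasFDerivAt_id _).congr_of_eventuallyEq ?_
    filter_upwards [(chartAt C2 x).open_target.mem_nhds (mem_chart_target C2 x)] with z hz
    rw [h, h, (chartAt C2 x).right_inv hz, id]
  have h4 : (Dc g (f x)).det * (Dc f x).det = 1 := by
    have h5 := congrArg ContinuousLinearMap.det (h2.unique h3)
    exact ((LinearMap.det_comp _ _).symm.trans h5).trans LinearMap.det_id
  exact right_ne_zero_of_mul_eq_one h4

theorem etale_comp {ν : C2 → X} {v : C2} {f : X → Y} (hν : Etale ν v) (hf : Hol f (ν v))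
    (hd : (Dc f (ν v)).det ≠ 0) : Etale (fun z => f (ν z)) v := by
  have h1 := chain (chartAt C2 (ν v)) (s := fun y => chartAt C2 (f (ν v)) (f y)) rfl hν.1
    (mem_chart_source C2 _) hν.2.1.hasFDerivAt hf.2.hasFDerivAt
  refine ⟨ContinuousAt.comp (g := f) hf.1 hν.1, h1.differentiableAt, ?_⟩
  rw [h1.fderiv]
  exact (LinearMap.det_comp _ _).trans_ne (mul_ne_zero hd hν.2.2)

variable [IsManifold 𝓘(ℂ, C2) ω X]

theorem diff_chart {ν : C2 → X} {v : C2} (hν : Etale ν v) {c : OpenPartialHomeomorph X C2}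
    (hc : c ∈ atlas C2 X) (hv : ν v ∈ c.source) : DifferentiableAt ℂ (fun z => c (ν z)) v := by
  have : IsManifold 𝓘(ℂ, C2) 1 X := IsManifold.of_le (n := ω) le_top
  have h1 : MDifferentiableAt 𝓘(ℂ, C2) 𝓘(ℂ, C2) ν v := by
    rw [mdifferentiableAt_iff]
    refine ⟨hν.1, ?_⟩
    simp only [writtenInExtChartAt, mfld_simps, differentiableWithinAt_univ]
    exact hν.2.1
  exact mdifferentiableAt_iff_differentiableAt.1 ((mdifferentiableAt_atlas hc hv).comp v h1)

/-- a local right inverse in the preferred chart -/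
theorem exists_inv {ν : C2 → X} {v : C2} (hν : ∀ᶠ z in 𝓝 v, Etale ν z) :
    ∃ g : C2 → C2, g (chartAt C2 (ν v) (ν v)) = v ∧
      DifferentiableAt ℂ g (chartAt C2 (ν v) (ν v)) ∧
      ∀ᶠ w in 𝓝 (chartAt C2 (ν v) (ν v)), (chartAt C2 (ν v)).symm w = ν (g w) := by
  have h0 := hν.self_of_nhds
  have h1 : ∀ᶠ z in 𝓝 v, ν z ∈ (chartAt C2 (ν v)).source :=
    h0.1.eventually (chart_source_mem_nhds C2 (ν v))
  obtain ⟨W, hW, hWo, hv⟩ := eventually_nhds_iff.1 (hν.and h1)
  have h2 : AnalyticAt ℂ (fun z => chartAt C2 (ν v) (ν z)) v :=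
    P268.analyticAt_of_differentiableOn hWo (fun z hz =>
      (diff_chart (hW z hz).1 (chart_mem_atlas C2 _) (hW z hz).2).differentiableWithinAt) hv
  have h3 : HasStrictFDerivAt (fun z => chartAt C2 (ν v) (ν z))
      ((fderiv ℂ (fun z => chartAt C2 (ν v) (ν z)) v).toContinuousLinearEquivOfDetNeZero h0.2.2 :
        C2 →L[ℂ] C2) v := by
    rw [ContinuousLinearMap.coe_toContinuousLinearEquivOfDetNeZero]
    exact h2.hasStrictFDerivAt
  refine ⟨_, h3.localInverse_apply_image, h3.to_localInverse.hasFDerivAt.differentiableAt, ?_⟩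
  filter_upwards [h3.eventually_right_inverse, h3.localInverse_tendsto.eventually h1] with w e1 e2
  exact (congrArg _ e1).symm.trans ((chartAt C2 (ν v)).left_inv e2)

/-- a map which is holomorphic along a local biholomorphism is holomorphic -/
theorem hol_of_etale {ν : C2 → X} {ν' : C2 → Y} {v : C2} {f : X → Y}
    (hν : ∀ᶠ z in 𝓝 v, Etale ν z) (hν' : Etale ν' v) (hf : ∀ᶠ z in 𝓝 v, f (ν z) = ν' z) :
    Hol f (ν v) := by
  obtain ⟨g, h1, h2, h3⟩ := exists_inv hν
  have ht : Tendsto g (𝓝 (chartAt C2 (ν v) (ν v))) (𝓝 v) := by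
    have := h2.continuousAt.tendsto
    rwa [h1] at this
  have h4 : (fun w => f ((chartAt C2 (ν v)).symm w)) =ᶠ[𝓝 (chartAt C2 (ν v) (ν v))]
      fun w => ν' (g w) := by
    filter_upwards [h3, ht.eventually hf] with w e1 e2
    rw [e1, e2]
  have h5 : ContinuousAt (fun w => ν' (g w)) (chartAt C2 (ν v) (ν v)) :=
    ContinuousAt.comp (g := ν') (by rw [h1]; exact hν'.1) h2.continuousAt
  have h6 := (chartAt C2 (ν v)).continuousAt (mem_chart_source C2 (ν v))
  refine ⟨?_, ?_⟩
  · refine (ContinuousAt.comp (g := fun w => ν' (g w)) h5 h6).congr ?_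
    filter_upwards [h6.eventually h4, chart_source_mem_nhds C2 (ν v)] with y e1 e2
    rw [Function.comp_apply, ← e1, (chartAt C2 (ν v)).left_inv e2]
  · rw [hf.self_of_nhds]
    refine (DifferentiableAt.comp (g := fun z => chartAt C2 (ν' v) (ν' z)) _
      (by rw [h1]; exact hν'.2.1) h2).congr_of_eventuallyEq ?_
    filter_upwards [h4] with w e
    rw [e, Function.comp_apply]

end Vale.Agent.P290Z.KT.TrB
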