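import Vale.Agent.P290Z.KT.Spec
import Vale.Agent.P290Z.KT.TrB0
import Vale.Agent.P290Z.W.BRBih

/-! P290Z, block KT, step PB: pull backs under biholomorphic maps. -/

open Set Filter
open scoped Topology Manifold ContDiff

noncomputable section

namespace Vale.Agent.P290Z.KT

open Vale.Agent.P290 Vale.Agent.P267 Vale.Agent.P290Z.W
open Vale.Agent.P267.H757 (IsNormFn LocRep)
open Vale.Agent.P290.H686 (IsSm Df rep)
open Vale.Agent.P290.H445 (φ)
open Vale.Agent.P290Z.W.BR (Bih)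
open Vale.Agent.P290Z.W.BR.BihAux

namespace Pb

variable {Y Y' : W.K3}

theorem cmd {f : Y.X → Y'.X} (h : IsSm f) : ContMDiff 𝓘(ℝ, FL.C2) 𝓘(ℝ, FL.C2) ∞ f := by
  intro x
  rw [contMDiffAt_iff]
  refine ⟨h.1.continuousAt, ?_⟩
  simp only [mfld_simps, contDiffWithinAt_univ]
  exact h.2 _ (chart_mem_atlas _ x) _ (chart_mem_atlas _ (f x)) x (mem_chart_source _ x)
    (mem_chart_source _ (f x))

theorem Dm_comp {f : Y.X → Y'.X} (h : IsSm f) {ν : V → Y.X} {v : V} (hν : All.Etale ν v) :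
    Dm (fun z => f (ν z)) v = (Df f (ν v)).comp (Dm ν v) := by
  have h1 : DifferentiableAt ℝ (fun z => chartAt FL.C2 (ν v) (ν z)) v :=
    (φ.differentiableAt.comp v hν.2.1).restrictScalars ℝ
  have h2 : DifferentiableAt ℝ (rep f (chartAt FL.C2 (ν v)) (chartAt FL.C2 (f (ν v))))
      (chartAt FL.C2 (ν v) (ν v)) :=
    (h.2 _ (chart_mem_atlas _ _) _ (chart_mem_atlas _ _) _ (mem_chart_source _ _)
      (mem_chart_source _ _)).differentiableAt (by simp)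
  exact (TrB.chain (chartAt FL.C2 (ν v)) (s := fun y => chartAt FL.C2 (f (ν v)) (f y)) rfl hν.1
    (mem_chart_source _ _) h1.hasFDerivAt h2.hasFDerivAt).fderiv

theorem rep_comp {f : Y.X ≃ₜ Y'.X} (h : Bih f) {N : Y'.X → ℝ} {U : Set Y'.X} {g : Y'.X → ℂ}
    {ψ : Y'.X → ℝ} (hr : LocRep FL.C2 N U g ψ) :
    LocRep FL.C2 (fun y => N (f y)) (univ ∩ f ⁻¹' U) (fun y => g (f y)) fun y => ψ (f y) :=
  hr.comp isOpen_univ (fun y _ => (md_fl (h.1 y)).mdifferentiableWithinAt)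
    (cmd (isSm h.1)).contMDiffOn fun B hB _ => f.isOpenMap B hB

theorem mf_zero {f : Y.X ≃ₜ Y'.X} (h : Bih f) {g : Y'.X → ℂ} {q : Y'.X}
    (hg : MDifferentiableAt 𝓘(ℂ, FL.C2) 𝓘(ℂ) (fun y => g (f y)) (f.symm q))
    (h0 : mfderiv 𝓘(ℂ, FL.C2) 𝓘(ℂ) (fun y => g (f y)) (f.symm q) = 0) :
    mfderiv 𝓘(ℂ, FL.C2) 𝓘(ℂ) g q = 0 := by
  have h1 := mfderiv_comp q hg (md_fl (h.2 q))
  have h2 : (fun y => g (f y)) ∘ f.symm = g := funext fun y => congrArg g (f.apply_symm_apply y)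
  rw [h0, ContinuousLinearMap.zero_comp] at h1
  have h3 : mfderiv 𝓘(ℂ, FL.C2) 𝓘(ℂ) ((fun y => g (f y)) ∘ f.symm) q = 0 := h1
  rwa [h2] at h3

end Pb

open Pb in
theorem pb : StPb := by
  intro Y Y' f h
  refine ⟨fun ν v hν => ⟨hν.mono fun z hz => TrB.etale_comp hz (h.1 _)
    (TrB.Dc_det (h.1 _) (h.2 _) f.symm_apply_apply), fun F => ?_⟩,
    fun N hN => ⟨fun p => ?_, H686.val2_inj fun x => ?_, ?_⟩⟩
  · refine ContinuousLinearMap.ext fun x => ContinuousLinearMap.ext fun y => ?_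
    rw [p2_apply, p2_apply, H686.val2_pb2_apply, Dm_comp (isSm h.1) hν.self_of_nhds]
    rfl
  · obtain ⟨U, g, ψ, hU, hr⟩ := hN (f p)
    exact ⟨_, _, _, mem_inter (mem_univ p) hU, rep_comp h hr⟩
  · obtain ⟨U, g, ψ, hU, hr⟩ := hN (f x)
    exact H686.val2_pb2_cF f.continuous (H686.rep_analyticAt f.continuous isOpen_univ
      (fun y _ => md_fl (h.1 y)) (mem_univ x) (chart_mem_atlas _ x) (chart_mem_atlas _ (f x))
      (mem_chart_source _ x) (mem_chart_source _ (f x))) hr hU (rep_comp h hr) ⟨mem_univ x, hU⟩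
  · rintro p ⟨U, g, ψ, hU, hr, hg⟩
    have hr' := rep_comp h hr
    refine ⟨_, _, _, mem_inter (mem_univ p) hU, hr', fun h0 => hg ?_⟩
    have h1 := hr'.hol.mdifferentiableAt (hr'.isOpen.mem_nhds ⟨mem_univ p, hU⟩)
    refine mf_zero h ?_ ?_
    · rwa [f.symm_apply_apply]
    · rwa [f.symm_apply_apply]

theorem pbK (_h0 : StApi0) : StPb := pb

end Vale.Agent.P290Z.KT
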