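import Vale.Agent.P290Z.KT.Cl
import Vale.Agent.P290.H686.UTrans

/-! P290Z, block KT, step PULL: diffeomorphisms act on the lattices. -/

noncomputable section

namespace Vale.Agent.P290Z.KT

open Vale.Agent.P290 Vale.Agent.P267 Vale.Agent.P290Z.W
open Vale.Agent.P267.BlockC (ExactTwo)
open Vale.Agent.P290.H342 Vale.Agent.P290.H686
open Vale.Agent.P290Z.Lat (act)

theorem pull : StPull := by
  intro Y Y' f hf n U U'
  choose c hc using fun j => U.mem (pbALB f hf.smooth (U'.E j))
  have key : ∀ t : Fin n → ℂ,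
      ExactTwo (pb2 f (U'.combC t) - U.combC (act (Matrix.of fun i j => c j i) t)) := by
    intro t
    have e : pb2 f (U'.combC t) - U.combC (act (Matrix.of fun i j => c j i) t) =
        ∑ j, t j • (pb2 f (U'.E j).L.curv - ∑ i, (c j i : ℂ) • (U.E i).L.curv) := by
      simp only [UData.combC, pb2_sum_smul, act, Matrix.of_apply, smul_sub,
        Finset.sum_sub_distrib, Finset.smul_sum, Finset.sum_smul, smul_smul, mul_comm (t _)]
      rw [Finset.sum_comm]
    rw [e]
    refine Finset.sum_induction _ ExactTwo (fun _ _ => exact_add) exactTwo_zero fun j _ =>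
      exact_smul _ ?_
    rw [← curv_pbALB hf.smooth]
    exact hc j
  refine ⟨Matrix.of fun i j => c j i, fun F k _ h => ?_, fun x y => ?_⟩
  · have h1 := exact_add ((exactTwo_pb2_iff f hf).2 h) (key k)
    rwa [pb2_sub, sub_add_sub_cancel] at h1
  · have h0 : ∀ t, ExactTwo (U'.combC t - U'.combC t) := fun t => by
      rw [sub_self]
      exact exactTwo_zero
    have h1 := pair_pb2 f hf (U'.combC_mem (lbFacts _) x).1 (U'.combC_mem (lbFacts _) y).1
    rw [pair_cl (key x) (key y), pair_cl (h0 x) (h0 y)] at h1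
    exact mul_left_cancel₀ (neg_ne_zero.2 (mul_ne_zero (by norm_num)
      (pow_ne_zero 2 (Complex.ofReal_ne_zero.2 Real.pi_ne_zero)))) h1

end Vale.Agent.P290Z.KT
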