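import Vale.Agent.P290Z.KT.Defs
import Vale.Agent.P290Z.Spec3

/-! P290Z, part III, block KT: the statements of the steps. Paper proof:
`notes/P290_helper25_KT.md`. -/

open Set Filter MeasureTheory
open scoped Topology Manifold ContDiff ComplexConjugate

noncomputable section

namespace Vale.Agent.P290Z.KT

open Vale.Agent.P290 Vale.Agent.P267 Vale.Agent.P290Z.W Vale.Agent.P290Z.Top
open Vale.Agent.P267.FL (TwoF OneF LB Reg0)
open Vale.Agent.P267.BlockC (pair ExactTwo ALB)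
open Vale.Agent.P267.H332 (cF)
open Vale.Agent.P267.H757 (IsNormFn LocRep)
open Vale.Agent.P290.H686 (val1 val2 pb2 IsDiffeo)
open Vale.Agent.P290.H726 (bil)
open Vale.Agent.P290.H342 (UData)
open Vale.Agent.P290Z.Kum (pr ph)
open Vale.Agent.P290Z.W.Kur (omF)
open Vale.Agent.P290Z.W.BR (Bih)
open Vale.Agent.P290Z.Lat (act)

/-! ### forms along local biholomorphisms -/

/-- API0: derivatives and local inverses -/
def StApi0 : Prop :=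
  ∀ Y : W.K3,
    (∀ (ν : V → Y.X) (v : V), Et ν v → Function.Bijective (Dm ν v) ∧
      (∀ (c : ℂ) (x : V), Dm ν v (c • x) = c • Dm ν v x) ∧
      MDifferentiableAt 𝓘(ℂ, V) 𝓘(ℂ, FL.C2) ν v ∧
      ∀ x : V, mfderiv 𝓘(ℂ, V) 𝓘(ℂ, FL.C2) ν v x = Dm ν v x) ∧
    (∀ (ν ν' : V → Y.X) (g : V → V) (v : V), Et ν' (g v) → DifferentiableAt ℝ g v →
      (ν =ᶠ[𝓝 v] fun z => ν' (g z)) → Dm ν v = (Dm ν' (g v)).comp (fderiv ℝ g v)) ∧
    ∀ (ν : V → Y.X) (v : V), Et ν v → ∃ e : OpenPartialHomeomorph V Y.X, v ∈ e.source ∧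
      (∀ z ∈ e.source, e z = ν z ∧ All.Etale ν z) ∧
      MDifferentiableOn 𝓘(ℂ, FL.C2) 𝓘(ℂ, V) e.symm e.target ∧
      ContMDiffOn 𝓘(ℝ, FL.C2) 𝓘(ℝ, V) ∞ e.symm e.target ∧
      ∀ y ∈ e.target, Function.Surjective (mfderiv 𝓘(ℂ, FL.C2) 𝓘(ℂ, V) e.symm y)

/-- API1: smoothness -/
def StApi1 : Prop :=
  ∀ Y : W.K3,
    (∀ (s : Y.X → ℂ) (ν : V → Y.X) (v : V), Reg0 ∞ 0 s → Et ν v →
      ContDiffAt ℝ ∞ (fun z => s (ν z)) v) ∧
    (∀ s : Y.X → ℂ, (∀ y, ∃ (ν : V → Y.X) (v : V), Et ν v ∧ ν v = y ∧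
      ContDiffAt ℝ ∞ (fun z => s (ν z)) v) → Reg0 ∞ 0 s) ∧
    (∀ (A : OneF Y.X) (ν : V → Y.X) (v : V), A.Smooth → Et ν v → ContDiffAt ℝ ∞ (p1 ν A) v) ∧
    (∀ A : OneF Y.X, (∀ y, ∃ (ν : V → Y.X) (v : V), Et ν v ∧ ν v = y ∧
      ContDiffAt ℝ ∞ (p1 ν A) v) → A.Smooth) ∧
    (∀ (F : TwoF Y.X) (ν : V → Y.X) (v : V), F.Smooth → Et ν v → ContDiffAt ℝ ∞ (p2 ν F) v) ∧
    ∀ (N : Y.X → ℝ) (ν : V → Y.X) (v : V), IsNormFn FL.C2 N → Et ν v →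
      ContDiffAt ℝ ∞ (fun z => N (ν z)) v ∧ 0 ≤ N (ν v)

/-- API2: exterior derivatives and curvatures -/
def StApi2 : Prop :=
  ∀ (Y : W.K3) (ν : V → Y.X) (v : V), Et ν v →
    (∀ A : OneF Y.X, A.Smooth → ∀ x y, p2 ν A.d v x y = dd (p1 ν A) v x y) ∧
    (∀ s : Y.X → ℂ, Reg0 ∞ 0 s → p1 ν (FL.dF0 s) v = fderiv ℝ (fun z => s (ν z)) v) ∧
    (∀ (ι : Type) [Fintype ι] [DecidableEq ι] (L : LB Y.X ι) (x y : V),
      p2 ν L.curv v x y = cu (fun z => L.P (ν z)) v x y) ∧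
    ∀ N : Y.X → ℝ, IsNormFn FL.C2 N → N (ν v) ≠ 0 →
      ∀ x y, p2 ν (cF N) v x y = dd (dl fun z => N (ν z)) v x y

/-! ### descent -/

/-- DESC0: functions descend -/
def StDesc0 : Prop :=
  ∀ (Y : W.K3) (co : Co) (K : All.Kummer (Lt co) Y.X) (f : V → ℂ) (G : F4 → Bool → V → ℂ),
    (∀ z, Good co z → ContDiffAt ℝ ∞ f z) →
    (∀ z m, Good co z → f (z + lp co m) = f z) → (∀ z, Good co z → f (-z) = f z) →
    (∀ a b u, ContDiffAt ℝ ∞ (G a b) (0, u)) →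
    (∀ a, ∀ᶠ z in 𝓝 (pt co a), ∀ b, Kum.cs b (z - pt co a) ≠ 0 →
      f z = G a b (ph b (z - pt co a))) →
    ∃ s : Y.X → ℂ, Reg0 ∞ 0 s ∧ (∀ z, Good co z → s (pr K z) = f z) ∧
      ∀ a b u, s (K.N (pt co a) b (0, u)) = G a b (0, u)

/-- DESC1: one-forms which vanish near the points of order two descend -/
def StDesc1 : Prop :=
  ∀ (Y : W.K3) (co : Co) (K : All.Kummer (Lt co) Y.X) (β : V → V →L[ℝ] ℂ),
    (∀ z, Good co z → ContDiffAt ℝ ∞ β z) →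
    (∀ z m, Good co z → β (z + lp co m) = β z) → (∀ z, Good co z → β (-z) = -β z) →
    (∀ a, ∀ᶠ z in 𝓝 (pt co a), Good co z → β z = 0) →
    ∃ A : OneF Y.X, A.Smooth ∧ ∀ z, Good co z → p1 (pr K) A z = β z

/-- EXT: smooth forms are determined by their pull backs -/
def StExt : Prop :=
  ∀ (Y : W.K3) (co : Co) (K : All.Kummer (Lt co) Y.X) (F : TwoF Y.X), F.Smooth →
    ((∀ z, Good co z → p2 (pr K) F z = 0) → F = 0) ∧
    ∀ a, (∀ᶠ z in 𝓝 (pt co a), Good co z → p2 (pr K) F z = 0) → ∀ y ∈ Cv K a, val2 F y = 0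

/-! ### the sixteen curves -/

/-- STAIR -/
def StStair : Prop := ∃ St, Stair St

/-- CURVE: norm functions in standard form -/
def StCurve : Prop :=
  ∀ (Y : W.K3) (co : Co) (K : All.Kummer (Lt co) Y.X) (a : F4), ∃ N, IsN K a N

/-- PL: the classes of the curves -/
def StPL : Prop :=
  ∀ (Y : W.K3) (co : Co) (K : All.Kummer (Lt co) Y.X) (a : F4) (N : Y.X → ℝ), IsE K a N →
    pair (cF N) (cF N) = 8 * Real.pi ^ 2 ∧
    (∀ F : TwoF Y.X, F.Smooth → F.Closed → (∀ y ∈ Cv K a, val2 F y = 0) → pair (cF N) F = 0) ∧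
    ∀ N', IsE K a N' → ∀ F : TwoF Y.X, F.Smooth → F.Closed → pair (cF N) F = pair (cF N') F

/-! ### line bundles -/

/-- CURV: the curvature of the line spanned by a vector -/
def StCurv : Prop :=
  ∀ (ι : Type) [Fintype ι] (v : V → ι → ℂ) (z : V), ContDiffAt ℝ 2 v z → v z ≠ 0 →
    ∀ x y, cu (fun w => prj (v w)) z x y = dd (con v) z x y

/-- LB: equivariant vectors define line bundles -/
def StLB : Prop :=
  ∀ (Y : W.K3) (co : Co) (K : All.Kummer (Lt co) Y.X) (ι : Type) [Fintype ι] [DecidableEq ι]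
    (v : V → ι → ℂ), ContDiff ℝ ∞ v → (∀ z, Good co z → v z ≠ 0) →
    (∀ z m, ∃ c : ℂ, v (z + lp co m) = c • v z) → (∀ z, ∃ c : ℂ, v (-z) = c • v z) →
    (∀ a, Loc0 v (pt co a) ∨ Loc1 v (pt co a)) →
    ∃ L : LB Y.X ι, ∀ z, Good co z → L.P (pr K z) = prj (v z)

/-- SEC: symmetric sections of the bundles of Appell and Humbert -/
def StSec : Prop :=
  ∀ (co : Co) (St : ℝ → ℝ), Stair St → ∀ x : LKm,
    ∃ (ι : Type) (_ : Fintype ι) (_ : DecidableEq ι) (v : V → ι → ℂ), ContDiff ℝ ∞ v ∧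
      (∀ z, Good co z → v z ≠ 0) ∧
      (∀ m : Fin 4 → ℤ, ∃ c : ℂ, ∀ z, v (z + lp co m) =
        (c * Complex.exp (Real.pi * Complex.I *
          ∑ i, ∑ j, (m i : ℂ) * (x.1.1 i j : ℂ) * (St (co z j) : ℂ))) • v z) ∧
      (∃ c : ℂ, ∀ z, v (-z) = c • v z) ∧
      ∀ a, (Even (x.1.2 a) → Loc0 v (pt co a)) ∧ (Odd (x.1.2 a) → Loc1 v (pt co a))

/-- GLUE: the bundles on the Kummer surface -/
def StGlue : Prop :=
  ∀ (Y : W.K3) (co : Co) (K : All.Kummer (Lt co) Y.X) (St : ℝ → ℝ), Stair St →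
    ∀ N : F4 → Y.X → ℝ, (∀ a, IsN K a (N a)) → ∀ x : LKm,
    ∃ (L : ALB Y.X) (B : OneF Y.X), B.Smooth ∧ ∀ z, Good co z → ∀ ξ η,
      p2 (pr K) (L.L.curv - (1 / 2 : ℂ) • (∑ a with Odd (x.1.2 a), cF (N a)) - B.d) z ξ η =
        2 * Real.pi * Complex.I * tw co (deriv St) (fun i j => (x.1.1 i j : ℂ)) z ξ η

/-! ### integrals -/

/-- INT: integration along an injective local biholomorphism with conull image -/
def StInt : Prop :=
  ∀ (Y : W.K3) (ν : V → Y.X) (O : Set V), IsOpen O → (∀ z ∈ O, All.Etale ν z) → InjOn ν O →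
    (∀ e ∈ atlas FL.C2 Y.X, volume {w | w ∈ e.target ∧ e.symm w ∉ ν '' O} = 0) →
    ∀ F F' : TwoF Y.X, F.Smooth → F'.Smooth → pair F F' =
      ∫ z in O, pf (fun i j => p2 ν F z (bs i) (bs j)) fun i j => p2 ν F' z (bs i) (bs j)

/-- DOM: the fundamental domain -/
def StDom : Prop :=
  ∀ (Y : W.K3) (co : Co) (K : All.Kummer (Lt co) Y.X), IsOpen (Fd co) ∧
    (∀ z ∈ Fd co, Good co z) ∧ InjOn (pr K) (Fd co) ∧
    ∀ e ∈ atlas FL.C2 Y.X, volume {w | w ∈ e.target ∧ e.symm w ∉ pr K '' Fd co} = 0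

/-- weights with the mean value one -/
def Wt (g : ℝ → ℝ) : Prop :=
  Continuous g ∧ ∫ s in (0 : ℝ)..(1 / 2), g s = 1 / 2 ∧ ∫ s in (0 : ℝ)..1, g s = 1

/-- PAIR: products of forms of product type -/
def StPair : Prop :=
  ∀ (Y : W.K3) (co : Co) (K : All.Kummer (Lt co) Y.X), Pos co → ∀ g g' : ℝ → ℝ, Wt g → Wt g' →
    ∀ A A' : Fin 4 → Fin 4 → ℂ, (∀ i j, A i j = -A j i) → (∀ i j, A' i j = -A' j i) →
    ∀ F F' : TwoF Y.X, F.Smooth → F'.Smooth →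
    (∀ z, Good co z → ∀ x y, p2 (pr K) F z x y = tw co g A z x y) →
    (∀ z, Good co z → ∀ x y, p2 (pr K) F' z x y = tw co g' A' z x y) →
    pair F F' = pf A A' / 2

/-- JAC: the holomorphic two-form pulls back to a constant form -/
def StJ : Prop :=
  ∀ (Y : W.K3) (co : Co) (K : All.Kummer (Lt co) Y.X), ∃ J : ℂ, J ≠ 0 ∧
    ∀ z, Good co z → ∀ x y, p2 (pr K) (omF Y) z x y = J * det2 x y

/-- KL: the lattice and the period of a Kummer surface -/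
def StKL : Prop :=
  ∀ (Y : W.K3) (co : Co) (K : All.Kummer (Lt co) Y.X), Pos co →
    ∀ (n : ℕ) (U : UData Y.X n), Nonempty (LConf U.G) → ∃ κ J, KL K U κ J

/-! ### lattices -/

/-- the elementary skew matrices -/
def el (k l i j : Fin 4) : ℤ :=
  (if k = i ∧ l = j then 1 else 0) - if l = i ∧ k = j then 1 else 0

/-- ISO: form preserving maps are onto -/
def StIso : Prop :=
  ∀ (n : ℕ) (G : Matrix (Fin n) (Fin n) ℤ), IsUnit G.det → Nonempty (LConf G) →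
    ∀ φ : LKm →+ (Fin n → ℤ), (∀ x y, 2 * bil G (φ x) (φ y) = form2 x y) → Function.Bijective φ

/-- SHI: isometries of the second exterior power -/
def StShi : Prop :=
  ∀ (B : Fin 4 → Fin 4 → Fin 4 → Fin 4 → ℤ) (m : Matrix (Fin 4) (Fin 4) (ZMod 2)), m.det ≠ 0 →
    (∀ k l i j, B k l i j = -B k l j i) → (∀ k l i j, B k l i j = -B l k i j) →
    (∀ k l k' l', pf (B k l) (B k' l') = pf (el k l) (el k' l')) →
    (∀ k l i j, (B k l i j : ZMod 2) = m k i * m l j - m l i * m k j) →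
    ∃ (M : Matrix (Fin 4) (Fin 4) ℤ) (ε : ℤ), M.det = 1 ∧ (ε = 1 ∨ ε = -1) ∧
      (∀ i j, (M i j : ZMod 2) = m i j) ∧
      ∀ k l i j, B k l i j = ε * (M k i * M l j - M l i * M k j)

/-- AUT: isometries which permute the sixteen classes up to signs -/
def StAut : Prop :=
  ∀ γ : LKm →+ LKm, (∀ x y, form2 (γ x) (γ y) = form2 x y) →
    (∀ a, ∃ b, γ (eK a) = eK b ∨ γ (eK a) = -eK b) →
    ∃ (M : Matrix (Fin 4) (Fin 4) ℤ) (t : F4) (ε : ℤ), M.det = 1 ∧ (ε = 1 ∨ ε = -1) ∧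
      (∀ b, γ (eK (aff M t b)) = eK b ∨ γ (eK (aff M t b)) = -eK b) ∧
      ∀ (x : LKm) (i j : Fin 4), (γ x).1.1 i j = ε * ∑ k, ∑ l, M k i * x.1.1 k l * M l j

/-- GEN: generic periods -/
def StGen : Prop :=
  ∀ (n : ℕ) (G : Matrix (Fin n) (Fin n) ℤ) (κ₀ κ κ' : LConf G) (s : Fin n → ℂ), κ₀.GenK s →
    (∀ a, bil G s (Lat.cs ℂ (κ.E a)) = 0) → (∀ a, bil G s (Lat.cs ℂ (κ'.E a)) = 0) →
    (∀ a, ∃ b, κ'.E a = κ.E b ∨ κ'.E a = -κ.E b) ∧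
    ∀ y : Fin n → ℤ, bil G s (Lat.cs ℂ y) = 0 → (∀ b, bil G y (κ.E b) = 0) → y = 0

/-- CONF: the two descriptions of Kummer configurations -/
def StLConf : Prop :=
  ∀ (n : ℕ) (G : Matrix (Fin n) (Fin n) ℤ) (κ : KConf G) (s : Fin n → ℂ), GenK κ s →
    ∃ κ' : LConf G, κ'.GenK s

/-- PER: a map which preserves the periods is complex linear -/
def StPer : Prop :=
  ∀ (co co' : Co) (J J' : ℂ) (M : Matrix (Fin 4) (Fin 4) ℤ) (ε : ℤ), J ≠ 0 → J' ≠ 0 →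
    M.det = 1 → (ε = 1 ∨ ε = -1) →
    (∀ x : LKm, J * pf (Dl co) (fun i j => ((ε * ∑ k, ∑ l, M k i * x.1.1 k l * M l j : ℤ) : ℂ)) =
      J' * pf (Dl co') fun i j => (x.1.1 i j : ℂ)) →
    ∃ h : V ≃L[ℂ] V, (∀ j, h (lv co j) = lp co' fun i => M i j) ∧
      ∀ x y, J' * det2 (h x) (h y) = ε * J * det2 x y

/-- EN: the bound for the energy -/
def StEnL : Prop :=
  ∀ (n : ℕ) (G m : Matrix (Fin n) (Fin n) ℤ) (κ : LConf G) (E' : F4 → Fin n → ℤ) (ε : ℤ)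
    (s k k' : Fin n → ℂ), (ε = 1 ∨ ε = -1) →
    (∀ x y : Fin n → ℂ, bil G (act m x) (act m y) = bil G x y) → act m s = (ε : ℂ) • s →
    (∀ b, act m (E' b) = κ.E b) → (∀ b, E' b = κ.E b ∨ E' b = -κ.E b) →
    (∀ y : Fin n → ℤ, bil G s (Lat.cs ℂ y) = 0 → (∀ b, bil G y (κ.E b) = 0) → y = 0) →
    (∀ b, (Complex.I * bil G (Lat.cs ℂ (κ.E b)) k).im = 0 ∧
      (Complex.I * bil G (Lat.cs ℂ (κ.E b)) k).re ≤ 0) →
    (∀ b, (Complex.I * bil G (Lat.cs ℂ (E' b)) k').im = 0 ∧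
      (Complex.I * bil G (Lat.cs ℂ (E' b)) k').re ≤ 0) →
    -(bil G k (act m k')).re ≤ ‖bil G k k'‖

/-! ### isomorphisms -/

/-- TRA: transport of a Kummer structure along an affine isomorphism of the tori -/
def StTrA : Prop :=
  ∀ (Y' : W.K3) (co co' : Co) (K' : All.Kummer (Lt co') Y'.X) (h : V ≃L[ℂ] V)
    (M : Matrix (Fin 4) (Fin 4) ℤ) (t : F4), M.det = 1 →
    (∀ j, h (lv co j) = lp co' fun i => M i j) →
    ∃ K : All.Kummer (Lt co) Y'.X,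
      (∀ z, Good co z → Good co' (h z + pt co' t) ∧ pr K z = pr K' (h z + pt co' t)) ∧
      ∀ b, Cv K b = Cv K' (aff M t b)

/-- TRB: the Kummer surface of a torus is unique -/
def StTrB : Prop :=
  ∀ (Y Y' : W.K3) (L : AddSubgroup V) (K : All.Kummer L Y.X) (K' : All.Kummer L Y'.X),
    (∀ R : ℝ, {y : V | y ∈ L ∧ ‖y‖ ≤ R}.Finite) →
    ∃ f : Y.X ≃ₜ Y'.X, Bih f ∧ ∀ a b v, All.Dom L a b v → f (K.N a b v) = K'.N a b v

/-- PB: pull backs under biholomorphic maps -/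
def StPb : Prop :=
  ∀ (Y Y' : W.K3) (f : Y.X ≃ₜ Y'.X), Bih f →
    (∀ (ν : V → Y.X) (v : V), Et ν v → Et (fun z => f (ν z)) v ∧
      ∀ F : TwoF Y'.X, p2 ν (pb2 f F) v = p2 (fun z => f (ν z)) F v) ∧
    ∀ N : Y'.X → ℝ, IsNormFn FL.C2 N → IsNormFn FL.C2 (fun y => N (f y)) ∧
      pb2 f (cF N) = cF (fun y => N (f y)) ∧
      ∀ p, (∃ U g ψ, f p ∈ U ∧ LocRep FL.C2 N U g ψ ∧ mfderiv 𝓘(ℂ, FL.C2) 𝓘(ℂ) g (f p) ≠ 0) →
        ∃ U g ψ, p ∈ U ∧ LocRep FL.C2 (fun y => N (f y)) U g ψ ∧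
          mfderiv 𝓘(ℂ, FL.C2) 𝓘(ℂ) g p ≠ 0

/-- PULL: diffeomorphisms act on the lattices -/
def StPull : Prop :=
  ∀ (Y Y' : W.K3) (f : Y.X ≃ₜ Y'.X), IsDiffeo f → ∀ (n : ℕ) (U : UData Y.X n) (U' : UData Y'.X n),
    ∃ m : Matrix (Fin n) (Fin n) ℤ,
      (∀ (F : TwoF Y'.X) (k : Fin n → ℂ), F.Smooth → ExactTwo (F - U'.combC k) →
        ExactTwo (pb2 f F - U.combC (act m k))) ∧
      ∀ x y : Fin n → ℂ, bil U.G (act m x) (act m y) = bil U'.G x y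

end Vale.Agent.P290Z.KT
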