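import Vale.Agent.P290Z.KT.ShiA
import Vale.Agent.P290Z.KT.Spec

/-! P290Z, block KT: SHI. -/

namespace Vale.Agent.P290Z.KT

theorem shi : StShi := fun B m _ h1 h2 h3 h4 => by
  obtain ⟨M, ε, a, b, c, d⟩ := Shi.main (fun k l => Matrix.of (el k l))
    (fun k l => Matrix.of (B k l)) m h1 (fun k l => Matrix.ext (h2 k l)) h3
    (fun k l => Matrix.ext (h4 k l)) (by decide) (by decide) (by decide) (by decide) (by decide)
    (by decide)
  exact ⟨M, ε, a, b, c, fun k l i j => congrFun (congrFun (d k l) i) j⟩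

end Vale.Agent.P290Z.KT
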