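import Vale.Agent.P290Z.KT.Cl

/-! P290Z, part III, block KT: the Torelli theorem for generic Kummer surfaces. -/

open Set Filter
open scoped Topology Manifold ContDiff ComplexConjugate

noncomputable section

namespace Vale.Agent.P290Z.KT

open Vale.Agent.P290 Vale.Agent.P267 Vale.Agent.P290Z.W Vale.Agent.P290Z.Top
open Vale.Agent.P267.FL (TwoF OneF LB)
open Vale.Agent.P267.BlockC (pair ExactTwo ALB)
open Vale.Agent.P267.H332 (cF HC intAx cF_smooth cF_closed)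
open Vale.Agent.P267.H757 (IsNormFn)
open Vale.Agent.P290.H726 (bil)
open Vale.Agent.P290.H342
open Vale.Agent.P290.H686 (pb2)
open Vale.Agent.P290Z.Kum (pr)
open Vale.Agent.P290Z.W.Kur (omF)
open Vale.Agent.P290Z.W.BR (Bih SCR Tames StTamePos StBih)
open Vale.Agent.P290Z.Lat (act)

namespace TorA

/-- the same configuration for an equal Gram matrix -/
def tr {n : ℕ} {G G' : Matrix (Fin n) (Fin n) ℤ} (h : G' = G) (κ : LConf G') : LConf G :=
  ⟨κ.φ, fun x y => h ▸ κ.form x y⟩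

theorem exists_kum {Z : W.K3} (h : All.IsKummer Z.X) :
    ∃ co : Co, Pos co ∧ Nonempty (All.Kummer (Lt co) Z.X) := by
  obtain ⟨l, hl, hK⟩ := h
  obtain ⟨co, h1, h2⟩ := exists_co hl
  exact ⟨co, h1, h2 ▸ hK⟩

theorem per_E {Z : W.K3} {co : Co} {K : All.Kummer (Lt co) Z.X} {n : ℕ} {U : UData Z.X n}
    {κ : LConf U.G} {J : ℂ} (h : KL K U κ J) {s : Fin n → ℂ} (hs : Prd Z U s) (a : F4) :
    bil U.G s (Lat.cs ℂ (κ.E a)) = 0 := by
  rw [LConf.E, h.per s hs]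
  simp [eK, pf]

theorem act_cs {n : ℕ} (m : Matrix (Fin n) (Fin n) ℤ) (k : Fin n → ℤ) :
    act m (Lat.cs ℂ k) = Lat.cs ℂ (act m k) := by
  funext i
  simp [act, Lat.cs]

theorem sign (hpos : StTamePos) {Z : W.K3} {n : ℕ} {U : UData Z.X n} {N : Z.X → ℝ}
    (hN : IsNormFn FL.C2 N) {e : Fin n → ℤ} (he : U.HasCl (cF N) e) {P : TwoF Z.X} (hP : SCR P)
    (hT : Tames P) {k : Fin n → ℂ} (hk : ExactTwo (P - U.combC k)) :
    (Complex.I * bil U.G (Lat.cs ℂ e) k).im = 0 ∧ (Complex.I * bil U.G (Lat.cs ℂ e) k).re ≤ 0 := by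
  have h1 := (hpos Z P hP hT N hN).1
  have h2 := im_pair_cF hN hP.1 hP.2.2
  have h3 : Complex.I * pair (cF N) P =
      ((-(4 * Real.pi ^ 2) : ℝ) : ℂ) * (Complex.I * bil U.G (Lat.cs ℂ e) k) := by
    rw [pair_cl (hasCl_iff.1 he) hk]
    push_cast
    ring
  have h4 : 0 < 4 * Real.pi ^ 2 := by positivity
  rw [h3, Complex.re_ofReal_mul] at h1
  rw [h3, Complex.im_ofReal_mul] at h2
  exact ⟨(mul_eq_zero.1 h2).resolve_left (by linarith), by nlinarith⟩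

end TorA

open TorA in
theorem tork (hnik : StNik) (hpos : StTamePos) (hbih : StBih) (hkl : StKL) (h0 : StApi0)
    (hx : StExt) (hp : StPL) (hau : StAut) (hge : StGen) (hpe : StPer) (hen : StEnL)
    (hta : StTrA) (htb : StTrB) (hpb : StPb) (hpu : StPull) (hcf : StLConf) : StTorK := by
  intro Z Z' n U U' κ₁ s hG hs hs' hgen₁
  have hgen' : GenK (G := U'.G) ⟨κ₁.g, by rw [hG]; exact κ₁.isom⟩ s := by
    change Lat.Gen U'.G κ₁.E s
    rw [hG]
    exact hgen₁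
  obtain ⟨co, hco, ⟨K⟩⟩ := exists_kum (hnik Z n U κ₁ s hs hgen₁)
  obtain ⟨co', hco', ⟨K'⟩⟩ := exists_kum (hnik Z' n U' _ s hs' hgen')
  obtain ⟨κ₀, hgen⟩ := hcf n U.G κ₁ s hgen₁
  obtain ⟨κ, J, hK⟩ := hkl Z co K hco n U ⟨κ₀⟩
  obtain ⟨κ', J', hK'⟩ := hkl Z' co' K' hco' n U' ⟨tr hG.symm κ₀⟩
  obtain ⟨g1, g2⟩ := hge n U.G κ₀ κ (tr hG κ') s hgen (per_E hK hs) fun a =>
    (congrArg (fun G => bil G s (Lat.cs ℂ (κ'.E a))) hG).symm.trans (per_E hK' hs' a)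
  let γ : LKm →+ LKm := κ.φ.symm.toAddMonoidHom.comp κ'.φ.toAddMonoidHom
  have hγ : ∀ x, κ.φ (γ x) = κ'.φ x := fun x => κ.φ.apply_symm_apply _
  have hE : ∀ a b, (γ (eK a) = eK b ∨ γ (eK a) = -eK b) ↔ (κ'.E a = κ.E b ∨ κ'.E a = -κ.E b) := by
    intro a b
    rw [LConf.E, LConf.E, ← hγ, ← map_neg, κ.φ.injective.eq_iff, κ.φ.injective.eq_iff]
  obtain ⟨M, t, ε, hM, hε, a1, a2⟩ := hau γ
    (fun x y => by rw [← κ.form, hγ, hγ, ← hG, κ'.form])
    (fun a => (g1 a).imp fun b hb => (hE a b).2 hb)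
  have hc : (4 * Real.pi * Complex.I : ℂ) ≠ 0 :=
    mul_ne_zero (mul_ne_zero (by norm_num) (by exact_mod_cast Real.pi_ne_zero)) Complex.I_ne_zero
  obtain ⟨h, h1, h2⟩ := hpe co co' J J' M ε hK.ne hK'.ne hM hε fun x => by
    have e1 := hK.per s hs (γ x)
    have e2 := hK'.per s hs' x
    rw [hγ, ← hG, e2, div_mul_eq_mul_div, div_mul_eq_mul_div, div_left_inj' hc] at e1
    simp only [a2] at e1
    exact e1.symm
  obtain ⟨K'', t1, t2⟩ := hta Z' co co' K' h M t hM h1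
  obtain ⟨f, hf, hfN⟩ := htb Z Z' _ K K'' (hfin co)
  have hd := hbih Z Z' f hf
  have hfp : ∀ z, Good co z → f (pr K z) = pr K' (h z + pt co' t) := fun z hz =>
    (hfN _ _ _ (Kum.dom_zero hz (Kum.cs_ne hz))).trans (t1 z hz).2
  have hfc : ∀ b y, f y ∈ Cv K' (aff M t b) ↔ y ∈ Cv K b := fun b y => by
    rw [← t2]
    exact exists_congr fun c => exists_congr fun u => by
      rw [← hfN _ _ _ (dom_pt b c u), f.injective.eq_iff]
  have hom : pb2 f (omF Z') = (ε : ℂ) • omF Z := by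
    have e1 := (HC Z.X).smul_mem (-(ε : ℂ)) (hc_of_cl hs)
    refine eq_of_sub_eq_zero ?_
    rw [sub_eq_add_neg, ← neg_smul]
    refine (hx Z co K _ (H332.TwoF_smooth_add (H686.pb2_smooth hd.smooth (hc_of_cl hs').1)
      e1.1)).1 fun z hz => ContinuousLinearMap.ext fun x => ContinuousLinearMap.ext fun y => ?_
    have e2 : HasFDerivAt (fun z => h z + pt co' t)
        ((h : V →L[ℂ] V).restrictScalars ℝ) z :=
      ((h : V →L[ℂ] V).restrictScalars ℝ).hasFDerivAt.add_const _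
    have e3 := (h0 Z').2.1 (fun z => f (pr K z)) (pr K') (fun z => h z + pt co' t) z
      (et_pr K' (t1 z hz).1) e2.differentiableAt (hz.ev.mono fun w hw => hfp w hw)
    have e4 := hK'.om _ (t1 z hz).1 (h x) (h y)
    rw [p2_add, p2_smul, hK.om z hz, ((hpb Z Z' f hf).1 _ z (et_pr K hz)).2, p2_apply, e3,
      e2.fderiv, hfp z hz]
    rw [p2_apply] at e4
    refine (congrArg (· + _) e4).trans ?_
    rw [h2]
    simp [mul_assoc]
  obtain ⟨m, m1, m2⟩ := hpu Z Z' f hd n U U'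
  have hms : act m s = (ε : ℂ) • s := by
    have e1 := m1 _ s (hc_of_cl hs').1 hs'
    have e2 := exact_smul (ε : ℂ) hs
    rw [smul_sub, ← hom, ← UData.combC_smul] at e2
    exact (U.span _ (hc_of_cl e1).1 (hc_of_cl e1).2.1).unique e1 e2
  have hmE : ∀ b, act m (κ'.E (aff M t b)) = κ.E b := fun b => by
    obtain ⟨N', n1, n2⟩ := hK'.cl (aff M t b)
    obtain ⟨N, n3, n4⟩ := hK.cl b
    obtain ⟨p1, p2, p3⟩ := (hpb Z Z' f hf).2 N' n1.nf
    have e1 := m1 _ _ (cF_smooth n1.nf) (hasCl_iff.1 n2)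
    rw [p2, act_cs] at e1
    exact cl_eq (hasCl_iff.2 e1) n4 ((hp Z co K b _ ⟨p1, fun y => (n1.zero _).trans (hfc b y),
      fun p hp => p3 p (n1.red _ hp)⟩).2.2 N n3)
  refine ⟨f, hf, fun P P' k k' hP hT hP' hT' hk hk' => ?_⟩
  have e1 := hen n U.G m κ (fun b => κ'.E (aff M t b)) ε s k k' hε
    (fun x y => by rw [m2, hG]) hms hmE (fun b => (hE _ b).1 (a1 b)) g2
    (fun b => by
      obtain ⟨N, n3, n4⟩ := hK.cl b
      exact sign hpos n3.nf n4 hP hT hk)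
    (fun b => by
      obtain ⟨N, n3, n4⟩ := hK'.cl (aff M t b)
      exact hG ▸ sign hpos n3.nf n4 hP' hT' hk')
  have e2 : pair P (pb2 f P') = ((-(4 * Real.pi ^ 2) : ℝ) : ℂ) * bil U.G k (act m k') := by
    rw [pair_cl hk (m1 _ _ hP'.1 hk')]
    push_cast
    rfl
  have h4 : 0 < 4 * Real.pi ^ 2 := by positivity
  rw [e2, Complex.re_ofReal_mul]
  nlinarith

end Vale.Agent.P290Z.KT
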