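import Vale.Agent.P290Z.KT.Spec

/-! P290Z, part III, block KT, step TRA: transport of a Kummer structure along an affine
isomorphism of the tori. -/

open Set Filter
open scoped Topology

noncomputable section

namespace Vale.Agent.P290Z.KT

open Vale.Agent.P290 Vale.Agent.P290Z.Top
open Vale.Agent.P290Z.Kum (pr ph cs ct)
open Vale.Agent.P290.All (dir Dom Etale)

namespace TrA

/-! ### the lattice -/

theorem lp_eq (co : Co) (m : Fin 4 → ℤ) : lp co m = ∑ i, m i • lv co i := by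
  apply co.injective
  simp only [lp, lv, map_sum, map_zsmul, ContinuousLinearEquiv.apply_symm_apply]
  funext j
  simp [Finset.sum_apply, Pi.single_apply]

theorem lv_mem (co : Co) (i : Fin 4) : lv co i ∈ Lt co :=
  AddSubgroup.subset_closure (mem_range_self i)

theorem lp_mem (co : Co) (m : Fin 4 → ℤ) : lp co m ∈ Lt co := by
  rw [lp_eq]
  exact sum_mem fun i _ => zsmul_mem (lv_mem co i) _

theorem fin_Lt (co : Co) (R : ℝ) : {y : V | y ∈ Lt co ∧ ‖y‖ ≤ R}.Finite := by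
  have h : LinearIndependent ℝ (lv co) := by
    have h1 := (Pi.basisFun ℝ (Fin 4)).linearIndependent.map' (co.symm : R4 →ₗ[ℝ] V)
      (LinearMap.ker_eq_bot.2 co.symm.injective)
    have h2 : lv co = (co.symm : R4 →ₗ[ℝ] V) ∘ Pi.basisFun ℝ (Fin 4) := by
      funext i
      simp [lv]
    rwa [h2]
  exact (Kum.lat h).1 R

theorem pt_two (co : Co) (t : F4) : pt co t + pt co t ∈ Lt co := by
  have : pt co t + pt co t = lp co fun i => ((t i).val : ℤ) := by
    apply co.injective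
    simp only [pt, lp, map_add, ContinuousLinearEquiv.apply_symm_apply]
    funext i
    simp
  rw [this]
  exact lp_mem co _

section lat

variable {co co' : Co} {h : V ≃L[ℂ] V} {M : Matrix (Fin 4) (Fin 4) ℤ}

theorem map_real (h : V ≃L[ℂ] V) (r : ℝ) (x : V) : h (r • x) = r • h x := by
  rw [← Complex.coe_smul, map_smul, Complex.coe_smul]

theorem co_map (hM : ∀ j, h (lv co j) = lp co' fun i => M i j) (x : R4) (i : Fin 4) :
    co' (h (co.symm x)) i = ∑ j, (M i j : ℝ) * x j := by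
  have h1 : co.symm x = ∑ j, x j • lv co j := by
    apply co.injective
    simp only [lv, map_sum, map_smul, ContinuousLinearEquiv.apply_symm_apply]
    funext j
    simp [Finset.sum_apply, Pi.single_apply]
  rw [h1]
  simp only [map_sum, map_real, map_smul, hM, lp, ContinuousLinearEquiv.apply_symm_apply,
    Finset.sum_apply, Pi.smul_apply, smul_eq_mul]
  exact Finset.sum_congr rfl fun j _ => mul_comm _ _

theorem map_lp (hM : ∀ j, h (lv co j) = lp co' fun i => M i j) (m : Fin 4 → ℤ) :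
    h (lp co m) = lp co' (M.mulVec m) := by
  apply co'.injective
  funext i
  rw [lp, co_map hM, lp, ContinuousLinearEquiv.apply_symm_apply]
  simp [Matrix.mulVec, dotProduct]

theorem mem_iff (hd : M.det = 1) (hM : ∀ j, h (lv co j) = lp co' fun i => M i j) (x : V) :
    x ∈ Lt co ↔ h x ∈ Lt co' := by
  constructor
  · intro hx
    have : Lt co ≤ (Lt co').comap (h : V →L[ℂ] V).toAddMonoidHom := by
      refine (AddSubgroup.closure_le _).2 ?_
      rintro _ ⟨j, rfl⟩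
      change h (lv co j) ∈ Lt co'
      rw [hM]
      exact lp_mem _ _
    exact this hx
  · intro hx
    have : Lt co' ≤ (Lt co).comap (h.symm : V →L[ℂ] V).toAddMonoidHom := by
      refine (AddSubgroup.closure_le _).2 ?_
      rintro _ ⟨j, rfl⟩
      change h.symm (lv co' j) ∈ Lt co
      have h1 : h (lp co (M.adjugate.mulVec (Pi.single j 1))) = lv co' j := by
        rw [map_lp hM, Matrix.mulVec_mulVec, Matrix.mul_adjugate, hd, one_smul,
          Matrix.one_mulVec, lp, lv]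
        congr 1
        funext i
        by_cases e : i = j <;> simp [e]
      rw [← h1, ContinuousLinearEquiv.symm_apply_apply]
      exact lp_mem _ _
    have h2 : h.symm (h x) ∈ Lt co := this hx
    rwa [ContinuousLinearEquiv.symm_apply_apply] at h2

theorem pt_aff (hM : ∀ j, h (lv co j) = lp co' fun i => M i j) (t b : F4) :
    pt co' (aff M t b) - (h (pt co b) + pt co' t) ∈ Lt co' := by
  have h1 : ∀ i, ∃ k : ℤ, ((aff M t b i).val : ℤ) - (∑ j, M i j * ((b j).val : ℤ) + (t i).val) =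
      2 * k := fun i => by
    have : ((((aff M t b i).val : ℤ) - (∑ j, M i j * ((b j).val : ℤ) + (t i).val) : ℤ) :
        ZMod 2) = 0 := by
      push_cast
      simp [aff]
    exact (ZMod.intCast_zmod_eq_zero_iff_dvd _ 2).1 this
  choose k hk using h1
  have : pt co' (aff M t b) - (h (pt co b) + pt co' t) = lp co' k := by
    apply co'.injective
    funext i
    have h2 : (((aff M t b i).val : ℝ)) - (∑ j, (M i j : ℝ) * ((b j).val : ℝ) + (t i).val) =
        2 * k i := by exact_mod_cast hk i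
    simp only [map_sub, map_add, Pi.sub_apply, Pi.add_apply]
    rw [pt, pt, pt, co_map hM, lp]
    simp only [ContinuousLinearEquiv.apply_symm_apply, ← mul_div_assoc, ← Finset.sum_div]
    linarith
  rw [this]
  exact lp_mem _ _

end lat

/-! ### the change of the coordinates -/

/-- the factor -/
def lam (g : V ≃L[ℂ] V) (b b' : Bool) (u : ℂ) : ℂ := cs b' (g (dir b u))

/-- the map induced by `g` in the charts of the resolution -/
def phi (g : V ≃L[ℂ] V) (b b' : Bool) (v : V) : V :=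
  (lam g b b' v.2 ^ 2 * v.1, ct b' (g (dir b v.2)) / lam g b b' v.2)

open Classical in
/-- the choice of a chart -/
def ch (g : V ≃L[ℂ] V) (b : Bool) (u : ℂ) : Bool := decide ((g (dir b u)).1 ≠ 0)

variable {g : V ≃L[ℂ] V} {b b' : Bool} {v : V}

theorem dir_ne (b : Bool) (u : ℂ) : dir b u ≠ 0 := by
  cases b <;> simp [dir]

theorem lam_ch (g : V ≃L[ℂ] V) (b : Bool) (u : ℂ) : lam g b (ch g b u) u ≠ 0 := by
  have h0 : g (dir b u) ≠ 0 := fun e => dir_ne b u (g.injective (e.trans (map_zero g).symm))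
  unfold lam ch
  by_cases h : (g (dir b u)).1 = 0
  · have h1 : (g (dir b u)).2 ≠ 0 := fun e => h0 (Prod.ext h e)
    simpa [h, cs] using h1
  · simp [h, cs]

theorem lam_smul (h : lam g b b' v.2 ≠ 0) :
    lam g b b' v.2 • dir b' (phi g b b' v).2 = g (dir b v.2) :=
  Kum.smul_dir (b := b') (z := g (dir b v.2)) h

theorem mul_smul_dir (h : lam g b b' v.2 ≠ 0) (w : ℂ) :
    (lam g b b' v.2 * w) • dir b' (phi g b b' v).2 = g (w • dir b v.2) := by
  rw [mul_comm, mul_smul, lam_smul h, map_smul]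

theorem symm_dir (h : lam g b b' v.2 ≠ 0) :
    g.symm (dir b' (phi g b b' v).2) = (lam g b b' v.2)⁻¹ • dir b v.2 := by
  apply g.injective
  rw [ContinuousLinearEquiv.apply_symm_apply, ← mul_smul_dir h, mul_inv_cancel₀ h, one_smul]

theorem lam_symm (h : lam g b b' v.2 ≠ 0) :
    lam g.symm b' b (phi g b b' v).2 = (lam g b b' v.2)⁻¹ := by
  rw [lam, symm_dir h, Kum.cs_smul_dir]

theorem phi_symm (h : lam g b b' v.2 ≠ 0) : phi g.symm b' b (phi g b b' v) = v := by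
  refine Prod.ext ?_ ?_
  · change lam g.symm b' b (phi g b b' v).2 ^ 2 * (lam g b b' v.2 ^ 2 * v.1) = v.1
    rw [lam_symm h]
    field_simp
  · change ct b (g.symm (dir b' (phi g b b' v).2)) / lam g.symm b' b (phi g b b' v).2 = v.2
    rw [lam_symm h, symm_dir h, Kum.ct_smul_dir]
    field_simp

theorem diff_dir (b : Bool) : Differentiable ℂ (dir b) := by
  cases b
  · exact differentiable_id.prodMk (differentiable_const _)
  · exact (differentiable_const _).prodMk differentiable_id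

theorem diff_lam (g : V ≃L[ℂ] V) (b b' : Bool) : Differentiable ℂ fun v : V => lam g b b' v.2 := by
  have h := g.differentiable.comp ((diff_dir b).comp (differentiable_snd (𝕜 := ℂ) (E := ℂ)))
  cases b'
  · exact h.snd
  · exact h.fst

theorem diff_ct (g : V ≃L[ℂ] V) (b b' : Bool) :
    Differentiable ℂ fun v : V => ct b' (g (dir b v.2)) := by
  have h := g.differentiable.comp ((diff_dir b).comp (differentiable_snd (𝕜 := ℂ) (E := ℂ)))
  cases b'
  · exact h.fst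
  · exact h.snd

theorem diff_phi (h : lam g b b' v.2 ≠ 0) : DifferentiableAt ℂ (phi g b b') v := by
  have h1 := (diff_ct g b b' v).mul ((diff_lam g b b' v).inv h)
  refine (((diff_lam g b b' v).pow 2).mul differentiableAt_fst).prodMk
    (h1.congr_of_eventuallyEq (Eventually.of_forall fun z => ?_))
  exact div_eq_mul_inv _ _

theorem det_comp (A B : V →L[ℂ] V) : (A.comp B).det = A.det * B.det :=
  LinearMap.det_comp (A : V →ₗ[ℂ] V) (B : V →ₗ[ℂ] V)

theorem ev_lam (h : lam g b b' v.2 ≠ 0) : ∀ᶠ z in 𝓝 v, lam g b b' z.2 ≠ 0 :=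
  (diff_lam g b b').continuous.continuousAt.eventually_ne h

theorem det_phi (h : lam g b b' v.2 ≠ 0) : (fderiv ℂ (phi g b b') v).det ≠ 0 := by
  have h' : lam g.symm b' b (phi g b b' v).2 ≠ 0 := by
    rw [lam_symm h]
    exact inv_ne_zero h
  have h1 := (diff_phi h').hasFDerivAt.comp v (diff_phi h).hasFDerivAt
  have h2 : HasFDerivAt (phi g.symm b' b ∘ phi g b b') (ContinuousLinearMap.id ℂ V) v :=
    (hasFDerivAt_id v).congr_of_eventuallyEq ((ev_lam h).mono fun _ hz => phi_symm hz)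
  have h3 := congrArg ContinuousLinearMap.det (h1.unique h2)
  intro h4
  have h5 : (ContinuousLinearMap.id ℂ V).det = 1 := LinearMap.det_id
  rw [h5, det_comp, h4, mul_zero] at h3
  exact zero_ne_one h3

section top

variable {X : Type} [TopologicalSpace X] [ChartedSpace V X]

theorem etale_comp {f ν : V → X} {φ : V → V} (hf : Etale f (φ v)) (hφ : DifferentiableAt ℂ φ v)
    (hd : (fderiv ℂ φ v).det ≠ 0) (h : ν =ᶠ[𝓝 v] fun z => f (φ z)) : Etale ν v := by
  have h0 : ν v = f (φ v) := h.self_of_nhds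
  have h1 : (fun z => chartAt V (ν v) (ν z)) =ᶠ[𝓝 v]
      (fun z => chartAt V (f (φ v)) (f z)) ∘ φ := h.mono fun z hz => by
    simp only [Function.comp, h0, hz]
  have h2 := (hf.2.1.hasFDerivAt.comp v hφ.hasFDerivAt).congr_of_eventuallyEq h1
  refine ⟨(hf.1.comp hφ.continuousAt).congr h.symm, h2.differentiableAt, ?_⟩
  rw [h2.fderiv, det_comp]
  exact mul_ne_zero hf.2.2 hd

variable {L L' : AddSubgroup V}

theorem dom_phi (hL : ∀ x, x ∈ L ↔ g x ∈ L') {a a' : V} (hD : Dom L a b v) (ha : a' + a' ∈ L')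
    (h : lam g b b' v.2 ≠ 0) : Dom L' a' b' (phi g b b' v) := by
  refine ⟨ha, fun w hw hm => ?_⟩
  have e : w = lam g b b' v.2 * (w / lam g b b' v.2) := by field_simp
  have h1 : w / lam g b b' v.2 = 0 := by
    refine hD.2 _ ?_ ((hL _).2 ?_)
    · rw [div_pow, hw]
      change lam g b b' v.2 ^ 2 * v.1 / _ = _
      field_simp
    · rw [← mul_smul_dir h, mul_add, ← e]
      exact hm
  rw [e, h1, mul_zero]

theorem two_mem (hL : ∀ x, x ∈ L ↔ g x ∈ L') {a p : V} (hp : p + p ∈ L') :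
    g a + p + (g a + p) ∈ L' ↔ a + a ∈ L := by
  rw [add_add_add_comm, ← map_add, hL]
  exact L'.add_mem_cancel_right hp

/-- the relation which defines the Kummer surface -/
def Rel (L : AddSubgroup V) (a : V) (b : Bool) (v a' : V) (b' : Bool) (v' : V) : Prop :=
  (v.1 ≠ 0 ∧ v'.1 ≠ 0 ∧ ∃ w w' : ℂ, w ^ 2 = v.1 ∧ w' ^ 2 = v'.1 ∧
    a' + w' • dir b' v'.2 - (a + w • dir b v.2) ∈ L) ∨
  (v.1 = 0 ∧ v'.1 = 0 ∧ a' - a ∈ L ∧ ∃ t : ℂ, dir b' v'.2 = t • dir b v.2)

theorem rel_refl (L : AddSubgroup V) (a : V) (b : Bool) (v : V) : Rel L a b v a b v := by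
  by_cases h : v.1 = 0
  · exact Or.inr ⟨h, h, by simp, 1, (one_smul _ _).symm⟩
  · obtain ⟨w, hw⟩ := IsAlgClosed.exists_pow_nat_eq v.1 two_pos
    exact Or.inl ⟨h, h, w, w, hw, hw, by simp⟩

theorem rel_phi (hL : ∀ x, x ∈ L ↔ g x ∈ L') {a₁ a₂ c₁ c₂ v₁ v₂ : V} {b₁ b₂ d₁ d₂ : Bool}
    (hc : c₂ - c₁ = g (a₂ - a₁)) (h₁ : lam g b₁ d₁ v₁.2 ≠ 0) (h₂ : lam g b₂ d₂ v₂.2 ≠ 0)
    (h : Rel L a₁ b₁ v₁ a₂ b₂ v₂) : Rel L' c₁ d₁ (phi g b₁ d₁ v₁) c₂ d₂ (phi g b₂ d₂ v₂) := by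
  rcases h with ⟨e1, e2, w, w', e3, e4, e5⟩ | ⟨e1, e2, e3, t, e4⟩
  · refine Or.inl ⟨mul_ne_zero (pow_ne_zero 2 h₁) e1, mul_ne_zero (pow_ne_zero 2 h₂) e2,
      lam g b₁ d₁ v₁.2 * w, lam g b₂ d₂ v₂.2 * w', by rw [mul_pow, e3]; rfl,
      by rw [mul_pow, e4]; rfl, ?_⟩
    rw [mul_smul_dir h₁, mul_smul_dir h₂, add_sub_add_comm, hc, ← map_sub, ← map_add,
      ← add_sub_add_comm]
    exact (hL _).1 e5
  · refine Or.inr ⟨mul_eq_zero_of_right _ e1, mul_eq_zero_of_right _ e2, hc ▸ (hL _).1 e3,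
      lam g b₁ d₁ v₁.2 * ((lam g b₂ d₂ v₂.2)⁻¹ * t), ?_⟩
    rw [mul_smul_dir h₁, mul_smul, ← e4, ← mul_smul_dir h₂, mul_inv_cancel₀ h₂, one_smul]

theorem mem_symm (hL : ∀ x, x ∈ L ↔ g x ∈ L') (x : V) : x ∈ L' ↔ g.symm x ∈ L := by
  rw [hL, ContinuousLinearEquiv.apply_symm_apply]

theorem rel_iff (hL : ∀ x, x ∈ L ↔ g x ∈ L') (p : V) {a₁ a₂ v₁ v₂ : V} {b₁ b₂ d₁ d₂ : Bool}
    (h₁ : lam g b₁ d₁ v₁.2 ≠ 0) (h₂ : lam g b₂ d₂ v₂.2 ≠ 0) :
    Rel L' (g a₁ + p) d₁ (phi g b₁ d₁ v₁) (g a₂ + p) d₂ (phi g b₂ d₂ v₂) ↔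
      Rel L a₁ b₁ v₁ a₂ b₂ v₂ := by
  refine ⟨fun h => ?_, rel_phi hL (by rw [add_sub_add_right_eq_sub, map_sub]) h₁ h₂⟩
  have := rel_phi (c₁ := a₁) (c₂ := a₂) (d₁ := b₁) (d₂ := b₂) (mem_symm hL)
    (by rw [add_sub_add_right_eq_sub, ← map_sub, ContinuousLinearEquiv.symm_apply_apply])
    (by rw [lam_symm h₁]; exact inv_ne_zero h₁) (by rw [lam_symm h₂]; exact inv_ne_zero h₂) h
  rwa [phi_symm h₁, phi_symm h₂] at this

variable (K' : All.Kummer L' X)

/-- the transported charts -/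
def NN (g : V ≃L[ℂ] V) (p a : V) (b : Bool) (v : V) : X :=
  K'.N (g a + p) (ch g b v.2) (phi g b (ch g b v.2) v)

variable {p : V}

theorem eq_iff (hL : ∀ x, x ∈ L ↔ g x ∈ L') (hp : p + p ∈ L') {a₁ a₂ v₁ v₂ : V}
    {b₁ b₂ d₁ d₂ : Bool} (D₁ : Dom L a₁ b₁ v₁) (D₂ : Dom L a₂ b₂ v₂)
    (h₁ : lam g b₁ d₁ v₁.2 ≠ 0) (h₂ : lam g b₂ d₂ v₂.2 ≠ 0) :
    K'.N (g a₁ + p) d₁ (phi g b₁ d₁ v₁) = K'.N (g a₂ + p) d₂ (phi g b₂ d₂ v₂) ↔
      Rel L a₁ b₁ v₁ a₂ b₂ v₂ :=
  (K'.rel _ _ _ _ _ _ (dom_phi hL D₁ ((two_mem hL hp).2 D₁.1) h₁)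
    (dom_phi hL D₂ ((two_mem hL hp).2 D₂.1) h₂)).trans (rel_iff hL p h₁ h₂)

theorem NN_eq (hL : ∀ x, x ∈ L ↔ g x ∈ L') (hp : p + p ∈ L') {a : V} (D : Dom L a b v)
    (h : lam g b b' v.2 ≠ 0) : NN K' g p a b v = K'.N (g a + p) b' (phi g b b' v) :=
  (eq_iff K' hL hp D D (lam_ch g b v.2) h).2 (rel_refl L a b v)

theorem NN_symm (hL : ∀ x, x ∈ L ↔ g x ∈ L') (hp : p + p ∈ L') {a : V}
    (D : Dom L' (g a + p) b' v) :
    Dom L a (ch g.symm b' v.2) (phi g.symm b' (ch g.symm b' v.2) v) ∧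
      NN K' g p a (ch g.symm b' v.2) (phi g.symm b' (ch g.symm b' v.2) v) =
        K'.N (g a + p) b' v := by
  have h := lam_ch g.symm b' v.2
  have D' := dom_phi (mem_symm hL) D ((two_mem hL hp).1 D.1) h
  have h1 := lam_symm h
  have h2 := phi_symm h
  rw [ContinuousLinearEquiv.symm_symm] at h1 h2
  refine ⟨D', ?_⟩
  rw [NN_eq K' (b' := b') hL hp D' (by rw [h1]; exact inv_ne_zero h), h2]

/-- the transported Kummer structure -/
def tr (hL : ∀ x, x ∈ L ↔ g x ∈ L') (hp : p + p ∈ L')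
    (hfin : ∀ R : ℝ, {y : V | y ∈ L ∧ ‖y‖ ≤ R}.Finite) : All.Kummer L X where
  N := NN K' g p
  etale a b v D := by
    have h := lam_ch g b v.2
    refine etale_comp (K'.etale _ _ _ (dom_phi hL D ((two_mem hL hp).2 D.1) h)) (diff_phi h)
      (det_phi h) ?_
    filter_upwards [ev_lam h, Kum.ev_dom hfin D] with z h1 h2
    exact NN_eq K' hL hp h2 h1
  cover y := by
    obtain ⟨a', b', v', D, rfl⟩ := K'.cover y
    have e : g (g.symm (a' - p)) + p = a' := by
      rw [ContinuousLinearEquiv.apply_symm_apply, sub_add_cancel]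
    have := NN_symm K' hL hp (a := g.symm (a' - p)) (e.symm ▸ D)
    exact ⟨_, _, _, this.1, this.2.trans (by rw [e])⟩
  rel a b v a' b' v' D D' := eq_iff K' hL hp D D' (lam_ch _ _ _) (lam_ch _ _ _)

theorem dom0 {a : V} (ha : a + a ∈ L) (b : Bool) (u : ℂ) : Dom L a b (0, u) :=
  ⟨ha, fun _ hw _ => (pow_eq_zero_iff two_ne_zero).1 hw⟩

theorem shift0 {a a' : V} (ha : a + a ∈ L') (ha' : a' + a' ∈ L') (h : a' - a ∈ L') (b : Bool)
    (u : ℂ) : K'.N a b (0, u) = K'.N a' b (0, u) :=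
  (K'.rel _ _ _ _ _ _ (dom0 ha b u) (dom0 ha' b u)).2
    (Or.inr ⟨rfl, rfl, h, 1, (one_smul _ _).symm⟩)

theorem phi0 (g : V ≃L[ℂ] V) (b b' : Bool) (u : ℂ) :
    phi g b b' (0, u) = (0, (phi g b b' (0, u)).2) :=
  Prod.ext (mul_zero _) rfl

theorem NN_pr (hL : ∀ x, x ∈ L ↔ g x ∈ L') (hp : p + p ∈ L') {z : V} (hz : z + z ∉ L) {c : Bool}
    (hc : cs c z ≠ 0) : NN K' g p 0 c (ph c z) = pr K' (g z + p) := by
  have D := Kum.dom_zero hz hc
  have hl := lam_ch g c (ph c z).2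
  refine Kum.rep K' (dom_phi hL D ((two_mem hL hp).2 D.1) hl) (w := _ * cs c z)
    (by rw [mul_pow]; rfl) (mul_ne_zero hl hc) ?_
  rw [mul_smul_dir hl, Kum.smul_dir hc, map_zero, zero_add, add_comm, sub_self]
  exact zero_mem _

end top

end TrA

open TrA

/-- TRA -/
theorem trA : StTrA := by
  intro Y' co co' K' h M t hd hM
  have hL := mem_iff hd hM
  have hp := pt_two co' t
  refine ⟨tr K' hL hp (fin_Lt co), fun z hz => ⟨fun hm => hz ((two_mem hL hp).1 hm), ?_⟩,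
    fun b => ?_⟩
  · exact NN_pr K' hL hp hz (Kum.cs_ne hz)
  · have h1 := (two_mem hL hp).2 (pt_two co b)
    have h2 := shift0 K' h1 (pt_two co' (aff M t b)) (pt_aff hM t b)
    ext y
    constructor
    · rintro ⟨c, u, rfl⟩
      refine ⟨ch h c u, (phi h c (ch h c u) (0, u)).2, ?_⟩
      rw [← h2, ← phi0]
      rfl
    · rintro ⟨c, u, rfl⟩
      have h3 := (NN_symm K' hL hp (dom0 h1 c u)).2
      rw [phi0, h2] at h3
      exact ⟨_, _, h3⟩

end Vale.Agent.P290Z.KT
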