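import Vale.Agent.P290Z.KT.Spec
import Vale.Agent.P290Z.KT.TrB0

/-! P290Z, block KT, step TRB: the Kummer surface of a torus is unique. -/

open Set Filter
open scoped Topology Manifold ContDiff

noncomputable section

namespace Vale.Agent.P290Z.KT

open Vale.Agent.P290
open Vale.Agent.P290.All (Kummer Dom Hol)

namespace TrB

variable {L : AddSubgroup V} {X Y : Type} [TopologicalSpace X] [ChartedSpace V X]
  [TopologicalSpace Y] [ChartedSpace V Y]

theorem exists_map (K : Kummer L X) (K' : Kummer L Y) :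
    ∃ f : X → Y, ∀ a b v, Dom L a b v → f (K.N a b v) = K'.N a b v := by
  choose a b v h1 h2 using K.cover
  exact ⟨fun y => K'.N (a y) (b y) (v y), fun a' b' v' h =>
    (K'.rel _ _ _ _ _ _ (h1 _) h).2 ((K.rel _ _ _ _ _ _ (h1 _) h).1 (h2 _))⟩

theorem inv_map (K : Kummer L X) (K' : Kummer L Y) {f : X → Y} {g : Y → X}
    (hf : ∀ a b v, Dom L a b v → f (K.N a b v) = K'.N a b v)
    (hg : ∀ a b v, Dom L a b v → g (K'.N a b v) = K.N a b v) (x : X) : g (f x) = x := by
  obtain ⟨a, b, v, h, rfl⟩ := K.cover x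
  rw [hf a b v h, hg a b v h]

theorem hol_map [IsManifold 𝓘(ℂ, V) ω X]
    (hfin : ∀ R : ℝ, {y : V | y ∈ L ∧ ‖y‖ ≤ R}.Finite) (K : Kummer L X) (K' : Kummer L Y)
    {f : X → Y} (hf : ∀ a b v, Dom L a b v → f (K.N a b v) = K'.N a b v) (x : X) : Hol f x := by
  obtain ⟨a, b, v, h, rfl⟩ := K.cover x
  exact hol_of_etale ((Kum.ev_dom hfin h).mono fun z hz => K.etale a b z hz) (K'.etale a b v h)
    ((Kum.ev_dom hfin h).mono fun z hz => hf a b z hz)

end TrB

open TrB in
theorem trB : StTrB := by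
  intro Y Y' L K K' hfin
  obtain ⟨f, hf⟩ := exists_map K K'
  obtain ⟨g, hg⟩ := exists_map K' K
  have h1 := hol_map hfin K K' hf
  have h2 := hol_map hfin K' K hg
  exact ⟨⟨⟨f, g, inv_map K K' hf hg, inv_map K' K hg hf⟩,
    continuous_iff_continuousAt.2 fun x => (h1 x).1,
    continuous_iff_continuousAt.2 fun x => (h2 x).1⟩, ⟨h1, h2⟩, hf⟩

end Vale.Agent.P290Z.KT
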