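import Vale.Agent.P290Z.KT.KLMain
import Vale.Agent.P290Z.KT.Tor
import Vale.Agent.P290Z.KT.Shi
import Vale.Agent.P290Z.KT.Aut
import Vale.Agent.P290Z.KT.Gen
import Vale.Agent.P290Z.KT.Conf
import Vale.Agent.P290Z.KT.EnL
import Vale.Agent.P290Z.KT.TrA
import Vale.Agent.P290Z.KT.TrB
import Vale.Agent.P290Z.KT.Pb
import Vale.Agent.P290Z.KT.Pull
import Vale.Agent.P290Z.W.BRPos
import Vale.Agent.P290Z.W.BRBih

/-! P290Z, part III, block KT: the Torelli theorem for generic Kummer surfaces follows from the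
theorem of Nikulin. -/

namespace Vale.Agent.P290Z.KT

theorem tork_main (hnik : Top.StNik) : Top.StTorK :=
  tork hnik W.BR.tamePos W.BR.bih kl_main api0 (ext api0 api1) (pl0 api0) (aut shi) gen per enL
    trA trB pb pull lconf

end Vale.Agent.P290Z.KT
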