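import Vale.Agent.P290Z.KT.LKm

/-! P290Z, block KT: isometries of the second exterior power of `ℤ⁴`. -/

open Matrix

namespace Vale.Agent.P290Z.KT.Shi

variable {R : Type} [CommRing R]

/-- four by four matrices -/
abbrev M4 (R : Type) : Type := Matrix (Fin 4) (Fin 4) R

/-- skew matrices -/
def Sk (A : M4 ℤ) : Prop := ∀ i j, A i j = -A j i

/-- the exterior product -/
def w (x y : Fin 4 → R) : M4 R := of fun i j => x i * y j - y i * x j

/-- the dual matrix -/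
def hat (A : M4 R) : M4 R :=
  !![0, A 2 3, -A 1 3, A 1 2; -A 2 3, 0, A 0 3, -A 0 2; A 1 3, -A 0 3, 0, A 0 1;
    -A 1 2, A 0 2, -A 0 1, 0]

theorem sk_w (x y : Fin 4 → ℤ) : Sk (w x y) := fun i j => by simp only [w, of_apply]; ring

theorem hat_hat {A : M4 ℤ} (h : Sk A) : hat (hat A) = A := by
  have h0 : ∀ i, A i i = 0 := fun i => by have := h i i; omega
  ext i j
  fin_cases i <;> fin_cases j <;> simp [hat, h0, h 1 0, h 2 0, h 3 0, h 2 1, h 3 1, h 3 2]

theorem sk_hat (A : M4 ℤ) : Sk (hat A) := fun i j => by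
  fin_cases i <;> fin_cases j <;> simp [hat]

theorem hat_smul (c : R) (A : M4 R) : hat (c • A) = c • hat A := by
  ext i j
  fin_cases i <;> fin_cases j <;> simp [hat]

theorem pf_hat (A B : M4 R) : pf (hat A) (hat B) = pf A B := by simp [pf, hat]; ring

theorem pf_smul (a b : R) (A B : M4 R) : pf (a • A) (b • B) = a * b * pf A B := by
  simp only [pf, Matrix.smul_apply, smul_eq_mul]; ring

theorem hat_mul (A B : M4 R) : hat A * hat (hat B) + hat B * hat (hat A) = -pf A B • 1 := by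
  ext i j
  fin_cases i <;> fin_cases j <;> simp [hat, pf, mul_apply, Fin.sum_univ_four] <;> ring

theorem mul1 {A B : M4 ℤ} (hA : Sk A) (hB : Sk B) : hat A * B + hat B * A = -pf A B • 1 := by
  rw [← hat_mul, hat_hat hA, hat_hat hB]

theorem mul2 {A B : M4 ℤ} (hA : Sk A) (hB : Sk B) : A * hat B + B * hat A = -pf A B • 1 := by
  rw [← pf_hat, ← mul1 (sk_hat A) (sk_hat B), hat_hat hA, hat_hat hB]

theorem half {A : M4 ℤ} (h : A + A = -(0 : ℤ) • 1) : A = 0 := by
  ext i j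
  have := congrFun (congrFun h i) j
  simp only [Matrix.add_apply, neg_zero, zero_smul, Matrix.zero_apply] at this ⊢
  omega

theorem triple (x y z t : Fin 4 → R) :
    w x y * hat (w x z) * w x t = pf (w x y) (w z t) • vecMulVec x x := by
  ext i j
  fin_cases i <;> fin_cases j <;>
    simp [hat, w, pf, mul_apply, Fin.sum_univ_four, vecMulVec_apply] <;> ring

theorem det_eq (M : M4 R) : M.det = pf (w (M 0) (M 1)) (w (M 2) (M 3)) := by
  simp [det_succ_row_zero, Fin.sum_univ_succ, Fin.succAbove, pf, w]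
  ring

/-- a form which is killed by two vectors -/
theorem exists_k {A C : M4 ℤ} (hA : Sk A) (hC : Sk C) (h0 : pf A A = 0) (h1 : pf A C = 1)
    {x y : Fin 4 → ℤ} (hx : hat A *ᵥ x = 0) (hy : hat A *ᵥ y = 0) : ∃ k : ℤ, w x y = k • A := by
  have e : ∀ x, hat A *ᵥ x = 0 → x = A *ᵥ (-(hat C *ᵥ x)) := fun x hx => by
    have := congrArg (· *ᵥ x) (mul2 hA hC)
    simp only [add_mulVec, ← mulVec_mulVec, hx, mulVec_zero, add_zero, h1, smul_mulVec,
      one_mulVec] at this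
    rw [mulVec_neg, this]
    simp
  have e2 : ∀ p q, w (A *ᵥ p) (A *ᵥ q) = -(A * w p q * A) := fun p q => by
    ext i j
    simp only [w, of_apply, neg_apply, mul_apply, mulVec, dotProduct, Fin.sum_univ_four, hA j 0,
      hA j 1, hA j 2, hA j 3]
    ring
  have h2 : hat A * A = 0 := half (h0 ▸ mul1 hA hA)
  rw [e x hx, e y hy, e2]
  have h4 := sk_w (-(hat C *ᵥ x)) (-(hat C *ᵥ y))
  generalize w (-(hat C *ᵥ x)) (-(hat C *ᵥ y)) = W at h4
  have h3 := mul2 hA (sk_hat W)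
  rw [hat_hat h4] at h3
  refine ⟨pf A (hat W), ?_⟩
  rw [eq_sub_of_add_eq h3, Matrix.sub_mul, Matrix.mul_assoc, h2]
  simp

/-- the primitive vector of an isotropic space -/
theorem exists_v {A B C : M4 ℤ} (hA : Sk A) (hB : Sk B) (hC : Sk C) (aa : pf A A = 0)
    (bb : pf B B = 0) (cc : pf C C = 0) (ab : pf A B = 0) (ac : pf A C = 0) (bc : pf B C = 0)
    {x y z t : Fin 4 → ZMod 2} (ha : A.map (↑) = w x y) (hb : B.map (↑) = w x z)
    (hc : C.map (↑) = w x t) (h : pf (w x y) (w z t) = 1) :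
    ∃ v u : Fin 4 → ℤ, (∀ i, (v i : ZMod 2) = x i) ∧ hat A *ᵥ v = 0 ∧ hat B *ᵥ v = 0 ∧
      hat C *ᵥ v = 0 ∧ u ⬝ᵥ v = 1 := by
  have a0 : hat A * A = 0 := half (aa ▸ mul1 hA hA)
  have b0 : B * hat B = 0 := half (bb ▸ mul2 hB hB)
  have c0 : hat C * C = 0 := half (cc ▸ mul1 hC hC)
  have e1 : hat B * A = -(hat A * B) := by
    rw [eq_neg_iff_add_eq_zero, add_comm, mul1 hA hB, ab]; simp
  have e2 : hat C * A = -(hat A * C) := by
    rw [eq_neg_iff_add_eq_zero, add_comm, mul1 hA hC, ac]; simp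
  have e3 : C * hat B = -(B * hat C) := by
    rw [eq_neg_iff_add_eq_zero, add_comm, mul2 hB hC, bc]; simp
  obtain ⟨T, hT⟩ : ∃ T, T = A * hat B * C := ⟨_, rfl⟩
  have t1 : hat A * T = 0 := by rw [hT, ← Matrix.mul_assoc, ← Matrix.mul_assoc, a0]; simp
  have t2 : hat B * T = 0 := by
    rw [hT, ← Matrix.mul_assoc, ← Matrix.mul_assoc, e1, Matrix.neg_mul, Matrix.mul_assoc _ B, b0]
    simp
  have t3 : hat C * T = 0 := by
    rw [hT, ← Matrix.mul_assoc, ← Matrix.mul_assoc, e2, Matrix.neg_mul, Matrix.mul_assoc _ C, e3,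
      Matrix.neg_mul, Matrix.mul_assoc, Matrix.neg_mul, Matrix.mul_assoc B, c0]
    simp
  have t4 : ∀ i j, (T i j : ZMod 2) = x i * x j := by
    have h1 : (hat B).map (↑) = hat (B.map (↑) : M4 (ZMod 2)) := by
      ext i j
      fin_cases i <;> fin_cases j <;> simp [hat]
    have h2 : T.map (Int.castRingHom (ZMod 2)) = vecMulVec x x := by
      rw [hT, Matrix.map_mul, Matrix.map_mul, Int.coe_castRingHom, h1, ha, hb, hc, triple, h,
        one_smul]
    exact fun i j => congrFun (congrFun h2 i) j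
  obtain ⟨c, hc⟩ : ∃ c, x c = 1 := by
    by_contra hn
    have h1 : ∀ r : ZMod 2, r ≠ 1 → r = 0 := by decide
    have h2 : ∀ i, x i = 0 := fun i => h1 _ fun hi => hn ⟨i, hi⟩
    simp [pf, w, h2] at h
  obtain ⟨u, hu⟩ := Finset.gcd_eq_sum_mul Finset.univ fun i => T i c
  choose v hv using fun i => Finset.gcd_dvd (f := fun i => T i c) (Finset.mem_univ i)
  generalize Finset.univ.gcd (fun i => T i c) = g at hu hv
  have g1 : (g : ZMod 2) = 1 := by
    have h1 : ∀ r s : ZMod 2, 1 * 1 = r * s → r = 1 := by decide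
    exact h1 _ (v c) (by rw [← Int.cast_mul, ← hv c, t4, hc])
  have g0 : g ≠ 0 := fun h0 => by simp [h0] at g1
  have k : ∀ D : M4 ℤ, D * T = 0 → D *ᵥ v = 0 := fun D hD => by
    ext i
    have h1 := congrFun (congrFun hD i) c
    simp only [mul_apply, hv, Matrix.zero_apply] at h1
    refine mul_left_cancel₀ g0 ?_
    rw [Pi.zero_apply, mul_zero, ← h1, mulVec, dotProduct, Finset.mul_sum]
    exact Finset.sum_congr rfl fun j _ => by ring
  refine ⟨v, u, fun i => ?_, k _ t1, k _ t2, k _ t3, mul_left_cancel₀ g0 ?_⟩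
  · have h1 := t4 i c
    rwa [hv, Int.cast_mul, g1, hc, one_mul, mul_one] at h1
  · rw [mul_one, dotProduct, Finset.mul_sum]
    refine Eq.trans (Finset.sum_congr rfl fun j _ => ?_) hu.symm
    rw [hv]; ring

theorem dvd_pf {A B C : M4 ℤ} {x y z t u : Fin 4 → ℤ} {a b c : ℤ} (ha : w x y = a • A)
    (hb : w x z = b • B) (hc : w x t = c • C) (hu : u ⬝ᵥ x = 1) :
    a * b * c ∣ pf (w x y) (w z t) := by
  have h := congrArg (fun D => u ⬝ᵥ D *ᵥ u) (triple x y z t)
  simp only [smul_mulVec, dotProduct_smul, vecMulVec_mulVec, dotProduct_comm x u, hu] at h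
  rw [hb, hc, hat_smul] at h
  nth_rw 1 [ha] at h
  refine ⟨u ⬝ᵥ (A * hat B * C) *ᵥ u, ?_⟩
  simp only [Matrix.smul_mul, Matrix.mul_smul, smul_mulVec, dotProduct_smul, smul_eq_mul] at h
  simp at h
  linear_combination -h

theorem unit_of {a b c d e f : ℤ} (h0 : a * f ≠ 0) (h1 : a * f = b * e) (h2 : a * f = c * d)
    (d0 : a * b * c ∣ a * f) (d1 : a * d * e ∣ a * f) (d2 : b * d * f ∣ a * f)
    (d3 : c * e * f ∣ a * f) : a * a = 1 ∧ b * b = 1 ∧ c * c = 1 ∧ (a * f) * (a * f) = 1 ∧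
      d * d = 1 := by
  have a0 := left_ne_zero_of_mul h0
  have f0 := right_ne_zero_of_mul h0
  rw [mul_assoc, mul_dvd_mul_iff_left a0] at d0 d1
  rw [mul_dvd_mul_iff_right f0] at d2 d3
  have k : ∀ x : ℤ, b * e * (x * x) ∣ a * f → IsUnit x := fun x hx => by
    rw [h1] at hx h0
    nth_rw 2 [← mul_one (b * e)] at hx
    exact isUnit_of_mul_isUnit_left (isUnit_of_dvd_one ((mul_dvd_mul_iff_left h0).1 hx))
  have ud := k d ((congrArg (· ∣ a * f) (by ring)).mp (mul_dvd_mul d2 d1))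
  have uc := k c ((congrArg (· ∣ a * f) (by ring)).mp (mul_dvd_mul d3 d0))
  have u : IsUnit (a * f) := h2 ▸ uc.mul ud
  exact ⟨Int.isUnit_mul_self (isUnit_of_mul_isUnit_left u),
    Int.isUnit_mul_self (isUnit_of_mul_isUnit_left (h1 ▸ u)), Int.isUnit_mul_self uc,
    Int.isUnit_mul_self u, Int.isUnit_mul_self ud⟩

theorem w_smul (a b : R) (x y : Fin 4 → R) : w (a • x) (b • y) = (a * b) • w x y := by
  ext i j
  simp only [w, of_apply, Pi.smul_apply, Matrix.smul_apply, smul_eq_mul]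
  ring

theorem w_comm (x y : Fin 4 → R) : w x y = -w y x := by
  ext i j
  simp only [w, of_apply, Matrix.neg_apply]
  ring

theorem main (el B : Fin 4 → Fin 4 → M4 ℤ) (m : M4 (ZMod 2)) (h1 : ∀ k l, Sk (B k l))
    (h2 : ∀ k l, B k l = -B l k) (h3 : ∀ k l k' l', pf (B k l) (B k' l') = pf (el k l) (el k' l'))
    (h4 : ∀ k l, (B k l).map (↑) = w (m k) (m l))
    (e1 : ∀ i j k, pf (el i j) (el i k) = 0)
    (e2 : ∀ i, ∃ j k l, pf (el i j) (el k l) = 1 ∧ ∀ n, n = i ∨ n = j ∨ n = k ∨ n = l)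
    (e3 : ∀ i j, i ≠ j → ∃ k l, pf (el i j) (el k l) = 1) (e4 : pf (el 0 1) (el 2 3) = 1)
    (e5 : pf (el 0 2) (el 1 3) = -1) (e6 : pf (el 0 3) (el 1 2) = 1) :
    ∃ (M : M4 ℤ) (ε : ℤ), M.det = 1 ∧ (ε = 1 ∨ ε = -1) ∧ (∀ i j, (M i j : ZMod 2) = m i j) ∧
      ∀ k l, B k l = ε • w (M k) (M l) := by
  have b0 : ∀ i, B i i = 0 := fun i => half (by nth_rw 1 [h2 i i]; simp)
  have h5 : ∀ i, ∃ v u : Fin 4 → ℤ, (∀ j, (v j : ZMod 2) = m i j) ∧ (∀ j, hat (B i j) *ᵥ v = 0) ∧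
      u ⬝ᵥ v = 1 := fun i => by
    obtain ⟨j, k, l, h6, h7⟩ := e2 i
    have z : ∀ j k, pf (B i j) (B i k) = 0 := fun j k => by rw [h3, e1]
    obtain ⟨v, u, v1, v2, v3, v4, v5⟩ := exists_v (h1 i j) (h1 i k) (h1 i l) (z _ _) (z _ _) (z _ _)
      (z _ _) (z _ _) (z _ _) (h4 i j) (h4 i k) (h4 i l) (by
        rw [← h4, ← h4, ← Int.cast_one, ← h6, ← h3]
        simp [pf])
    refine ⟨v, u, v1, fun n => ?_, v5⟩
    rcases h7 n with rfl | rfl | rfl | rfl
    · rw [b0, ← zero_smul ℤ (0 : M4 ℤ), hat_smul, zero_smul, zero_mulVec]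
    exacts [v2, v3, v4]
  choose v u v1 v2 v3 using h5
  have h6 : ∀ i j, ∃ k : ℤ, w (v i) (v j) = k • B i j := fun i j => by
    by_cases hij : i = j
    · exact ⟨0, by ext; simp [hij, w]⟩
    obtain ⟨k, l, h7⟩ := e3 i j hij
    refine exists_k (h1 i j) (h1 k l) (by rw [h3, e1]) (by rw [h3, h7]) (v2 i j) ?_
    rw [h2, ← neg_one_smul ℤ, hat_smul, smul_mulVec, v2, smul_zero]
  choose k hk using h6
  have hk' : ∀ i j, w (v i) (v j) = k j i • B i j := fun i j => by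
    rw [w_comm, hk, h2 i j, smul_neg]
  have D : pf (w (v 0) (v 1)) (w (v 2) (v 3)) = k 0 1 * k 2 3 := by
    rw [hk, hk, pf_smul, h3, e4, mul_one]
  have D0 : k 0 1 * k 2 3 ≠ 0 := fun h => by
    have h7 : ((pf (w (v 0) (v 1)) (w (v 2) (v 3)) : ℤ) : ZMod 2) = (pf (B 0 1) (B 2 3) : ℤ) := by
      have h8 : ∀ k l i j, (B k l i j : ZMod 2) = w (m k) (m l) i j := fun k l i j =>
        congrFun (congrFun (h4 k l) i) j
      simp [pf, w, v1, h8]
    rw [D, h, h3, e4] at h7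
    simp at h7
  have E1 : k 0 1 * k 2 3 = k 0 2 * k 1 3 := by
    have h7 := pf_smul (k 0 2) (k 1 3) (B 0 2) (B 1 3)
    rw [← hk, ← hk, h3, e5] at h7
    rw [← D]
    simp only [pf, w, of_apply] at h7 ⊢
    linear_combination -h7
  have E2 : k 0 1 * k 2 3 = k 0 3 * k 1 2 := by
    have h7 := pf_smul (k 0 3) (k 1 2) (B 0 3) (B 1 2)
    rw [← hk, ← hk, h3, e6] at h7
    rw [← D]
    simp only [pf, w, of_apply] at h7 ⊢
    linear_combination h7
  obtain ⟨u1, u2, u3, u4, u5⟩ := unit_of D0 E1 E2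
    (D ▸ dvd_pf (hk 0 1) (hk 0 2) (hk 0 3) (v3 0))
    (by
      have h7 := dvd_pf (hk' 1 0) (hk 1 3) (hk 1 2) (v3 1)
      rw [← D, mul_right_comm]
      exact (congrArg _ (by simp only [pf, w, of_apply]; ring)).mp h7)
    (by
      have h7 := dvd_pf (hk 2 3) (hk' 2 0) (hk' 2 1) (v3 2)
      rw [← D, mul_comm, ← mul_assoc]
      exact (congrArg _ (by simp only [pf, w, of_apply]; ring)).mp h7)
    (by
      have h7 := dvd_pf (hk' 3 2) (hk' 3 1) (hk' 3 0) (v3 3)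
      rw [← D, mul_comm, mul_comm (k 0 3), ← mul_assoc]
      exact (congrArg _ (by simp only [pf, w, of_apply]; ring)).mp h7)
  obtain ⟨ε, hε⟩ : ∃ ε, ε = k 1 2 * k 0 1 * k 0 2 := ⟨_, rfl⟩
  have ee : ε * ε = 1 := by
    rw [hε]
    linear_combination (k 0 1 * k 0 1 * (k 0 2 * k 0 2)) * u5 + (k 0 2 * k 0 2) * u1 + u2
  let d : Fin 4 → ℤ := ![1, ε * k 0 1, ε * k 0 2, ε * k 0 3]
  have dd : ∀ i, d i * d i = 1 := fun i => by
    fin_cases i <;> simp [d]
    exacts [by linear_combination (k 0 1 * k 0 1) * ee + u1,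
      by linear_combination (k 0 2 * k 0 2) * ee + u2,
      by linear_combination (k 0 3 * k 0 3) * ee + u3]
  have key : ∀ i j, i < j → ε * (d i * d j * k i j) = 1 := fun i j hij => by
    fin_cases i <;> fin_cases j <;> simp [d] at hij ⊢
    · linear_combination (k 0 1 * k 0 1) * ee + u1
    · linear_combination (k 0 2 * k 0 2) * ee + u2
    · linear_combination (k 0 3 * k 0 3) * ee + u3
    · linear_combination (ε * k 0 1 * k 0 2 * k 1 2 + 1) * ee - ε * hε
    · linear_combination (ε * k 0 1 * k 0 3 * k 1 3) * ee + (k 0 1 * k 0 3 * k 1 3) * hε +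
        (k 1 2 * k 0 2 * k 0 3 * k 1 3) * u1 + u4 - (k 0 1 * k 2 3) * E1 - (k 0 2 * k 1 3) * E2
    · linear_combination (ε * k 0 2 * k 0 3 * k 2 3) * ee + (k 0 2 * k 0 3 * k 2 3) * hε +
        (k 1 2 * k 0 1 * k 0 3 * k 2 3) * u2 + u4 - (k 0 1 * k 2 3) * E2
  have fin : ∀ i j, B i j = ε • w (d i • v i) (d j • v j) := fun i j => by
    wlog hij : i < j generalizing i j
    · rcases (not_lt.1 hij).eq_or_lt with rfl | h
      · rw [b0]
        ext
        simp [w]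
      · rw [h2, this j i h, w_comm (d i • v i), smul_neg]
    rw [w_smul, hk, smul_smul, smul_smul, mul_assoc, key i j hij, one_smul]
  refine ⟨of fun i => d i • v i, ε, ?_, Int.eq_one_or_neg_one_of_mul_eq_one ee, fun i j => ?_, fin⟩
  · have h7 := h3 0 1 2 3
    rw [fin, fin 2 3, pf_smul, ee, one_mul, e4] at h7
    exact (det_eq _).trans h7
  · rcases Int.eq_one_or_neg_one_of_mul_eq_one (dd i) with h | h <;> simp [h, v1]

end Vale.Agent.P290Z.KT.Shi
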